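import Vale.Agent.Lib.P074.Core

open MeasureTheory Set
open scoped ENNReal NNReal

namespace Vale.Agent.P074

variable {d : ℕ} {K : Set (E d)}

theorem scalar_cell {R m β a b P I : ℝ} (hR : 0 < R) (hm : 0 < m) (hβ1 : 2 / 3 * m ≤ β)
    (b1 : 7 / 2 * R ^ 2 ≤ b) (b2 : b ≤ 4 * R ^ 2) (hP : 0 ≤ P)
    (hI : √(m * β) * ((a + b) / 2 + (P + (a - b) ^ 2 / R ^ 2) / 16) ≤ I) :
    m * P / 32 ≤ I - a * m / 2 - b * β / 2 + 4 * R ^ 2 * ((m - β) ^ 2 / m) := by
  obtain ⟨r, hr⟩ : ∃ r : ℝ, r = √(β / m) := ⟨_, rfl⟩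
  have hκ : 2 / 3 ≤ β / m := by rw [le_div_iff₀ hm]; linarith
  have hr0 : 0 ≤ r := by rw [hr]; positivity
  have hr2 : r ^ 2 = β / m := by rw [hr]; exact Real.sq_sqrt (by linarith)
  have hβ : β = r ^ 2 * m := by rw [hr2]; field_simp
  have hr1 : 1 / 2 ≤ r := by nlinarith
  have hs : √(m * β) = m * r := by
    rw [hβ, show m * (r ^ 2 * m) = (m * r) ^ 2 by ring, Real.sqrt_sq (by positivity)]
  rw [hs] at hI
  obtain ⟨t, ht⟩ : ∃ t : ℝ, t = (a - b) / R := ⟨_, rfl⟩
  have ht2 : (a - b) ^ 2 / R ^ 2 = t ^ 2 := by rw [ht]; field_simp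
  have hab : a = b + t * R := by rw [ht]; field_simp; ring
  rw [ht2] at hI
  have hE : (m - β) ^ 2 / m = m * (1 - r ^ 2) ^ 2 := by
    rw [hβ]; field_simp
  rw [hE, hβ]
  have h1 : (1 - r) ^ 2 ≤ (1 - r ^ 2) ^ 2 := by
    have : (1 - r ^ 2) ^ 2 = (1 - r) ^ 2 * (1 + r) ^ 2 := by ring
    rw [this]
    have h2 : 1 ≤ (1 + r) ^ 2 := by nlinarith
    nlinarith [sq_nonneg (1 - r)]
  have key : P / 32 ≤ r * ((a + b) / 2 + (P + t ^ 2) / 16) - a / 2 - b * r ^ 2 / 2 +
      4 * R ^ 2 * (1 - r ^ 2) ^ 2 := by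
    have e1 : r * ((a + b) / 2) - a / 2 - b * r ^ 2 / 2 =
        -((1 - r) * (t * R)) / 2 - (1 - r) ^ 2 * b / 2 := by
      rw [hab]; ring
    have e2 : (1 - r) * (t * R) / 2 ≤ t ^ 2 / 32 + 2 * R ^ 2 * (1 - r) ^ 2 := by
      nlinarith [sq_nonneg (t / 4 - 2 * R * (1 - r))]
    have e3 : (1 - r) ^ 2 * b / 2 ≤ 2 * R ^ 2 * (1 - r) ^ 2 := by
      nlinarith [sq_nonneg (1 - r)]
    have e4 : P / 32 + t ^ 2 / 32 ≤ r * ((P + t ^ 2) / 16) := by
      nlinarith [sq_nonneg t]
    have e5 : R ^ 2 * (1 - r) ^ 2 ≤ R ^ 2 * (1 - r ^ 2) ^ 2 := by gcongr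
    linarith
  have hfin := mul_le_mul_of_nonneg_left key hm.le
  have e : m * (r * ((a + b) / 2 + (P + t ^ 2) / 16) - a / 2 - b * r ^ 2 / 2 +
      4 * R ^ 2 * (1 - r ^ 2) ^ 2) = m * r * ((a + b) / 2 + (P + t ^ 2) / 16) - a * m / 2 -
      b * (r ^ 2 * m) / 2 + 4 * R ^ 2 * (m * (1 - r ^ 2) ^ 2) := by ring
  rw [e] at hfin
  linarith

theorem sq_setIntegral_le {σ : Measure (E d)} [IsFiniteMeasure σ] {B : Set (E d)} {u : E d → ℝ}
    (hu : Integrable u (σ.restrict B)) (hu2 : Integrable (fun x => u x ^ 2) (σ.restrict B)) :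
    (∫ x in B, u x ∂σ) ^ 2 ≤ σ.real B * ∫ x in B, u x ^ 2 ∂σ := by
  obtain ⟨c, hc⟩ : ∃ c : ℝ, c = (∫ x in B, u x ∂σ) / σ.real B := ⟨_, rfl⟩
  rcases (measureReal_nonneg (μ := σ) (s := B)).eq_or_lt with h0 | hpos
  · have h1 : σ.restrict B = 0 := by
      rw [Measure.restrict_eq_zero]
      exact (measureReal_eq_zero_iff).1 h0.symm
    rw [h1]; simp
  · have h1 : 0 ≤ ∫ x in B, (u x - c) ^ 2 ∂σ := integral_nonneg fun x => sq_nonneg _
    have h2 : ∫ x in B, (u x - c) ^ 2 ∂σ =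
        (∫ x in B, u x ^ 2 ∂σ) - 2 * c * (∫ x in B, u x ∂σ) + c ^ 2 * σ.real B := by
      have e : (fun x => (u x - c) ^ 2) = fun x => (u x ^ 2 - 2 * c * u x) + c ^ 2 := by
        funext x; ring
      have i1 : Integrable (fun x => u x ^ 2 - 2 * c * u x) (σ.restrict B) :=
        hu2.sub (hu.const_mul (2 * c))
      rw [e, integral_add i1 (integrable_const _), integral_sub hu2 (hu.const_mul (2 * c)),
        integral_const_mul, setIntegral_const, smul_eq_mul]
      ring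
    rw [h2] at h1
    have h3 : (∫ x in B, u x ∂σ) = c * σ.real B := by rw [hc]; field_simp
    rw [h3] at h1 ⊢
    nlinarith

theorem barycenter_stability (hK : IsCompact K) (hKc : Convex ℝ K) (hKi : (interior K).Nonempty)
    {R : ℝ} (hR : 0 < R) (hKR : ∀ x ∈ K, ‖x‖ ≤ R)
    {ι : Type} [Fintype ι] [Nonempty ι] {y : ι → E d} (hy : Function.Injective y)
    {w w' : ι → ℝ} {h : E d → ℝ} (hh : Measurable h) (h1 : ∀ x, 1 / 2 ≤ h x)
    (h2 : ∀ x, h x ≤ 3 / 2) {m : ι → ℝ} (hm : ∀ i, 0 < m i)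
    (hA : ∀ i, (unif K).real (cell K y w i) = m i)
    (hB : ∀ i, ∫ x in cell K y w' i, h x ∂(unif K) = m i) :
    ∑ i, (m i)⁻¹ * ‖(∫ x in cell K y w' i, h x • x ∂(unif K)) -
      ∫ x in cell K y w i, x ∂(unif K)‖ ^ 2 ≤ 528 * R ^ 2 * ∫ x, (h x - 1) ^ 2 ∂(unif K) := by
  have hprob := isProbabilityMeasure_unif hK hKi
  have hbd : ∀ x, |h x - 1| ≤ 1 / 2 := fun x => by
    rw [abs_le]; constructor <;> linarith [h1 x, h2 x]
  have ih : Integrable h (unif K) :=
    Integrable.of_bound hh.aestronglyMeasurable (3 / 2)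
      (ae_of_all _ fun x => by rw [Real.norm_eq_abs, abs_le]; constructor <;> linarith [h1 x, h2 x])
  have ih1 : Integrable (fun x => h x - 1) (unif K) := ih.sub (integrable_const _)
  have ih2 : Integrable (fun x => (h x - 1) ^ 2) (unif K) :=
    Integrable.of_bound (by fun_prop) 1
      (ae_of_all _ fun x => by
        rw [Real.norm_eq_abs, abs_of_nonneg (sq_nonneg _), ← sq_abs]
        nlinarith [hbd x, abs_nonneg (h x - 1)])
  have ihx : Integrable (fun x : E d => x) (unif K) := integrable_of_continuous hK hKi continuous_id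
  have iW : Integrable (fun x : E d => Wt R x) (unif K) :=
    integrable_of_continuous hK hKi (continuous_Wt R)
  have haeR : ∀ᵐ x ∂(unif K), ‖x‖ ≤ R := by
    filter_upwards [ae_mem_unif hK] with x hx using hKR x hx
  -- per cell estimate
  have hcell : ∀ i, (m i)⁻¹ * ‖(∫ x in cell K y w' i, h x • x ∂(unif K)) -
      ∫ x in cell K y w i, x ∂(unif K)‖ ^ 2 ≤
      528 * R ^ 2 * (∫ x in cell K y w' i, (h x - 1) ^ 2 ∂(unif K)) +
      64 * ((∫ x in cell K y (fun j => (w j + w' j) / 2) i, Wt R x ∂(unif K)) -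
        (∫ x in cell K y w i, Wt R x ∂(unif K)) / 2 -
        (∫ x in cell K y w' i, Wt R x ∂(unif K)) / 2) := by
    intro i
    have hmi := hm i
    obtain ⟨β, hβ⟩ : ∃ β : ℝ, (unif K).real (cell K y w' i) = β := ⟨_, rfl⟩
    have hB1 : m i ≤ 3 / 2 * β := by
      rw [← hB i, ← hβ]
      calc ∫ x in cell K y w' i, h x ∂(unif K) ≤ ∫ x in cell K y w' i, (3 / 2 : ℝ) ∂(unif K) :=
            integral_mono ih.integrableOn (integrable_const _) h2
        _ = 3 / 2 * (unif K).real (cell K y w' i) := by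
            rw [setIntegral_const, smul_eq_mul]; ring
    have hB2 : β ≤ 2 * m i := by
      have : ∫ x in cell K y w' i, (1 / 2 : ℝ) ∂(unif K) ≤ ∫ x in cell K y w' i, h x ∂(unif K) :=
        integral_mono (integrable_const _) ih.integrableOn h1
      rw [setIntegral_const, smul_eq_mul, hB i, hβ] at this
      linarith
    have hβ0 : 0 < β := by linarith
    obtain ⟨a, ha⟩ : ∃ a : ℝ, a = (∫ x in cell K y w i, Wt R x ∂(unif K)) / m i := ⟨_, rfl⟩
    obtain ⟨b, hb⟩ : ∃ b : ℝ, b = (∫ x in cell K y w' i, Wt R x ∂(unif K)) / β := ⟨_, rfl⟩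
    obtain ⟨bA, hbA⟩ : ∃ bA : E d, bA = (m i)⁻¹ • ∫ x in cell K y w i, x ∂(unif K) := ⟨_, rfl⟩
    obtain ⟨bB, hbB⟩ : ∃ bB : E d, bB = β⁻¹ • ∫ x in cell K y w' i, x ∂(unif K) := ⟨_, rfl⟩
    have hpair := pair_ineq hK hKc hKi hR hKR (measurableSet_cell hK y w i)
      (measurableSet_cell hK y w' i) (measurableSet_cell hK y (fun j => (w j + w' j) / 2) i)
      (cell_subset y w i) (cell_subset y w' i) (cell_subset y _ i)
      (fun x hx x' hx' => mid_mem_cell hKc hx hx') (hA i) hβ hmi hβ0 ha hb hbA hbB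
    obtain ⟨b1, b2, b3⟩ := avg_bounds hK hKi hKR (A := cell K y w' i) (by rw [hβ]; exact hβ0)
    rw [hβ, ← hb] at b1 b2
    rw [hβ, ← hbB] at b3
    have hsc := scalar_cell hR hmi (by linarith) b1 b2 (sq_nonneg ‖bA - bB‖) hpair
    have hIA : ∫ x in cell K y w i, Wt R x ∂(unif K) = a * m i := by rw [ha]; field_simp
    have hIB : ∫ x in cell K y w' i, Wt R x ∂(unif K) = b * β := by rw [hb]; field_simp
    have hJA : ∫ x in cell K y w i, x ∂(unif K) = m i • bA := by
      rw [hbA, smul_smul, mul_inv_cancel₀ hmi.ne', one_smul]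
    have hJB : ∫ x in cell K y w' i, x ∂(unif K) = β • bB := by
      rw [hbB, smul_smul, mul_inv_cancel₀ hβ0.ne', one_smul]
    obtain ⟨Q, hQ⟩ : ∃ Q : ℝ, Q = ∫ x in cell K y w' i, (h x - 1) ^ 2 ∂(unif K) := ⟨_, rfl⟩
    have hQ0 : 0 ≤ Q := by rw [hQ]; exact integral_nonneg fun x => sq_nonneg _
    -- (m - β)² ≤ β Q
    have hc1 : (m i - β) ^ 2 ≤ β * Q := by
      have e := sq_setIntegral_le (σ := unif K) (B := cell K y w' i) ih1.integrableOn
        ih2.integrableOn
      rw [integral_sub ih.integrableOn (integrable_const _), hB i, setIntegral_const, hβ,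
        smul_eq_mul, mul_one, ← hQ] at e
      exact e
    have hc2 : (m i - β) ^ 2 / m i ≤ 2 * Q := by
      rw [div_le_iff₀ hmi]
      nlinarith
    -- shift
    have hsh : (∫ x in cell K y w' i, h x • x ∂(unif K)) - m i • bB =
        ∫ x in cell K y w' i, (h x - 1) • (x - bB) ∂(unif K) := by
      have i1 : Integrable (fun x : E d => h x • x) ((unif K).restrict (cell K y w' i)) := by
        refine Integrable.of_bound (by fun_prop) (3 / 2 * R) (ae_restrict_of_ae ?_)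
        filter_upwards [haeR] with x hx
        rw [norm_smul, Real.norm_eq_abs, abs_of_nonneg (by linarith [h1 x])]
        exact mul_le_mul (h2 x) hx (norm_nonneg _) (by norm_num)
      have i2 : Integrable (fun x : E d => h x • bB) ((unif K).restrict (cell K y w' i)) :=
        ih.integrableOn.smul_const bB
      have i3 : Integrable (fun x : E d => x) ((unif K).restrict (cell K y w' i)) :=
        ihx.integrableOn
      have e : (fun x : E d => (h x - 1) • (x - bB)) =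
          fun x => (h x • x - h x • bB) - (x - bB) := by
        funext x; rw [smul_sub, sub_smul, sub_smul, one_smul, one_smul]; abel
      have i4 : Integrable (fun x : E d => h x • x - h x • bB)
          ((unif K).restrict (cell K y w' i)) := i1.sub i2
      have i5 : Integrable (fun x : E d => x - bB)
          ((unif K).restrict (cell K y w' i)) := i3.sub (integrable_const _)
      rw [e, integral_sub i4 i5, integral_sub i1 i2, integral_sub i3 (integrable_const _),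
        integral_smul_const, hB i, hJB, setIntegral_const, hβ, sub_self, sub_zero]
    have hshn : ‖(∫ x in cell K y w' i, h x • x ∂(unif K)) - m i • bB‖ ^ 2 ≤
        4 * R ^ 2 * (β * Q) := by
      rw [hsh]
      have e1 : ‖∫ x in cell K y w' i, (h x - 1) • (x - bB) ∂(unif K)‖ ≤
          2 * R * ∫ x in cell K y w' i, |h x - 1| ∂(unif K) := by
        rw [← integral_const_mul]
        refine norm_integral_le_of_norm_le (ih1.abs.const_mul (2 * R)).integrableOn
          (ae_restrict_of_ae ?_)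
        filter_upwards [haeR] with x hx
        rw [norm_smul, Real.norm_eq_abs, mul_comm]
        refine mul_le_mul_of_nonneg_right ?_ (abs_nonneg _)
        exact (norm_sub_le _ _).trans (by linarith)
      have e2 := sq_setIntegral_le (σ := unif K) (B := cell K y w' i) ih1.abs.integrableOn
        (by simpa only [sq_abs] using (ih2.integrableOn (s := cell K y w' i)).integrable)
      simp only [sq_abs] at e2
      rw [hβ, ← hQ] at e2
      calc ‖∫ x in cell K y w' i, (h x - 1) • (x - bB) ∂(unif K)‖ ^ 2 ≤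
          (2 * R * ∫ x in cell K y w' i, |h x - 1| ∂(unif K)) ^ 2 :=
            pow_le_pow_left₀ (norm_nonneg _) e1 2
        _ = 4 * R ^ 2 * (∫ x in cell K y w' i, |h x - 1| ∂(unif K)) ^ 2 := by ring
        _ ≤ 4 * R ^ 2 * (β * Q) := by gcongr
    -- combine
    rw [hJA, ← hQ, hIA, hIB]
    have e0 : (∫ x in cell K y w' i, h x • x ∂(unif K)) - m i • bA =
        ((∫ x in cell K y w' i, h x • x ∂(unif K)) - m i • bB) - m i • (bA - bB) := by
      rw [smul_sub]; abel
    have e1 : ‖(∫ x in cell K y w' i, h x • x ∂(unif K)) - m i • bA‖ ^ 2 ≤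
        2 * (4 * R ^ 2 * (β * Q)) + 2 * (m i ^ 2 * ‖bA - bB‖ ^ 2) := by
      rw [e0]
      have n1 := norm_sub_le ((∫ x in cell K y w' i, h x • x ∂(unif K)) - m i • bB)
        (m i • (bA - bB))
      have n2 : ‖m i • (bA - bB)‖ = m i * ‖bA - bB‖ := by
        rw [norm_smul, Real.norm_eq_abs, abs_of_pos hmi]
      rw [n2] at n1
      have n3 := norm_nonneg (((∫ x in cell K y w' i, h x • x ∂(unif K)) - m i • bB) -
        m i • (bA - bB))
      have n4 : ‖((∫ x in cell K y w' i, h x • x ∂(unif K)) - m i • bB) -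
        m i • (bA - bB)‖ ^ 2 ≤
          (‖(∫ x in cell K y w' i, h x • x ∂(unif K)) - m i • bB‖ + m i * ‖bA - bB‖) ^ 2 :=
        pow_le_pow_left₀ n3 n1 2
      nlinarith [sq_nonneg (‖(∫ x in cell K y w' i, h x • x ∂(unif K)) - m i • bB‖ -
        m i * ‖bA - bB‖)]
    have e2 : (m i)⁻¹ * ‖(∫ x in cell K y w' i, h x • x ∂(unif K)) - m i • bA‖ ^ 2 ≤
        8 * R ^ 2 * (β / m i) * Q + 2 * (m i * ‖bA - bB‖ ^ 2) := by
      calc _ ≤ (m i)⁻¹ * (2 * (4 * R ^ 2 * (β * Q)) + 2 * (m i ^ 2 * ‖bA - bB‖ ^ 2)) := by gcongr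
        _ = _ := by field_simp; ring
    have e3 : 8 * R ^ 2 * (β / m i) * Q ≤ 16 * R ^ 2 * Q := by
      have : β / m i ≤ 2 := by rw [div_le_iff₀ hmi]; exact hB2
      calc 8 * R ^ 2 * (β / m i) * Q ≤ 8 * R ^ 2 * 2 * Q := by gcongr
        _ = _ := by ring
    have e4 : 4 * R ^ 2 * ((m i - β) ^ 2 / m i) ≤ 4 * R ^ 2 * (2 * Q) := by gcongr
    nlinarith
  calc ∑ i, (m i)⁻¹ * ‖(∫ x in cell K y w' i, h x • x ∂(unif K)) -
      ∫ x in cell K y w i, x ∂(unif K)‖ ^ 2
      ≤ ∑ i, (528 * R ^ 2 * (∫ x in cell K y w' i, (h x - 1) ^ 2 ∂(unif K)) +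
      64 * ((∫ x in cell K y (fun j => (w j + w' j) / 2) i, Wt R x ∂(unif K)) -
        (∫ x in cell K y w i, Wt R x ∂(unif K)) / 2 -
        (∫ x in cell K y w' i, Wt R x ∂(unif K)) / 2)) := Finset.sum_le_sum fun i _ => hcell i
    _ = 528 * R ^ 2 * ∫ x, (h x - 1) ^ 2 ∂(unif K) := by
        have s := fun w'' : ι → ℝ => integral_sum_cells hK (unif K) unif_absolutelyContinuous
          (ae_mem_unif hK) hy w'' iW
        have s2 := integral_sum_cells hK (unif K) unif_absolutelyContinuous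
          (ae_mem_unif hK) hy w' ih2
        rw [Finset.sum_add_distrib, ← Finset.mul_sum, ← Finset.mul_sum, s2,
          Finset.sum_sub_distrib, Finset.sum_sub_distrib, ← Finset.sum_div, ← Finset.sum_div,
          s, s, s]
        ring

end Vale.Agent.P074
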