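import Vale.Agent.Lib.P074.Defs

open MeasureTheory Set
open scoped ENNReal NNReal

namespace Vale.Agent.P074

namespace L1

/-- One-dimensional Brunn-Minkowski at the midpoint, compact sets. -/
theorem bm_compact {K₁ K₂ C : Set ℝ} (h1 : IsCompact K₁) (h2 : IsCompact K₂)
    (n1 : K₁.Nonempty) (n2 : K₂.Nonempty)
    (H : ∀ x ∈ K₁, ∀ y ∈ K₂, (1 / 2 : ℝ) * (x + y) ∈ C) :
    volume K₁ + volume K₂ ≤ 2 * volume C := by
  obtain ⟨a, haK, ha⟩ := h1.exists_isGreatest n1
  obtain ⟨b, hbK, hb⟩ := h2.exists_isLeast n2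
  set S₁ : Set ℝ := (fun z : ℝ => 2 * z) ⁻¹' ((fun z : ℝ => z + -b) ⁻¹' K₁) with hS₁
  set S₂ : Set ℝ := (fun z : ℝ => 2 * z) ⁻¹' ((fun z : ℝ => z + -a) ⁻¹' K₂) with hS₂
  have v1 : volume S₁ = 2⁻¹ * volume K₁ := by
    rw [hS₁, Real.volume_preimage_mul_left (by norm_num : (2 : ℝ) ≠ 0),
      measure_preimage_add_right]
    congr 1
    rw [abs_of_pos (by norm_num : (0 : ℝ) < 2⁻¹), ENNReal.ofReal_inv_of_pos (by norm_num)]
    norm_num
  have v2 : volume S₂ = 2⁻¹ * volume K₂ := by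
    rw [hS₂, Real.volume_preimage_mul_left (by norm_num : (2 : ℝ) ≠ 0),
      measure_preimage_add_right]
    congr 1
    rw [abs_of_pos (by norm_num : (0 : ℝ) < 2⁻¹), ENNReal.ofReal_inv_of_pos (by norm_num)]
    norm_num
  have sub : S₁ ∪ S₂ ⊆ C := by
    rintro z (hz | hz)
    · have := H (2 * z + -b) hz b hbK
      have e : (1 / 2 : ℝ) * ((2 * z + -b) + b) = z := by ring
      rwa [e] at this
    · have := H a haK (2 * z + -a) hz
      have e : (1 / 2 : ℝ) * (a + (2 * z + -a)) = z := by ring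
      rwa [e] at this
  have inter : S₁ ∩ S₂ ⊆ {(a + b) / 2} := by
    rintro z ⟨hz1, hz2⟩
    have i1 : 2 * z + -b ≤ a := ha hz1
    have i2 : b ≤ 2 * z + -a := hb hz2
    rw [mem_singleton_iff]
    linarith
  have i0 : volume (S₁ ∩ S₂) = 0 := measure_mono_null inter (by simp)
  have m2 : MeasurableSet S₂ := by
    have : MeasurableSet K₂ := h2.measurableSet
    exact (measurable_const_mul 2) ((measurable_id.add_const (-a)) this)
  have key : volume (S₁ ∪ S₂) = volume S₁ + volume S₂ := by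
    have := measure_union_add_inter (μ := (volume : Measure ℝ)) S₁ m2
    rwa [i0, add_zero] at this
  have := measure_mono (μ := (volume : Measure ℝ)) sub
  rw [key, v1, v2, ← mul_add] at this
  calc volume K₁ + volume K₂ = 2 * (2⁻¹ * (volume K₁ + volume K₂)) := by
        rw [← mul_assoc, ENNReal.mul_inv_cancel (by norm_num) (by norm_num), one_mul]
    _ ≤ 2 * volume C := by gcongr

/-- One-dimensional Brunn-Minkowski at the midpoint, measurable sets. -/
theorem bm {A B C : Set ℝ} (hA : MeasurableSet A) (hB : MeasurableSet B)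
    (nA : A.Nonempty) (nB : B.Nonempty)
    (H : ∀ x ∈ A, ∀ y ∈ B, (1 / 2 : ℝ) * (x + y) ∈ C) :
    volume A + volume B ≤ 2 * volume C := by
  obtain ⟨a, ha⟩ := nA
  obtain ⟨b, hb⟩ := nB
  have s0 : ∀ K₁ ⊆ A, IsCompact K₁ → ∀ K₂ ⊆ B, IsCompact K₂ →
      volume K₁ + volume K₂ ≤ 2 * volume C := by
    intro K₁ hK1 c1 K₂ hK2 c2
    calc volume K₁ + volume K₂ ≤ volume (insert a K₁) + volume (insert b K₂) := by
          gcongr <;> exact subset_insert _ _
      _ ≤ 2 * volume C := by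
          refine bm_compact (c1.insert a) (c2.insert b) ⟨a, by simp⟩ ⟨b, by simp⟩ ?_
          intro x hx y hy
          refine H x ?_ y ?_
          · rcases hx with rfl | hx
            · exact ha
            · exact hK1 hx
          · rcases hy with rfl | hy
            · exact hb
            · exact hK2 hy
  have s1 : ∀ K₂ ⊆ B, IsCompact K₂ → volume A + volume K₂ ≤ 2 * volume C := by
    intro K₂ hK2 c2
    have fin : volume K₂ ≠ ∞ := c2.measure_lt_top.ne
    have le0 : volume K₂ ≤ 2 * volume C := by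
      have := s0 ∅ (empty_subset _) isCompact_empty K₂ hK2 c2
      simpa using this
    have : volume A ≤ 2 * volume C - volume K₂ := by
      rw [hA.measure_eq_iSup_isCompact]
      refine iSup_le fun K₁ => iSup_le fun hK1 => iSup_le fun c1 => ?_
      exact ENNReal.le_sub_of_add_le_right fin (s0 K₁ hK1 c1 K₂ hK2 c2)
    calc volume A + volume K₂ ≤ (2 * volume C - volume K₂) + volume K₂ := by gcongr
      _ = 2 * volume C := tsub_add_cancel_of_le le0
  by_cases hAt : volume A = ∞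
  · have := s1 ∅ (empty_subset _) isCompact_empty
    rw [hAt] at this ⊢
    simp only [measure_empty, add_zero, top_le_iff] at this
    rw [this]
    exact le_top
  · have le0 : volume A ≤ 2 * volume C := by
      have := s1 ∅ (empty_subset _) isCompact_empty
      simpa using this
    have : volume B ≤ 2 * volume C - volume A := by
      rw [hB.measure_eq_iSup_isCompact]
      refine iSup_le fun K₁ => iSup_le fun hK1 => iSup_le fun c1 => ?_
      refine ENNReal.le_sub_of_add_le_left hAt (s1 K₁ hK1 c1)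
    calc volume A + volume B ≤ volume A + (2 * volume C - volume A) := by gcongr
      _ = 2 * volume C := add_tsub_cancel_of_le le0

/-- Normalised one-dimensional inequality. -/
theorem one_norm {φ ψ χ : ℝ → ℝ} (mφ : Measurable φ) (mψ : Measurable ψ) (mχ : Measurable χ)
    (φ0 : ∀ x, 0 ≤ φ x) (ψ0 : ∀ x, 0 ≤ ψ x) (χ0 : ∀ x, 0 ≤ χ x)
    (φ1 : ∀ x, φ x ≤ 1) (ψ1 : ∀ x, ψ x ≤ 1)
    (sφ : ∀ t < 1, ∃ x, t < φ x) (sψ : ∀ t < 1, ∃ x, t < ψ x)
    (H : ∀ x y, φ x * ψ y ≤ χ ((1 / 2 : ℝ) * (x + y)) ^ 2) :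
    (∫⁻ x, ENNReal.ofReal (φ x)) + (∫⁻ x, ENNReal.ofReal (ψ x))
      ≤ 2 * ∫⁻ x, ENNReal.ofReal (χ x) := by
  rw [lintegral_eq_lintegral_meas_lt _ (Filter.Eventually.of_forall φ0) mφ.aemeasurable,
    lintegral_eq_lintegral_meas_lt _ (Filter.Eventually.of_forall ψ0) mψ.aemeasurable,
    lintegral_eq_lintegral_meas_lt _ (Filter.Eventually.of_forall χ0) mχ.aemeasurable,
    ← lintegral_const_mul' _ _ (by norm_num : (2 : ℝ≥0∞) ≠ ∞)]
  refine (le_lintegral_add _ _).trans ?_
  refine setLIntegral_mono' measurableSet_Ioi ?_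
  intro t ht
  have ht0 : (0 : ℝ) < t := ht
  rcases lt_or_ge t 1 with h1 | h1
  · refine bm (mφ measurableSet_Ioi) (mψ measurableSet_Ioi) (sφ t h1) (sψ t h1) ?_
    intro x hx y hy
    have hx' : t < φ x := hx
    have hy' : t < ψ y := hy
    have := H x y
    have h2 : t ^ 2 < χ ((1 / 2 : ℝ) * (x + y)) ^ 2 := by nlinarith
    exact lt_of_pow_lt_pow_left₀ 2 (χ0 _) h2
  · have e1 : {a : ℝ | t < φ a} = ∅ := by
      ext x; simp only [mem_ofPred_eq, mem_empty_iff_false, iff_false, not_lt]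
      exact (φ1 x).trans h1
    have e2 : {a : ℝ | t < ψ a} = ∅ := by
      ext x; simp only [mem_ofPred_eq, mem_empty_iff_false, iff_false, not_lt]
      exact (ψ1 x).trans h1
    simp [e1, e2]

theorem amgm {A B C : ℝ≥0∞} (h : A + B ≤ 2 * C) : A * B ≤ C ^ 2 := by
  by_cases hC : C = ∞
  · simp [hC]
  have h2C : (2 * C) ≠ ∞ := ENNReal.mul_ne_top (by norm_num) hC
  have hA : A ≠ ∞ := ne_top_of_le_ne_top h2C (le_self_add.trans h)
  have hB : B ≠ ∞ := ne_top_of_le_ne_top h2C (le_add_self.trans h)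
  lift A to ℝ≥0 using hA
  lift B to ℝ≥0 using hB
  lift C to ℝ≥0 using hC
  have h' : A + B ≤ 2 * C := by exact_mod_cast h
  have : A * B ≤ C ^ 2 := by
    rw [← NNReal.coe_le_coe] at h' ⊢
    push_cast at h' ⊢
    nlinarith [sq_nonneg ((A : ℝ) - B), A.2, B.2, C.2]
  exact_mod_cast this

/-- One-dimensional Prekopa-Leindler, bounded functions. -/
theorem one_bdd {f g h : ℝ → ℝ≥0∞} (hf : Measurable f) (hg : Measurable g) (hh : Measurable h)
    {M : ℝ≥0∞} (hM : M ≠ ∞) (fM : ∀ x, f x ≤ M) (gM : ∀ x, g x ≤ M)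
    (H : ∀ x y, f x * g y ≤ h ((1 / 2 : ℝ) * (x + y)) ^ 2) :
    (∫⁻ x, f x) * (∫⁻ x, g x) ≤ (∫⁻ x, h x) ^ 2 := by
  set F : ℝ≥0∞ := ⨆ x, f x with hF
  set G : ℝ≥0∞ := ⨆ x, g x with hG
  have fF : ∀ x, f x ≤ F := fun x => le_iSup f x
  have gG : ∀ x, g x ≤ G := fun x => le_iSup g x
  have Ft : F ≠ ∞ := ne_top_of_le_ne_top hM (iSup_le fM)
  have Gt : G ≠ ∞ := ne_top_of_le_ne_top hM (iSup_le gM)
  by_cases F0 : F = 0
  · have : ∀ x, f x = 0 := fun x => le_antisymm (F0 ▸ fF x) bot_le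
    simp [this]
  by_cases G0 : G = 0
  · have : ∀ x, g x = 0 := fun x => le_antisymm (G0 ▸ gG x) bot_le
    simp [this]
  have FG0 : F * G ≠ 0 := mul_ne_zero F0 G0
  have FGt : F * G ≠ ∞ := ENNReal.mul_ne_top Ft Gt
  obtain ⟨s, hs⟩ : ∃ s : ℝ≥0∞, s ^ 2 = F * G := by
    refine ⟨(F * G) ^ (1 / 2 : ℝ), ?_⟩
    rw [← ENNReal.rpow_natCast, ← ENNReal.rpow_mul]
    norm_num
  have s0 : s ≠ 0 := by
    rintro rfl
    apply FG0
    rw [← hs]; simp
  have st : s ≠ ∞ := by
    rintro rfl
    apply FGt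
    rw [← hs]; simp
  -- normalised functions
  have fin1 : ∀ x, f x / F ≠ ∞ := fun x => ENNReal.div_ne_top (ne_top_of_le_ne_top Ft (fF x)) F0
  have fin2 : ∀ x, g x / G ≠ ∞ := fun x => ENNReal.div_ne_top (ne_top_of_le_ne_top Gt (gG x)) G0
  have fin3 : ∀ x, min (h x) s / s ≠ ∞ := fun x =>
    ENNReal.div_ne_top (ne_top_of_le_ne_top st (min_le_right _ _)) s0
  have key := one_norm (φ := fun x => (f x / F).toReal) (ψ := fun x => (g x / G).toReal)
    (χ := fun x => (min (h x) s / s).toReal)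
    ((hf.div_const F).ennreal_toReal) ((hg.div_const G).ennreal_toReal)
    (((hh.min measurable_const).div_const s).ennreal_toReal)
    (fun x => ENNReal.toReal_nonneg) (fun x => ENNReal.toReal_nonneg)
    (fun x => ENNReal.toReal_nonneg)
    (fun x => by
      have : f x / F ≤ 1 := ENNReal.div_le_of_le_mul (by simpa using fF x)
      exact ENNReal.toReal_le_of_le_ofReal zero_le_one (by simpa using this))
    (fun x => by
      have : g x / G ≤ 1 := ENNReal.div_le_of_le_mul (by simpa using gG x)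
      exact ENNReal.toReal_le_of_le_ofReal zero_le_one (by simpa using this))
    (fun t ht => by
      by_contra hcon
      push Not at hcon
      rcases lt_or_ge t 0 with h0 | h0
      · exact absurd (hcon 0) (not_le.2 (lt_of_lt_of_le h0 ENNReal.toReal_nonneg))
      have hle : ∀ x, f x ≤ ENNReal.ofReal t * F := by
        intro x
        have h1 : f x / F ≤ ENNReal.ofReal t := ENNReal.le_ofReal_iff_toReal_le (fin1 x) h0 |>.2 (hcon x)
        exact (ENNReal.div_le_iff F0 Ft).1 h1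
      have h2 : F ≤ ENNReal.ofReal t * F := iSup_le hle
      have h3 : ENNReal.ofReal t * F < 1 * F := by
        rw [ENNReal.mul_lt_mul_iff_left F0 Ft]
        simpa using ht
      rw [one_mul] at h3
      exact absurd h2 (not_le.2 h3))
    (fun t ht => by
      by_contra hcon
      push Not at hcon
      rcases lt_or_ge t 0 with h0 | h0
      · exact absurd (hcon 0) (not_le.2 (lt_of_lt_of_le h0 ENNReal.toReal_nonneg))
      have hle : ∀ x, g x ≤ ENNReal.ofReal t * G := by
        intro x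
        have h1 : g x / G ≤ ENNReal.ofReal t := ENNReal.le_ofReal_iff_toReal_le (fin2 x) h0 |>.2 (hcon x)
        exact (ENNReal.div_le_iff G0 Gt).1 h1
      have h2 : G ≤ ENNReal.ofReal t * G := iSup_le hle
      have h3 : ENNReal.ofReal t * G < 1 * G := by
        rw [ENNReal.mul_lt_mul_iff_left G0 Gt]
        simpa using ht
      rw [one_mul] at h3
      exact absurd h2 (not_le.2 h3))
    (fun x y => by
      rw [← ENNReal.toReal_mul, ← ENNReal.toReal_pow]
      refine ENNReal.toReal_mono (ENNReal.pow_ne_top (fin3 _)) ?_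
      have hle : f x * g y ≤ (min (h ((1 / 2 : ℝ) * (x + y))) s) ^ 2 := by
        rcases le_total (h ((1 / 2 : ℝ) * (x + y))) s with hl | hl
        · rw [min_eq_left hl]; exact H x y
        · rw [min_eq_right hl, hs]; exact mul_le_mul' (fF x) (gG y)
      calc f x / F * (g y / G) = (f x * g y) / (F * G) := by
            rw [div_eq_mul_inv, div_eq_mul_inv, div_eq_mul_inv,
              ENNReal.mul_inv (Or.inl F0) (Or.inl Ft)]
            ring
        _ ≤ (min (h ((1 / 2 : ℝ) * (x + y))) s) ^ 2 / (F * G) := by gcongr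
        _ = (min (h ((1 / 2 : ℝ) * (x + y))) s / s) ^ 2 := by
            rw [← hs]
            generalize min (h ((1 / 2 : ℝ) * (x + y))) s = w
            rw [div_eq_mul_inv, div_eq_mul_inv, mul_pow, ENNReal.inv_pow])
  simp only [ENNReal.ofReal_toReal (fin1 _), ENNReal.ofReal_toReal (fin2 _),
    ENNReal.ofReal_toReal (fin3 _)] at key
  have k2 : (∫⁻ x, f x) / F + (∫⁻ x, g x) / G ≤ 2 * ((∫⁻ x, h x) / s) := by
    have e1 : (∫⁻ x, f x / F) = (∫⁻ x, f x) / F := by
      simp only [div_eq_mul_inv]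
      rw [lintegral_mul_const' _ _ (ENNReal.inv_ne_top.2 F0)]
    have e2 : (∫⁻ x, g x / G) = (∫⁻ x, g x) / G := by
      simp only [div_eq_mul_inv]
      rw [lintegral_mul_const' _ _ (ENNReal.inv_ne_top.2 G0)]
    have e3 : (∫⁻ x, min (h x) s / s) ≤ (∫⁻ x, h x) / s := by
      simp only [div_eq_mul_inv]
      rw [← lintegral_mul_const' _ _ (ENNReal.inv_ne_top.2 s0)]
      exact lintegral_mono fun x => by gcongr; exact min_le_left _ _
    rw [e1, e2] at key
    exact key.trans (by gcongr)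
  have k3 := amgm k2
  calc (∫⁻ x, f x) * (∫⁻ x, g x)
      = (F * G) * (((∫⁻ x, f x) / F) * ((∫⁻ x, g x) / G)) := by
        rw [show (F * G) * (((∫⁻ x, f x) / F) * ((∫⁻ x, g x) / G))
          = (F * ((∫⁻ x, f x) / F)) * (G * ((∫⁻ x, g x) / G)) by ring,
          ENNReal.mul_div_cancel F0 Ft, ENNReal.mul_div_cancel G0 Gt]
    _ ≤ (F * G) * ((∫⁻ x, h x) / s) ^ 2 := by gcongr
    _ = (s * ((∫⁻ x, h x) / s)) ^ 2 := by rw [← hs, mul_pow]
    _ = (∫⁻ x, h x) ^ 2 := by rw [ENNReal.mul_div_cancel s0 st]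

/-- The midpoint Prekopa-Leindler property of a measure on a real vector space. -/
def PL {X : Type*} [AddCommGroup X] [Module ℝ X] [MeasurableSpace X] (μ : Measure X) : Prop :=
  ∀ f g h : X → ℝ≥0∞, Measurable f → Measurable g → Measurable h →
    (∀ x y, f x * g y ≤ h ((1 / 2 : ℝ) • (x + y)) ^ 2) →
      (∫⁻ x, f x ∂μ) * (∫⁻ x, g x ∂μ) ≤ (∫⁻ x, h x ∂μ) ^ 2

theorem pl_real : PL (volume : Measure ℝ) := by
  intro f g h hf hg hh H
  have ef : ∀ x, f x = ⨆ n : ℕ, min (f x) n := by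
    intro x
    rw [← inf_iSup_eq, ENNReal.iSup_natCast, inf_top_eq]
  have eg : ∀ x, g x = ⨆ n : ℕ, min (g x) n := by
    intro x
    rw [← inf_iSup_eq, ENNReal.iSup_natCast, inf_top_eq]
  have mf : Monotone fun (n : ℕ) (x : ℝ) => min (f x) (n : ℝ≥0∞) := by
    intro n m hnm x
    exact min_le_min le_rfl (by exact_mod_cast hnm)
  have mg : Monotone fun (n : ℕ) (x : ℝ) => min (g x) (n : ℝ≥0∞) := by
    intro n m hnm x
    exact min_le_min le_rfl (by exact_mod_cast hnm)
  have If : ∫⁻ x, f x = ⨆ n : ℕ, ∫⁻ x, min (f x) n := by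
    rw [← lintegral_iSup (fun n => hf.min measurable_const) mf]
    exact lintegral_congr ef
  have Ig : ∫⁻ x, g x = ⨆ n : ℕ, ∫⁻ x, min (g x) n := by
    rw [← lintegral_iSup (fun n => hg.min measurable_const) mg]
    exact lintegral_congr eg
  rw [If, Ig, ENNReal.iSup_mul]
  refine iSup_le fun n => ?_
  rw [ENNReal.mul_iSup]
  refine iSup_le fun m => ?_
  refine one_bdd (hf.min measurable_const) (hg.min measurable_const) hh
    (M := max (n : ℝ≥0∞) m) (by simp) (fun x => (min_le_right _ _).trans (le_max_left _ _))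
    (fun x => (min_le_right _ _).trans (le_max_right _ _)) ?_
  intro x y
  exact (mul_le_mul' (min_le_left _ _) (min_le_left _ _)).trans (H x y)

theorem pl_prod {X Y : Type*} [AddCommGroup X] [Module ℝ X] [MeasurableSpace X]
    [AddCommGroup Y] [Module ℝ Y] [MeasurableSpace Y] {μ : Measure X} {ν : Measure Y}
    [SFinite μ] [SFinite ν] (h1 : PL μ) (h2 : PL ν) : PL (μ.prod ν) := by
  intro f g h hf hg hh H
  rw [lintegral_prod _ hf.aemeasurable, lintegral_prod _ hg.aemeasurable,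
    lintegral_prod _ hh.aemeasurable]
  refine h1 _ _ _ hf.lintegral_prod_right' hg.lintegral_prod_right' hh.lintegral_prod_right' ?_
  intro x x'
  refine h2 (fun y => f (x, y)) (fun y => g (x', y)) (fun y => h ((1 / 2 : ℝ) • (x + x'), y))
    (hf.comp measurable_prodMk_left) (hg.comp measurable_prodMk_left)
    (hh.comp measurable_prodMk_left) ?_
  intro y y'
  simpa using H (x, y) (x', y')

theorem pl_equiv {X Y : Type*} [AddCommGroup X] [Module ℝ X] [MeasurableSpace X]
    [AddCommGroup Y] [Module ℝ Y] [MeasurableSpace Y] {μ : Measure X} {ν : Measure Y}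
    (e : X ≃ᵐ Y) (he : MeasurePreserving e μ ν)
    (hlin : ∀ x y, e ((1 / 2 : ℝ) • (x + y)) = (1 / 2 : ℝ) • (e x + e y)) (h2 : PL ν) : PL μ := by
  intro f g h hf hg hh H
  have t : ∀ k : X → ℝ≥0∞, ∫⁻ x, k x ∂μ = ∫⁻ y, k (e.symm y) ∂ν := by
    intro k
    rw [← he.lintegral_comp_emb e.measurableEmbedding]
    simp
  rw [t f, t g, t h]
  refine h2 _ _ _ (hf.comp e.symm.measurable) (hg.comp e.symm.measurable)
    (hh.comp e.symm.measurable) ?_
  intro x y
  have := H (e.symm x) (e.symm y)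
  have e1 : e.symm ((1 / 2 : ℝ) • (x + y)) = (1 / 2 : ℝ) • (e.symm x + e.symm y) := by
    apply e.injective
    rw [hlin]
    simp
  rw [← e1] at this
  exact this

theorem pl_pi (n : ℕ) : PL (volume : Measure (Fin n → ℝ)) := by
  induction n with
  | zero =>
    intro f g h hf hg hh H
    rw [Measure.volume_pi_eq_dirac (default : Fin 0 → ℝ)]
    simp only [lintegral_dirac]
    have := H default default
    rwa [show ((1 / 2 : ℝ) • ((default : Fin 0 → ℝ) + default)) = default from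
      Subsingleton.elim _ _] at this
  | succ n ih =>
    refine pl_equiv (MeasurableEquiv.piFinSuccAbove (fun _ : Fin (n + 1) => ℝ) 0)
      (volume_preserving_piFinSuccAbove (fun _ : Fin (n + 1) => ℝ) 0) ?_ (pl_prod pl_real ih)
    intro x y
    rfl

end L1

/-- L1: Prekopa-Leindler at the midpoint (all functions measurable, values in [0,∞]). -/
theorem prekopa_leindler_half {d : ℕ} (f g h : E d → ℝ≥0∞) (hf : Measurable f) (hg : Measurable g)
    (hh : Measurable h) (H : ∀ x y, f x * g y ≤ h ((1 / 2 : ℝ) • (x + y)) ^ 2) :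
    (∫⁻ x, f x) * (∫⁻ x, g x) ≤ (∫⁻ x, h x) ^ 2 := by
  refine L1.pl_equiv (MeasurableEquiv.toLp 2 (Fin d → ℝ)).symm
    (PiLp.volume_preserving_ofLp (Fin d)) ?_ (L1.pl_pi d) f g h hf hg hh H
  intro x y
  rfl

end Vale.Agent.P074
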