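import Vale.Agent.Lib.P074.Defs
import Vale.Agent.Lib.P074.L1

open MeasureTheory Set
open scoped ENNReal NNReal

namespace Vale.Agent.P074

variable {d : ℕ}

/-! ### The uniform measure -/

section Unif

variable {K : Set (E d)}

theorem volume_pos_of (hKi : (interior K).Nonempty) : 0 < volume K :=
  (isOpen_interior.measure_pos volume hKi).trans_le (measure_mono interior_subset)

theorem isProbabilityMeasure_unif (hK : IsCompact K) (hKi : (interior K).Nonempty) :
    IsProbabilityMeasure (unif K) := by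
  refine ⟨?_⟩
  unfold unif
  rw [Measure.smul_apply, Measure.restrict_apply_univ, smul_eq_mul]
  exact ENNReal.inv_mul_cancel (volume_pos_of hKi).ne' hK.measure_lt_top.ne

theorem ae_mem_unif (hK : IsCompact K) : ∀ᵐ x ∂(unif K), x ∈ K := by
  unfold unif
  exact Measure.ae_smul_measure (ae_restrict_mem hK.measurableSet) _

theorem unif_absolutelyContinuous : unif K ≪ volume := by
  unfold unif
  exact (Measure.absolutelyContinuous_of_le Measure.restrict_le_self).smul_left _

/-- Prekopa-Leindler for the uniform measure on a convex body. -/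
theorem prekopa_unif (hK : IsCompact K) (hKc : Convex ℝ K) (f g h : E d → ℝ≥0∞)
    (hf : Measurable f) (hg : Measurable g) (hh : Measurable h)
    (H : ∀ x ∈ K, ∀ y ∈ K, f x * g y ≤ h ((1 / 2 : ℝ) • (x + y)) ^ 2) :
    (∫⁻ x, f x ∂(unif K)) * (∫⁻ x, g x ∂(unif K)) ≤ (∫⁻ x, h x ∂(unif K)) ^ 2 := by
  have hKm := hK.measurableSet
  have key := prekopa_leindler_half (K.indicator f) (K.indicator g) (K.indicator h)
    (hf.indicator hKm) (hg.indicator hKm) (hh.indicator hKm) (by
      intro x y
      by_cases hx : x ∈ K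
      · by_cases hy : y ∈ K
        · have hxy : (1 / 2 : ℝ) • (x + y) ∈ K := by
            have := hKc hx hy (by norm_num : (0 : ℝ) ≤ 1 / 2) (by norm_num : (0 : ℝ) ≤ 1 / 2)
              (by norm_num)
            simpa [smul_add] using this
          rw [indicator_of_mem hx, indicator_of_mem hy, indicator_of_mem hxy]
          exact H x hx y hy
        · rw [indicator_of_notMem hy, mul_zero]; exact zero_le
      · rw [indicator_of_notMem hx, zero_mul]; exact zero_le)
  simp only [lintegral_indicator hKm] at key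
  unfold unif
  simp only [lintegral_smul_measure, smul_eq_mul]
  calc (volume K)⁻¹ * (∫⁻ x in K, f x) * ((volume K)⁻¹ * ∫⁻ x in K, g x)
      = (volume K)⁻¹ ^ 2 * ((∫⁻ x in K, f x) * ∫⁻ x in K, g x) := by ring
    _ ≤ (volume K)⁻¹ ^ 2 * (∫⁻ x in K, h x) ^ 2 := by gcongr
    _ = ((volume K)⁻¹ * ∫⁻ x in K, h x) ^ 2 := by ring

end Unif

/-! ### Laguerre cells -/

section Cell

variable {ι : Type} {K : Set (E d)}

/-- Laguerre cell -/
def cell (K : Set (E d)) (y : ι → E d) (w : ι → ℝ) (i : ι) : Set (E d) :=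
  {x | x ∈ K ∧ ∀ j, inner ℝ x (y j) - w j ≤ inner ℝ x (y i) - w i}

theorem cell_subset (y : ι → E d) (w : ι → ℝ) (i : ι) : cell K y w i ⊆ K := fun _ hx => hx.1

theorem measurableSet_cell [Fintype ι] (hK : IsCompact K) (y : ι → E d) (w : ι → ℝ) (i : ι) :
    MeasurableSet (cell K y w i) := by
  have : cell K y w i = K ∩ ⋂ j, {x | inner ℝ x (y j) - w j ≤ inner ℝ x (y i) - w i} := by
    ext x; simp [cell]
  rw [this]
  refine hK.measurableSet.inter (MeasurableSet.iInter fun j => ?_)
  exact measurableSet_le (by fun_prop) (by fun_prop)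

/-- a hyperplane is Lebesgue null -/
theorem volume_hyperplane {v : E d} (hv : v ≠ 0) (c : ℝ) :
    volume {x : E d | inner ℝ x v = c} = 0 := by
  by_cases hne : {x : E d | inner ℝ x v = c}.Nonempty
  · obtain ⟨x0, hx0⟩ := hne
    have hx0' : inner ℝ x0 v = c := hx0
    have h1 : {x : E d | inner ℝ x v = c} = (fun x => x - x0) ⁻¹' ((ℝ ∙ v)ᗮ : Submodule ℝ (E d)) := by
      ext x
      simp only [mem_ofPred_eq, mem_preimage, SetLike.mem_coe,
        Submodule.mem_orthogonal_singleton_iff_inner_left, inner_sub_left]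
      rw [hx0', sub_eq_zero]
    rw [h1]
    have h2 : MeasurePreserving (fun x : E d => x - x0) volume volume :=
      measurePreserving_sub_right volume x0
    rw [h2.measure_preimage (Submodule.closed_of_finiteDimensional _).measurableSet.nullMeasurableSet]
    apply Measure.addHaar_submodule
    intro h
    have : v ∈ (ℝ ∙ v)ᗮ := by rw [h]; trivial
    rw [Submodule.mem_orthogonal_singleton_iff_inner_left] at this
    exact hv (inner_self_eq_zero.1 this)
  · rw [not_nonempty_iff_eq_empty.1 hne]; simp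

theorem ae_unique_cell [Fintype ι] (σ : Measure (E d)) (hσ : σ ≪ volume) (hσK : ∀ᵐ x ∂σ, x ∈ K)
    [Nonempty ι] {y : ι → E d} (hy : Function.Injective y) (w : ι → ℝ) :
    ∀ᵐ x ∂σ, ∃! i, x ∈ cell K y w i := by
  have h1 : ∀ i j, i ≠ j → ∀ᵐ x ∂σ, inner ℝ x (y i) - w i ≠ inner ℝ x (y j) - w j := by
    intro i j hij
    have hvol : ∀ᵐ x ∂(volume : Measure (E d)), inner ℝ x (y i) - w i ≠ inner ℝ x (y j) - w j := by
      rw [ae_iff]
      have hne : y i - y j ≠ 0 := sub_ne_zero.2 (fun h => hij (hy h))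
      refine measure_mono_null ?_ (volume_hyperplane hne (w i - w j))
      intro x hx
      simp only [ne_eq, not_not, mem_ofPred_eq] at hx ⊢
      rw [inner_sub_right]
      linarith
    exact hσ.ae_le hvol
  have h2 : ∀ᵐ x ∂σ, ∀ i j, i ≠ j → inner ℝ x (y i) - w i ≠ inner ℝ x (y j) - w j := by
    rw [ae_all_iff]; intro i
    rw [ae_all_iff]; intro j
    by_cases hij : i = j
    · exact ae_of_all _ fun x h => absurd hij h
    · filter_upwards [h1 i j hij] with x hx _ using hx
  filter_upwards [h2, hσK] with x hx hxK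
  obtain ⟨i, -, hi⟩ := Finset.exists_max_image Finset.univ
    (fun j => inner ℝ x (y j) - w j) Finset.univ_nonempty
  refine ⟨i, ⟨hxK, fun j => hi j (Finset.mem_univ j)⟩, ?_⟩
  intro k hk
  by_contra hki
  exact hx k i hki (le_antisymm (hi k (Finset.mem_univ k)) (hk.2 i))

theorem integral_sum_cells [Fintype ι] (hK : IsCompact K) (σ : Measure (E d)) (hσ : σ ≪ volume)
    (hσK : ∀ᵐ x ∂σ, x ∈ K) [Nonempty ι] {y : ι → E d} (hy : Function.Injective y) (w : ι → ℝ)
    {F : Type*} [NormedAddCommGroup F] [NormedSpace ℝ F]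
    {f : E d → F} (hf : Integrable f σ) :
    ∑ i, ∫ x in cell K y w i, f x ∂σ = ∫ x, f x ∂σ := by
  classical
  have h1 : ∀ i, ∫ x in cell K y w i, f x ∂σ = ∫ x, (cell K y w i).indicator f x ∂σ :=
    fun i => (integral_indicator (measurableSet_cell hK y w i)).symm
  simp only [h1]
  rw [← integral_finsetSum _ fun i _ => hf.indicator (measurableSet_cell hK y w i)]
  refine integral_congr_ae ?_
  filter_upwards [ae_unique_cell σ hσ hσK hy w] with x hx
  obtain ⟨i, hi, huni⟩ := hx
  rw [Finset.sum_eq_single i]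
  · rw [indicator_of_mem hi]
  · intro j _ hji
    rw [indicator_of_notMem]
    intro hj
    exact hji (huni j hj)
  · simp

/-- midpoints of cells lie in the mid cell -/
theorem mid_mem_cell (hKc : Convex ℝ K) {y : ι → E d} {w w' : ι → ℝ} {i : ι} {x x' : E d}
    (hx : x ∈ cell K y w i) (hx' : x' ∈ cell K y w' i) :
    (1 / 2 : ℝ) • (x + x') ∈ cell K y (fun j => (w j + w' j) / 2) i := by
  refine ⟨?_, fun j => ?_⟩
  · have := hKc hx.1 hx'.1 (by norm_num : (0 : ℝ) ≤ 1 / 2) (by norm_num : (0 : ℝ) ≤ 1 / 2)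
      (by norm_num)
    simpa [smul_add] using this
  · have h1 := hx.2 j
    have h2 := hx'.2 j
    simp only [inner_smul_left, inner_add_left, RCLike.conj_to_real]
    linarith

end Cell

end Vale.Agent.P074
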