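import Vale.Agent.Lib.P074.Cells

open MeasureTheory Set
open scoped ENNReal NNReal

namespace Vale.Agent.P074

variable {d : ℕ} {K : Set (E d)}

/-- real-valued form of Prekopa-Leindler on the uniform measure -/
theorem prekopa_real (hK : IsCompact K) (hKc : Convex ℝ K) (hKi : (interior K).Nonempty)
    {A B C : Set (E d)} (hA : MeasurableSet A) (hB : MeasurableSet B) (hC : MeasurableSet C)
    {f g W : E d → ℝ} (hf : Continuous f)
    (hg : Continuous g) (hW : Continuous W) (hf0 : ∀ x ∈ A, 0 ≤ f x) (hg0 : ∀ x ∈ B, 0 ≤ g x)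
    (hW0 : ∀ x ∈ C, 0 ≤ W x)
    (H : ∀ x ∈ A, ∀ x' ∈ B, (1 / 2 : ℝ) • (x + x') ∈ C ∧
      f x * g x' ≤ W ((1 / 2 : ℝ) • (x + x')) ^ 2) :
    (∫ x in A, f x ∂(unif K)) * (∫ x in B, g x ∂(unif K)) ≤ (∫ x in C, W x ∂(unif K)) ^ 2 := by
  have := isProbabilityMeasure_unif hK hKi
  have hint : ∀ φ : E d → ℝ, Continuous φ → ∀ S : Set (E d), IntegrableOn φ S (unif K) := by
    intro φ hφ S
    have h1 : Integrable φ (unif K) := by
      obtain ⟨M, hM⟩ := hK.exists_bound_of_continuousOn hφ.continuousOn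
      refine Integrable.of_bound hφ.aestronglyMeasurable M ?_
      filter_upwards [ae_mem_unif hK] with x hx using hM x hx
    exact h1.integrableOn
  have key := prekopa_unif hK hKc (A.indicator fun x => ENNReal.ofReal (f x))
    (B.indicator fun x => ENNReal.ofReal (g x)) (C.indicator fun x => ENNReal.ofReal (W x))
    ((by fun_prop : Measurable fun x => ENNReal.ofReal (f x)).indicator hA)
    ((by fun_prop : Measurable fun x => ENNReal.ofReal (g x)).indicator hB)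
    ((by fun_prop : Measurable fun x => ENNReal.ofReal (W x)).indicator hC) (by
      intro x _ y _
      by_cases hx : x ∈ A
      · by_cases hy : y ∈ B
        · obtain ⟨h1, h2⟩ := H x hx y hy
          rw [indicator_of_mem hx, indicator_of_mem hy, indicator_of_mem h1,
            ← ENNReal.ofReal_mul (hf0 x hx), ← ENNReal.ofReal_pow (hW0 _ h1)]
          exact ENNReal.ofReal_le_ofReal h2
        · rw [indicator_of_notMem hy, mul_zero]; exact zero_le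
      · rw [indicator_of_notMem hx, zero_mul]; exact zero_le)
  rw [lintegral_indicator hA, lintegral_indicator hB, lintegral_indicator hC] at key
  rw [← ofReal_integral_eq_lintegral_ofReal (hint f hf A)
      ((ae_restrict_iff' hA).2 (ae_of_all _ hf0)),
    ← ofReal_integral_eq_lintegral_ofReal (hint g hg B)
      ((ae_restrict_iff' hB).2 (ae_of_all _ hg0)),
    ← ofReal_integral_eq_lintegral_ofReal (hint W hW C)
      ((ae_restrict_iff' hC).2 (ae_of_all _ hW0))] at key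
  have i1 : 0 ≤ ∫ x in A, f x ∂(unif K) := setIntegral_nonneg hA hf0
  have i3 : 0 ≤ ∫ x in C, W x ∂(unif K) := setIntegral_nonneg hC hW0
  rw [← ENNReal.ofReal_mul i1, ← ENNReal.ofReal_pow i3] at key
  exact (ENNReal.ofReal_le_ofReal_iff (by positivity)).1 key

/-- the strongly concave weight -/
noncomputable def Wt (R : ℝ) (x : E d) : ℝ := 4 * R ^ 2 - ‖x‖ ^ 2 / 2

theorem continuous_Wt (R : ℝ) : Continuous (Wt (d := d) R) := by unfold Wt; fun_prop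

theorem Wt_mid (R : ℝ) (x x' : E d) :
    Wt R ((1 / 2 : ℝ) • (x + x')) = (Wt R x + Wt R x') / 2 + ‖x - x'‖ ^ 2 / 8 := by
  unfold Wt
  rw [norm_smul, mul_pow, norm_add_sq_real, norm_sub_sq_real]
  norm_num
  ring

theorem Wt_bounds {R : ℝ} {x : E d} (hx : ‖x‖ ≤ R) :
    7 / 2 * R ^ 2 ≤ Wt R x ∧ Wt R x ≤ 4 * R ^ 2 := by
  unfold Wt
  have h0 := norm_nonneg x
  constructor <;> nlinarith

/-- difference of the weights is controlled by the distance -/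
theorem Wt_lip {R : ℝ} {x x' : E d} (hx : ‖x‖ ≤ R) (hx' : ‖x'‖ ≤ R) :
    |Wt R x - Wt R x'| ≤ R * ‖x - x'‖ := by
  unfold Wt
  have h1 : |‖x‖ - ‖x'‖| ≤ ‖x - x'‖ := abs_norm_sub_norm_le x x'
  have h2 : 4 * R ^ 2 - ‖x‖ ^ 2 / 2 - (4 * R ^ 2 - ‖x'‖ ^ 2 / 2) =
      -((‖x‖ + ‖x'‖) / 2) * (‖x‖ - ‖x'‖) := by ring
  rw [h2, abs_mul, abs_neg, abs_of_nonneg (by positivity)]
  have h0 := norm_nonneg x
  have h0' := norm_nonneg x'
  have h3 := norm_nonneg (x - x')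
  have h4 := abs_nonneg (‖x‖ - ‖x'‖)
  nlinarith

theorem integrable_of_continuous (hK : IsCompact K) (hKi : (interior K).Nonempty)
    {F : Type*} [NormedAddCommGroup F] [SecondCountableTopologyEither (E d) F]
    {φ : E d → F} (hφ : Continuous φ) : Integrable φ (unif K) := by
  have := isProbabilityMeasure_unif hK hKi
  obtain ⟨M, hM⟩ := hK.exists_bound_of_continuousOn hφ.continuousOn
  refine Integrable.of_bound hφ.aestronglyMeasurable M ?_
  filter_upwards [ae_mem_unif hK] with x hx using hM x hx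

/-- average of an affine-type function -/
theorem integral_affine (hK : IsCompact K) (hKi : (interior K).Nonempty) (A : Set (E d))
    (R c1 c3 : ℝ) (p : E d) :
    ∫ x in A, (c1 * Wt R x + inner ℝ p x / 4 + c3) ∂(unif K) =
      c1 * (∫ x in A, Wt R x ∂(unif K)) + inner ℝ p (∫ x in A, x ∂(unif K)) / 4 +
        c3 * (unif K).real A := by
  have := isProbabilityMeasure_unif hK hKi
  have h1 : Integrable (fun x : E d => Wt R x) ((unif K).restrict A) :=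
    (integrable_of_continuous hK hKi (continuous_Wt R)).integrableOn
  have h2 : Integrable (fun x : E d => x) ((unif K).restrict A) :=
    (integrable_of_continuous hK hKi continuous_id).integrableOn
  have h3 : Integrable (fun x : E d => inner ℝ p x) ((unif K).restrict A) :=
    (integrable_of_continuous hK hKi (by fun_prop)).integrableOn
  have h4 : Integrable (fun x : E d => c1 * Wt R x) ((unif K).restrict A) := h1.const_mul c1
  have h5 : Integrable (fun x : E d => inner ℝ p x / 4) ((unif K).restrict A) := h3.div_const 4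
  have h6 : Integrable (fun x : E d => c1 * Wt R x + inner ℝ p x / 4) ((unif K).restrict A) :=
    h4.add h5
  rw [integral_add h6 (integrable_const c3), integral_add h4 h5, integral_const_mul, integral_div,
    integral_inner h2, setIntegral_const, smul_eq_mul]
  ring

theorem avg_bounds (hK : IsCompact K) (hKi : (interior K).Nonempty) {R : ℝ}
    (hKR : ∀ x ∈ K, ‖x‖ ≤ R) {A : Set (E d)} (hα : 0 < (unif K).real A) :
    7 / 2 * R ^ 2 ≤ (∫ x in A, Wt R x ∂(unif K)) / (unif K).real A ∧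
    (∫ x in A, Wt R x ∂(unif K)) / (unif K).real A ≤ 4 * R ^ 2 ∧
    ‖((unif K).real A)⁻¹ • ∫ x in A, x ∂(unif K)‖ ≤ R := by
  have := isProbabilityMeasure_unif hK hKi
  have h1 : Integrable (fun x : E d => Wt R x) ((unif K).restrict A) :=
    (integrable_of_continuous hK hKi (continuous_Wt R)).integrableOn
  have hae : ∀ᵐ x ∂((unif K).restrict A), ‖x‖ ≤ R := by
    refine ae_restrict_of_ae ?_
    filter_upwards [ae_mem_unif hK] with x hx using hKR x hx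
  have e1 : ∫ x in A, (7 / 2 * R ^ 2) ∂(unif K) ≤ ∫ x in A, Wt R x ∂(unif K) := by
    refine integral_mono_ae (integrable_const _) h1 ?_
    filter_upwards [hae] with x hx using (Wt_bounds hx).1
  have e2 : ∫ x in A, Wt R x ∂(unif K) ≤ ∫ x in A, (4 * R ^ 2) ∂(unif K) := by
    refine integral_mono_ae h1 (integrable_const _) ?_
    filter_upwards [hae] with x hx using (Wt_bounds hx).2
  have e3 : ‖∫ x in A, x ∂(unif K)‖ ≤ R * ((unif K).restrict A).real univ :=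
    norm_integral_le_of_norm_le_const hae
  rw [setIntegral_const, smul_eq_mul] at e1 e2
  rw [measureReal_restrict_apply_univ] at e3
  refine ⟨by rw [le_div_iff₀ hα]; linarith, by rw [div_le_iff₀ hα]; linarith, ?_⟩
  rw [norm_smul, norm_inv, Real.norm_eq_abs, abs_of_pos hα, inv_mul_le_iff₀ hα]
  linarith

theorem eta_bound {R q W : ℝ} (hR : 0 < R) (hq : |q| ≤ R / 2) (h1 : 7 / 2 * R ^ 2 ≤ W)
    (h2 : W ≤ 4 * R ^ 2) : |q * R - q / (4 * R) * W| ≤ R ^ 2 / 16 := by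
  have e : q * R - q / (4 * R) * W = q * ((4 * R ^ 2 - W) / (4 * R)) := by
    field_simp
  rw [e, abs_mul]
  have h3 : 0 ≤ (4 * R ^ 2 - W) / (4 * R) := by
    apply div_nonneg <;> nlinarith
  have h4 : (4 * R ^ 2 - W) / (4 * R) ≤ R / 8 := by
    rw [div_le_iff₀ (by positivity)]; nlinarith
  rw [abs_of_nonneg h3]
  calc |q| * ((4 * R ^ 2 - W) / (4 * R)) ≤ R / 2 * (R / 8) := by gcongr
    _ = R ^ 2 / 16 := by ring

theorem q_bound {R a b : ℝ} (hR : 0 < R) (a1 : 7 / 2 * R ^ 2 ≤ a) (a2 : a ≤ 4 * R ^ 2)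
    (b1 : 7 / 2 * R ^ 2 ≤ b) (b2 : b ≤ 4 * R ^ 2) : |(b - a) / R| ≤ R / 2 := by
  rw [abs_div, abs_of_pos hR, div_le_iff₀ hR, abs_le]
  constructor <;> nlinarith

theorem gamma_bound {R N q : ℝ} (hN0 : 0 ≤ N) (hN : N ≤ 2 * R) (hq : |q| ≤ R / 2) :
    (N ^ 2 + q ^ 2) / 16 ≤ 17 / 64 * R ^ 2 := by
  have hq2 := abs_le.1 hq
  have h1 : N ^ 2 ≤ 4 * R ^ 2 := by nlinarith
  have h2 : q ^ 2 ≤ R ^ 2 / 4 := by nlinarith
  linarith

theorem k_bound {R a b q sA sB γ : ℝ} (hR : 0 < R) (a1 : 7 / 2 * R ^ 2 ≤ a) (a2 : a ≤ 4 * R ^ 2)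
    (b1 : 7 / 2 * R ^ 2 ≤ b) (b2 : b ≤ 4 * R ^ 2) (hq : |q| ≤ R / 2) (hsA : |sA| ≤ 2 * R ^ 2)
    (hsB : |sB| ≤ 2 * R ^ 2) :
    |(((1 + q / (4 * R)) * b - sB / 4 + (-(q * R) - γ)) -
      ((1 - q / (4 * R)) * a + sA / 4 + (q * R - γ))) / 2| ≤ 13 / 16 * R ^ 2 := by
  have h1 := abs_le.1 hsA
  have h2 := abs_le.1 hsB
  have h3 := abs_le.1 (eta_bound hR hq a1 a2)
  have h4 := abs_le.1 (eta_bound hR hq b1 b2)
  rw [abs_le]
  constructor <;> linarith

theorem f_nonneg {R q W s γ k : ℝ} (hR : 0 < R) (hq : |q| ≤ R / 2) (h1 : 7 / 2 * R ^ 2 ≤ W)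
    (h2 : W ≤ 4 * R ^ 2) (hs : |s| ≤ 2 * R ^ 2) (hγ : γ ≤ 17 / 64 * R ^ 2)
    (hk : |k| ≤ 13 / 16 * R ^ 2) :
    0 ≤ (1 - q / (4 * R)) * W + s / 4 + (q * R - γ + k) ∧
    0 ≤ (1 + q / (4 * R)) * W + -s / 4 + (-(q * R) - γ - k) := by
  have h3 := abs_le.1 hs
  have h4 := abs_le.1 (eta_bound hR hq h1 h2)
  have h5 := abs_le.1 hk
  have h6 : 0 < R ^ 2 := by positivity
  constructor <;> linarith

theorem mid_scalar {R q Wx Wx' s s' N D k : ℝ} (hs : s - s' ≤ N * D)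
    (hq : -(q / (4 * R)) * (Wx - Wx') ≤ |q| / 4 * D) :
    ((1 - q / (4 * R)) * Wx + s / 4 + (q * R - (N ^ 2 + q ^ 2) / 16 + k) +
      ((1 + q / (4 * R)) * Wx' + -s' / 4 + (-(q * R) - (N ^ 2 + q ^ 2) / 16 - k))) / 2 ≤
      (Wx + Wx') / 2 + D ^ 2 / 8 := by
  have e3 : N / 4 * D ≤ D ^ 2 / 8 + N ^ 2 / 8 := by
    nlinarith [sq_nonneg (D - N)]
  have e4 : |q| / 4 * D ≤ D ^ 2 / 8 + q ^ 2 / 8 := by
    nlinarith [sq_nonneg (D - |q|), sq_abs q]
  linarith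

theorem prod_le_sq {f g M : ℝ} (hf : 0 ≤ f) (hg : 0 ≤ g) (h : (f + g) / 2 ≤ M) :
    f * g ≤ M ^ 2 := by
  nlinarith [sq_nonneg (f - g)]

theorem M_identity {R a b sA sB N : ℝ} (hR : 0 < R) (hs : sA - sB = N ^ 2) (q γ : ℝ)
    (hq : q = (b - a) / R) (hγ : γ = (N ^ 2 + q ^ 2) / 16) :
    (((1 - q / (4 * R)) * a + sA / 4 + (q * R - γ)) +
      ((1 + q / (4 * R)) * b - sB / 4 + (-(q * R) - γ))) / 2 =
      (a + b) / 2 + (N ^ 2 + (a - b) ^ 2 / R ^ 2) / 16 := by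
  have h2 : (a - b) ^ 2 / R ^ 2 = q ^ 2 := by rw [hq]; field_simp; ring
  have hqR : q * R = b - a := by rw [hq]; field_simp
  have h3 : q / (4 * R) * (b - a) = q ^ 2 / 4 := by
    rw [← hqR]; field_simp
  rw [h2, hγ]
  linear_combination hs / 8 + h3 / 2

theorem pair_ineq (hK : IsCompact K) (hKc : Convex ℝ K) (hKi : (interior K).Nonempty)
    {R : ℝ} (hR : 0 < R) (hKR : ∀ x ∈ K, ‖x‖ ≤ R)
    {A B C : Set (E d)} (hA : MeasurableSet A) (hB : MeasurableSet B) (hC : MeasurableSet C)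
    (hAK : A ⊆ K) (hBK : B ⊆ K) (hCK : C ⊆ K)
    (hmid : ∀ x ∈ A, ∀ x' ∈ B, (1 / 2 : ℝ) • (x + x') ∈ C)
    {α β : ℝ} (hαe : (unif K).real A = α) (hβe : (unif K).real B = β)
    (hα : 0 < α) (hβ : 0 < β) {a b : ℝ} {bA bB : E d}
    (ha : a = (∫ x in A, Wt R x ∂(unif K)) / α)
    (hb : b = (∫ x in B, Wt R x ∂(unif K)) / β)
    (hbA : bA = α⁻¹ • ∫ x in A, x ∂(unif K))
    (hbB : bB = β⁻¹ • ∫ x in B, x ∂(unif K)) :
    √(α * β) *
      ((a + b) / 2 + (‖bA - bB‖ ^ 2 + (a - b) ^ 2 / R ^ 2) / 16) ≤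
      ∫ x in C, Wt R x ∂(unif K) := by
  obtain ⟨a1, a2, a3⟩ := avg_bounds hK hKi hKR (A := A) (by rw [hαe]; exact hα)
  obtain ⟨b1, b2, b3⟩ := avg_bounds hK hKi hKR (A := B) (by rw [hβe]; exact hβ)
  rw [hαe, ← ha] at a1 a2
  rw [hβe, ← hb] at b1 b2
  rw [hαe, ← hbA] at a3
  rw [hβe, ← hbB] at b3
  have hIA : ∫ x in A, Wt R x ∂(unif K) = a * α := by
    rw [ha]; field_simp
  have hIB : ∫ x in B, Wt R x ∂(unif K) = b * β := by
    rw [hb]; field_simp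
  have hJA : ∫ x in A, x ∂(unif K) = α • bA := by
    rw [hbA, smul_smul, mul_inv_cancel₀ hα.ne', one_smul]
  have hJB : ∫ x in B, x ∂(unif K) = β • bB := by
    rw [hbB, smul_smul, mul_inv_cancel₀ hβ.ne', one_smul]
  clear ha hb hbA hbB
  obtain ⟨p, hp⟩ : ∃ p : E d, p = bA - bB := ⟨_, rfl⟩
  obtain ⟨q, hq⟩ : ∃ q : ℝ, q = (b - a) / R := ⟨_, rfl⟩
  obtain ⟨γ, hγ⟩ : ∃ γ : ℝ, γ = (‖p‖ ^ 2 + q ^ 2) / 16 := ⟨_, rfl⟩
  obtain ⟨mA, hmA⟩ : ∃ mA : ℝ, mA = (1 - q / (4 * R)) * a + inner ℝ p bA / 4 + (q * R - γ) :=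
    ⟨_, rfl⟩
  obtain ⟨mB, hmB⟩ : ∃ mB : ℝ, mB = (1 + q / (4 * R)) * b - inner ℝ p bB / 4 +
    (-(q * R) - γ) := ⟨_, rfl⟩
  obtain ⟨k, hk⟩ : ∃ k : ℝ, k = (mB - mA) / 2 := ⟨_, rfl⟩
  have hM : (mA + mB) / 2 = (a + b) / 2 + (‖p‖ ^ 2 + (a - b) ^ 2 / R ^ 2) / 16 := by
    have h1 : inner ℝ p bA - inner ℝ p bB = ‖p‖ ^ 2 := by
      rw [← inner_sub_right, ← hp, real_inner_self_eq_norm_sq]
    rw [hmA, hmB]
    exact M_identity hR h1 q γ hq hγ
  -- bounds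
  have hpn : ‖p‖ ≤ 2 * R := by
    rw [hp]; exact (norm_sub_le _ _).trans (by linarith)
  have hq1 : |q| ≤ R / 2 := by rw [hq]; exact q_bound hR a1 a2 b1 b2
  have hγ1 : γ ≤ (17 / 64) * R ^ 2 := by rw [hγ]; exact gamma_bound (norm_nonneg _) hpn hq1
  have hpx : ∀ x : E d, ‖x‖ ≤ R → |inner ℝ p x| ≤ 2 * R ^ 2 := by
    intro x hx
    calc |inner ℝ p x| ≤ ‖p‖ * ‖x‖ := abs_real_inner_le_norm _ _
      _ ≤ 2 * R * R := by gcongr
      _ = 2 * R ^ 2 := by ring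
  have hk1 : |k| ≤ 13 / 16 * R ^ 2 := by
    rw [hk, hmA, hmB]
    exact k_bound hR a1 a2 b1 b2 hq1 (hpx bA a3) (hpx bB b3)
  obtain ⟨f, hf⟩ : ∃ f : E d → ℝ, f = fun x => (1 - q / (4 * R)) * Wt R x + inner ℝ p x / 4 +
    (q * R - γ + k) := ⟨_, rfl⟩
  obtain ⟨g, hg⟩ : ∃ g : E d → ℝ, g = fun x => (1 + q / (4 * R)) * Wt R x + inner ℝ (-p) x / 4 +
    (-(q * R) - γ - k) := ⟨_, rfl⟩
  have hcW := continuous_Wt (d := d) R
  have hfc : Continuous f := by rw [hf]; fun_prop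
  have hgc : Continuous g := by rw [hg]; fun_prop
  have hf0 : ∀ x ∈ A, 0 ≤ f x := by
    intro x hx
    have hxR := hKR x (hAK hx)
    obtain ⟨w1, w2⟩ := Wt_bounds hxR
    rw [hf]
    exact (f_nonneg hR hq1 w1 w2 (hpx x hxR) hγ1 hk1).1
  have hg0 : ∀ x ∈ B, 0 ≤ g x := by
    intro x hx
    have hxR := hKR x (hBK hx)
    obtain ⟨w1, w2⟩ := Wt_bounds hxR
    rw [hg]
    simp only [inner_neg_left]
    exact (f_nonneg hR hq1 w1 w2 (hpx x hxR) hγ1 hk1).2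
  have hW0 : ∀ x ∈ C, 0 ≤ Wt R x := by
    intro x hx
    have := (Wt_bounds (hKR x (hCK hx))).1
    have h2 : 0 ≤ R ^ 2 := sq_nonneg R
    linarith
  have H : ∀ x ∈ A, ∀ x' ∈ B, (1 / 2 : ℝ) • (x + x') ∈ C ∧
      f x * g x' ≤ Wt R ((1 / 2 : ℝ) • (x + x')) ^ 2 := by
    intro x hx x' hx'
    refine ⟨hmid x hx x' hx', ?_⟩
    have hxR := hKR x (hAK hx)
    have hxR' := hKR x' (hBK hx')
    refine prod_le_sq (hf0 x hx) (hg0 x' hx') ?_
    rw [Wt_mid, hf, hg, hγ]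
    simp only [inner_neg_left]
    refine mid_scalar ?_ ?_
    · rw [← inner_sub_right]; exact real_inner_le_norm _ _
    · calc -(q / (4 * R)) * (Wt R x - Wt R x') ≤ |-(q / (4 * R)) * (Wt R x - Wt R x')| :=
            le_abs_self _
        _ = |q| / (4 * R) * |Wt R x - Wt R x'| := by
            rw [abs_mul, abs_neg, abs_div, abs_of_pos (by positivity : 0 < 4 * R)]
        _ ≤ |q| / (4 * R) * (R * ‖x - x'‖) := by
            gcongr
            exact Wt_lip hxR hxR'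
        _ = |q| / 4 * ‖x - x'‖ := by field_simp
  have key := prekopa_real hK hKc hKi hA hB hC hfc hgc hcW hf0 hg0 hW0 H
  have hfA : ∫ x in A, f x ∂(unif K) = α * ((mA + mB) / 2) := by
    rw [hf, integral_affine hK hKi A R _ _ p, hIA, hJA, inner_smul_right, hαe, hk, hmA]
    ring
  have hgB : ∫ x in B, g x ∂(unif K) = β * ((mA + mB) / 2) := by
    rw [hg, integral_affine hK hKi B R _ _ (-p), hIB, hJB, inner_smul_right, inner_neg_left,
      hβe, hk, hmB]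
    ring
  rw [hfA, hgB] at key
  have hIC : 0 ≤ ∫ x in C, Wt R x ∂(unif K) := setIntegral_nonneg hC hW0
  have hMnn : 0 ≤ (mA + mB) / 2 := by
    rw [hM]
    have h2 : 0 ≤ R ^ 2 := sq_nonneg R
    have : 0 ≤ (a + b) / 2 := by linarith
    positivity
  rw [← hp, ← hM]
  have h1 : √(α * β) * ((mA + mB) / 2) = √(α * ((mA + mB) / 2) * (β * ((mA + mB) / 2))) := by
    rw [show α * ((mA + mB) / 2) * (β * ((mA + mB) / 2)) = (α * β) * ((mA + mB) / 2) ^ 2 by ring,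
      Real.sqrt_mul (by positivity : 0 ≤ α * β) (((mA + mB) / 2) ^ 2), Real.sqrt_sq hMnn]
  rw [h1]
  calc √(α * ((mA + mB) / 2) * (β * ((mA + mB) / 2))) ≤ √((∫ x in C, Wt R x ∂(unif K)) ^ 2) :=
        Real.sqrt_le_sqrt key
    _ = _ := Real.sqrt_sq hIC

end Vale.Agent.P074
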