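import Vale.Agent.Lib.P074.Defs

open MeasureTheory Set Filter
open scoped ENNReal NNReal Topology

namespace Vale.Agent.P074.L2

/-- Permute pairwise disjoint sets `B i` by translations. -/
noncomputable def tau {d : ℕ} {ι : Type*} [Fintype ι] (B : ι → Set (E d)) (v : ι → E d)
    (y : E d) : E d :=
  y + ∑ i, (B i).indicator (fun _ => v i) y

theorem tau_in {d : ℕ} {ι : Type*} [Fintype ι] {B : ι → Set (E d)} {v : ι → E d}
    (hB : Pairwise (Function.onFun Disjoint B)) {i : ι} {y : E d} (hy : y ∈ B i) :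
    tau B v y = y + v i := by
  classical
  rw [tau, Finset.sum_eq_single i]
  · rw [indicator_of_mem hy]
  · intro j _ hj
    apply indicator_of_notMem
    intro h
    exact disjoint_left.mp (hB hj) h hy
  · intro h; exact absurd (Finset.mem_univ _) h

theorem tau_out {d : ℕ} {ι : Type*} [Fintype ι] {B : ι → Set (E d)} {v : ι → E d}
    {y : E d} (hy : ∀ i, y ∉ B i) : tau B v y = y := by
  rw [tau, Finset.sum_eq_zero, add_zero]
  intro i _
  exact indicator_of_notMem (hy i) _

theorem measurable_tau {d : ℕ} {ι : Type*} [Fintype ι] {B : ι → Set (E d)} {v : ι → E d}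
    (hBm : ∀ i, MeasurableSet (B i)) : Measurable (tau B v) := by
  unfold tau
  apply measurable_id.add
  apply Finset.measurable_sum
  intro i _
  exact measurable_const.indicator (hBm i)

theorem restrict_apply_eq {d : ℕ} {ι : Type*} [Fintype ι] {B : ι → Set (E d)} {K : Set (E d)}
    (hB : Pairwise (Function.onFun Disjoint B)) (hBm : ∀ i, MeasurableSet (B i))
    (hBK : ∀ i, B i ⊆ K) {A : Set (E d)} (hA : MeasurableSet A) :
    volume.restrict K A = volume (A ∩ (K \ ⋃ i, B i)) + ∑ i, volume (A ∩ B i) := by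
  have hU : MeasurableSet (⋃ i, B i) := MeasurableSet.iUnion hBm
  rw [Measure.restrict_apply hA, ← measure_inter_add_sdiff (A ∩ K) hU, add_comm]
  congr 1
  · congr 1
    ext y; simp only [Set.mem_sdiff, mem_inter_iff]; tauto
  · have : A ∩ K ∩ ⋃ i, B i = ⋃ i, (A ∩ B i) := by
      rw [inter_assoc, inter_eq_self_of_subset_right (iUnion_subset hBK), inter_iUnion]
    rw [this, measure_iUnion _ (fun i => hA.inter (hBm i)), tsum_fintype]
    intro i j hij
    exact (hB hij).mono inter_subset_right inter_subset_right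

theorem measurePreserving_tau {d : ℕ} {ι : Type*} [Fintype ι] {B : ι → Set (E d)} {v : ι → E d}
    {K : Set (E d)} (σ : Equiv.Perm ι)
    (hB : Pairwise (Function.onFun Disjoint B)) (hBm : ∀ i, MeasurableSet (B i))
    (hBK : ∀ i, B i ⊆ K) (hσ : ∀ i, (fun y => y + v i) ⁻¹' (B (σ i)) = B i) :
    MeasurePreserving (tau B v) (volume.restrict K) (volume.restrict K) := by
  refine ⟨measurable_tau hBm, ?_⟩
  ext A hA
  rw [Measure.map_apply (measurable_tau hBm) hA,
    restrict_apply_eq hB hBm hBK (measurable_tau hBm hA), restrict_apply_eq hB hBm hBK hA]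
  congr 1
  · congr 1
    ext y
    simp only [mem_inter_iff, mem_preimage, Set.mem_sdiff, mem_iUnion, not_exists]
    constructor
    · rintro ⟨h1, h2, h3⟩
      rw [tau_out h3] at h1
      exact ⟨h1, h2, h3⟩
    · rintro ⟨h1, h2, h3⟩
      rw [tau_out h3]
      exact ⟨h1, h2, h3⟩
  · rw [← Equiv.sum_comp σ (fun i => volume (A ∩ B i))]
    apply Finset.sum_congr rfl
    intro i _
    have : tau B v ⁻¹' A ∩ B i = (fun y => y + v i) ⁻¹' (A ∩ B (σ i)) := by
      rw [preimage_inter, hσ i]
      ext y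
      simp only [mem_inter_iff, mem_preimage]
      constructor
      · rintro ⟨h1, h2⟩
        rw [tau_in hB h2] at h1
        exact ⟨h1, h2⟩
      · rintro ⟨h1, h2⟩
        rw [tau_in hB h2]
        exact ⟨h1, h2⟩
    rw [this, measure_preimage_add_right]

/-- The first order consequence of optimality for a rearrangement of disjoint pieces. -/
theorem swap_ineq {d : ℕ} {ι : Type*} [Fintype ι] {B : ι → Set (E d)} {v : ι → E d}
    {K : Set (E d)} (hK : IsCompact K) (hV : 0 < volume K) {L : ℝ} {μ : Measure (E d)}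
    (hμ : μ (Metric.closedBall 0 L)ᶜ = 0) {T : E d → E d} (hT : IsOTMap (unif K) μ T)
    (σ : Equiv.Perm ι)
    (hB : Pairwise (Function.onFun Disjoint B)) (hBm : ∀ i, MeasurableSet (B i))
    (hBK : ∀ i, B i ⊆ K) (hσ : ∀ i, (fun y => y + v i) ⁻¹' (B (σ i)) = B i) :
    0 ≤ ∑ i, inner ℝ (v i) (∫ y in B (σ i), T y) := by
  obtain ⟨hTm, hTμ, hopt⟩ := hT
  have hVfin : volume K < ⊤ := hK.measure_lt_top
  have hKm : MeasurableSet K := hK.isClosed.measurableSet
  have hτ := measurePreserving_tau σ hB hBm hBK hσ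
  have hτm := measurable_tau (v := v) hBm
  set τ := tau B v with hτdef
  -- `τ` preserves the uniform measure
  have hτρ : (unif K).map τ = unif K := by
    rw [unif, Measure.map_smul, hτ.map_eq]
  have hmapS : (unif K).map (fun y => T (τ y)) = μ := by
    have h := Measure.map_map (μ := unif K) hTm hτm
    rw [hτρ, hTμ] at h
    exact h.symm
  have hS := hopt (fun y => T (τ y)) (hTm.comp hτm) hmapS
  have : IsFiniteMeasure (unif K) := by
    constructor
    rw [unif]
    simp only [Measure.smul_apply, Measure.restrict_apply MeasurableSet.univ, univ_inter,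
      smul_eq_mul]
    exact ENNReal.mul_lt_top (ENNReal.inv_lt_top.mpr hV) hVfin
  -- a.e. bounds
  have hTb : ∀ᵐ y ∂(unif K), ‖T y‖ ≤ L := by
    have : ∀ᵐ z ∂((unif K).map T), ‖z‖ ≤ L := by
      rw [hTμ, ae_iff]
      convert hμ using 2
      ext z; simp
    exact ae_of_ae_map hTm.aemeasurable this
  have hTb' : ∀ᵐ y ∂(unif K), ‖T (τ y)‖ ≤ L := by
    have : ∀ᵐ z ∂((unif K).map τ), ‖T z‖ ≤ L := by rw [hτρ]; exact hTb
    exact ae_of_ae_map hτm.aemeasurable this
  obtain ⟨R, hR⟩ := hK.isBounded.subset_closedBall 0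
  have hyK : ∀ᵐ y ∂(unif K), y ∈ K := by
    rw [unif]
    apply Measure.ae_smul_measure
    exact ae_restrict_mem hKm
  have hyR : ∀ᵐ y ∂(unif K), ‖y‖ ≤ R := by
    filter_upwards [hyK] with y hy
    simpa using hR hy
  have hyR' : ∀ᵐ y ∂(unif K), ‖τ y‖ ≤ R := by
    have : ∀ᵐ z ∂((unif K).map τ), ‖z‖ ≤ R := by rw [hτρ]; exact hyR
    exact ae_of_ae_map hτm.aemeasurable this
  -- integrability
  have hbd : ∀ (f : E d → ℝ), Measurable f → ∀ C : ℝ, (∀ᵐ y ∂(unif K), |f y| ≤ C) →
      Integrable f (unif K) := by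
    intro f hf C hC
    exact Integrable.of_bound hf.aestronglyMeasurable C (by simpa using hC)
  have mT : Measurable (fun y => T (τ y)) := hTm.comp hτm
  have i1 : Integrable (fun y => ‖y‖ ^ 2) (unif K) := by
    refine hbd _ (measurable_norm.pow_const 2) (R ^ 2) ?_
    filter_upwards [hyR] with y hy
    rw [abs_of_nonneg (by positivity)]; gcongr
  have i2 : Integrable (fun y => ‖T y‖ ^ 2) (unif K) := by
    refine hbd _ (hTm.norm.pow_const 2) (L ^ 2) ?_
    filter_upwards [hTb] with y hy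
    rw [abs_of_nonneg (by positivity)]; gcongr
  have i3 : Integrable (fun y => ‖T (τ y)‖ ^ 2) (unif K) := by
    refine hbd _ (mT.norm.pow_const 2) (L ^ 2) ?_
    filter_upwards [hTb'] with y hy
    rw [abs_of_nonneg (by positivity)]; gcongr
  have i4 : Integrable (fun y => (inner ℝ y (T y) : ℝ)) (unif K) := by
    refine hbd _ (measurable_id.inner hTm) (R * L) ?_
    filter_upwards [hyR, hTb] with y h1 h2
    exact (abs_real_inner_le_norm _ _).trans
      (mul_le_mul h1 h2 (norm_nonneg _) ((norm_nonneg _).trans h1))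
  have i5 : Integrable (fun y => (inner ℝ y (T (τ y)) : ℝ)) (unif K) := by
    refine hbd _ (measurable_id.inner mT) (R * L) ?_
    filter_upwards [hyR, hTb'] with y h1 h2
    exact (abs_real_inner_le_norm _ _).trans
      (mul_le_mul h1 h2 (norm_nonneg _) ((norm_nonneg _).trans h1))
  have i6 : Integrable (fun y => (inner ℝ (τ y) (T (τ y)) : ℝ)) (unif K) := by
    refine hbd _ (hτm.inner mT) (R * L) ?_
    filter_upwards [hyR', hTb'] with y h1 h2
    exact (abs_real_inner_le_norm _ _).trans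
      (mul_le_mul h1 h2 (norm_nonneg _) ((norm_nonneg _).trans h1))
  have j1 : Integrable (fun y => ‖y - T y‖ ^ 2) (unif K) := by
    have : (fun y => ‖y - T y‖ ^ 2)
        = fun y => ‖y‖ ^ 2 - 2 * (inner ℝ y (T y) : ℝ) + ‖T y‖ ^ 2 := by
      ext y; exact norm_sub_sq_real _ _
    rw [this]
    exact (i1.sub (i4.const_mul 2)).add i2
  have j2 : Integrable (fun y => ‖y - T (τ y)‖ ^ 2) (unif K) := by
    have : (fun y => ‖y - T (τ y)‖ ^ 2)
        = fun y => ‖y‖ ^ 2 - 2 * (inner ℝ y (T (τ y)) : ℝ) + ‖T (τ y)‖ ^ 2 := by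
      ext y; exact norm_sub_sq_real _ _
    rw [this]
    exact (i1.sub (i5.const_mul 2)).add i3
  -- optimality as an inequality between real integrals
  have hcost : ∀ (F : E d → E d), Integrable (fun y => ‖y - F y‖ ^ 2) (unif K) →
      ∫⁻ y, edist y (F y) ^ 2 ∂(unif K) = ENNReal.ofReal (∫ y, ‖y - F y‖ ^ 2 ∂(unif K)) := by
    intro F hF
    rw [ofReal_integral_eq_lintegral_ofReal hF (Filter.Eventually.of_forall (fun y => by positivity))]
    apply lintegral_congr
    intro y
    rw [edist_dist, dist_eq_norm, ENNReal.ofReal_pow (norm_nonneg _)]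
  rw [hcost _ j1, hcost _ j2, ENNReal.ofReal_le_ofReal_iff
    (integral_nonneg (fun y => by positivity))] at hS
  have e1 : ∫ y, ‖y - T y‖ ^ 2 ∂(unif K) = ∫ y, ‖y‖ ^ 2 ∂(unif K)
      - 2 * ∫ y, (inner ℝ y (T y) : ℝ) ∂(unif K) + ∫ y, ‖T y‖ ^ 2 ∂(unif K) := by
    calc ∫ y, ‖y - T y‖ ^ 2 ∂(unif K)
        = ∫ y, ((‖y‖ ^ 2 - 2 * (inner ℝ y (T y) : ℝ)) + ‖T y‖ ^ 2) ∂(unif K) := by
          congr 1; ext y; exact norm_sub_sq_real _ _
      _ = ∫ y, (‖y‖ ^ 2 - 2 * (inner ℝ y (T y) : ℝ)) ∂(unif K) + ∫ y, ‖T y‖ ^ 2 ∂(unif K) :=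
          integral_add (i1.sub (i4.const_mul 2)) i2
      _ = _ := by rw [integral_sub i1 (i4.const_mul 2), integral_const_mul]
  have e2 : ∫ y, ‖y - T (τ y)‖ ^ 2 ∂(unif K) = ∫ y, ‖y‖ ^ 2 ∂(unif K)
      - 2 * ∫ y, (inner ℝ y (T (τ y)) : ℝ) ∂(unif K) + ∫ y, ‖T (τ y)‖ ^ 2 ∂(unif K) := by
    calc ∫ y, ‖y - T (τ y)‖ ^ 2 ∂(unif K)
        = ∫ y, ((‖y‖ ^ 2 - 2 * (inner ℝ y (T (τ y)) : ℝ)) + ‖T (τ y)‖ ^ 2) ∂(unif K) := by
          congr 1; ext y; exact norm_sub_sq_real _ _
      _ = ∫ y, (‖y‖ ^ 2 - 2 * (inner ℝ y (T (τ y)) : ℝ)) ∂(unif K)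
          + ∫ y, ‖T (τ y)‖ ^ 2 ∂(unif K) :=
          integral_add (i1.sub (i5.const_mul 2)) i3
      _ = _ := by rw [integral_sub i1 (i5.const_mul 2), integral_const_mul]
  have hchange : ∀ f : E d → ℝ, Measurable f →
      ∫ y, f (τ y) ∂(unif K) = ∫ y, f y ∂(unif K) := by
    intro f hf
    have := integral_map (μ := unif K) hτm.aemeasurable
      (f := f) hf.aestronglyMeasurable
    rw [← this, hτρ]
  have e3 : ∫ y, ‖T (τ y)‖ ^ 2 ∂(unif K) = ∫ y, ‖T y‖ ^ 2 ∂(unif K) :=
    hchange (fun y => ‖T y‖ ^ 2) (hTm.norm.pow_const 2)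
  have e4 : ∫ y, (inner ℝ (τ y) (T (τ y)) : ℝ) ∂(unif K)
      = ∫ y, (inner ℝ y (T y) : ℝ) ∂(unif K) :=
    hchange (fun y => (inner ℝ y (T y) : ℝ)) (measurable_id.inner hTm)
  have h0 : 0 ≤ ∫ y, (inner ℝ (τ y - y) (T (τ y)) : ℝ) ∂(unif K) := by
    have : ∫ y, (inner ℝ (τ y - y) (T (τ y)) : ℝ) ∂(unif K)
        = ∫ y, (inner ℝ (τ y) (T (τ y)) : ℝ) ∂(unif K)
          - ∫ y, (inner ℝ y (T (τ y)) : ℝ) ∂(unif K) := by
      rw [← integral_sub i6 i5]
      congr 1
      ext y; exact inner_sub_left _ _ _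
    rw [this, e4]
    linarith
  -- back to the restricted volume
  rw [unif, integral_smul_measure, smul_eq_mul] at h0
  have hc : 0 < ((volume K)⁻¹).toReal := by
    apply ENNReal.toReal_pos
    · simp [hVfin.ne]
    · simp [hV.ne']
  have h1 : 0 ≤ ∫ y in K, (inner ℝ (τ y - y) (T (τ y)) : ℝ) :=
    nonneg_of_mul_nonneg_right h0 hc
  refine h1.trans (le_of_eq ?_)
  -- restricted bounds
  have hTbK : ∀ᵐ y ∂(volume.restrict K), ‖T y‖ ≤ L := by
    rwa [unif, Measure.ae_ennreal_smul_measure_iff (by simp [hVfin.ne])] at hTb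
  have hTint : IntegrableOn T K := by
    have : IsFiniteMeasure (volume.restrict K) := ⟨by simpa using hVfin⟩
    exact Integrable.of_bound hTm.aestronglyMeasurable L hTbK
  have s1 : ∀ y, (inner ℝ (τ y - y) (T (τ y)) : ℝ)
      = ∑ i, (B i).indicator (fun y => (inner ℝ (v i) (T (y + v i)) : ℝ)) y := by
    intro y
    by_cases hy : ∃ i, y ∈ B i
    · obtain ⟨i, hi⟩ := hy
      classical
      rw [Finset.sum_eq_single i]
      · rw [indicator_of_mem hi, hτdef, tau_in hB hi]
        simp
      · intro j _ hj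
        apply indicator_of_notMem
        intro h
        exact disjoint_left.mp (hB hj) h hi
      · intro h; exact absurd (Finset.mem_univ _) h
    · push Not at hy
      rw [hτdef, tau_out hy, Finset.sum_eq_zero]
      · simp
      · intro i _
        exact indicator_of_notMem (hy i) _
  have hpre : ∀ i, IntegrableOn (fun y => T (y + v i)) (B i) := by
    intro i
    have hmp := measurePreserving_add_right (volume : Measure (E d)) (v i)
    have hme : MeasurableEmbedding (fun y : E d => y + v i) := measurableEmbedding_addRight (v i)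
    have : IntegrableOn T (B (σ i)) := hTint.mono_set (hBK _)
    have h2 := (hmp.integrableOn_comp_preimage hme (f := T) (s := B (σ i))).mpr this
    rw [hσ i] at h2
    exact h2
  calc ∫ y in K, (inner ℝ (τ y - y) (T (τ y)) : ℝ)
      = ∫ y in K, ∑ i, (B i).indicator (fun y => (inner ℝ (v i) (T (y + v i)) : ℝ)) y := by
        congr 1; ext y; exact s1 y
    _ = ∑ i, ∫ y in K, (B i).indicator (fun y => (inner ℝ (v i) (T (y + v i)) : ℝ)) y := by
        apply integral_finsetSum
        intro i _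
        apply Integrable.mono_measure _ Measure.restrict_le_self
        rw [integrable_indicator_iff (hBm i)]
        exact (hpre i).const_inner (v i)
    _ = ∑ i, inner ℝ (v i) (∫ y in B (σ i), T y) := by
        apply Finset.sum_congr rfl
        intro i _
        rw [setIntegral_indicator (hBm i), inter_eq_self_of_subset_right (hBK i),
          integral_inner (hpre i)]
        congr 1
        have hmp := measurePreserving_add_right (volume : Measure (E d)) (v i)
        have hme : MeasurableEmbedding (fun y : E d => y + v i) :=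
          measurableEmbedding_addRight (v i)
        have := hmp.setIntegral_preimage_emb hme T (B (σ i))
        rw [hσ i] at this
        exact this

/-- Cyclic monotonicity at the Lebesgue points of `T` in the interior of `K`. -/
theorem cyclic_mono {d : ℕ} {K : Set (E (d + 1))} (hK : IsCompact K) (hV : 0 < volume K) {L : ℝ}
    {μ : Measure (E (d + 1))} (hμ : μ (Metric.closedBall 0 L)ᶜ = 0) {T : E (d + 1) → E (d + 1)}
    (hT : IsOTMap (unif K) μ T) {n : ℕ} (σ : Equiv.Perm (Fin n)) (x : Fin n → E (d + 1))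
    (hxK : ∀ i, x i ∈ interior K)
    (hx : ∀ i, ∀ (w : ℝ → E (d + 1)), (∀ᶠ r in 𝓝[>] (0 : ℝ), x i ∈ Metric.closedBall (w r)
      ((3 * n : ℝ) * r)) → Tendsto (fun r => ⨍ y in Metric.closedBall (w r) r, T y) (𝓝[>] 0)
        (𝓝 (T (x i)))) :
    0 ≤ ∑ i, (inner ℝ (x (σ i) - x i) (T (x (σ i))) : ℝ) := by
  set e : E (d + 1) := EuclideanSpace.single 0 1 with he
  have hne : ‖e‖ = 1 := by simp [he]
  set w : Fin n → ℝ → E (d + 1) := fun i r => x i + (3 * (i : ℕ) * r : ℝ) • e with hw
  have hwlim : ∀ i, Tendsto (w i) (𝓝[>] 0) (𝓝 (x i)) := by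
    intro i
    have h1 : Continuous (w i) := by simp only [hw]; fun_prop
    have h2 : w i 0 = x i := by simp [hw]
    have := (h1.tendsto 0).mono_left (nhdsWithin_le_nhds (s := Ioi (0 : ℝ)))
    rwa [h2] at this
  have hrpos : ∀ᶠ r in 𝓝[>] (0 : ℝ), 0 < r := eventually_mem_nhdsWithin
  have hlim : ∀ i, Tendsto (fun r => ⨍ y in Metric.closedBall (w i r) r, T y) (𝓝[>] 0)
        (𝓝 (T (x i))) := by
    intro i
    apply hx i
    filter_upwards [hrpos] with r hr
    rw [Metric.mem_closedBall, dist_eq_norm]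
    simp only [hw]
    rw [sub_add_cancel_left, norm_neg, norm_smul, hne, mul_one, Real.norm_eq_abs,
      abs_of_nonneg (by positivity)]
    have : ((i : ℕ) : ℝ) ≤ n := by exact_mod_cast i.2.le
    gcongr
  -- balls are eventually contained in K
  have hball : ∀ᶠ r in 𝓝[>] (0 : ℝ), ∀ i, Metric.closedBall (w i r) r ⊆ K := by
    rw [eventually_all]
    intro i
    obtain ⟨δ, hδ, hsub⟩ := Metric.isOpen_iff.mp isOpen_interior (x i) (hxK i)
    have h1 : ∀ᶠ r in 𝓝[>] (0 : ℝ), dist (w i r) (x i) < δ / 2 :=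
      (hwlim i).eventually (Metric.ball_mem_nhds _ (half_pos hδ))
    have h2 : ∀ᶠ r in 𝓝[>] (0 : ℝ), r < δ / 2 :=
      Filter.Eventually.filter_mono nhdsWithin_le_nhds (gt_mem_nhds (half_pos hδ))
    filter_upwards [h1, h2] with r h3 h4 y hy
    apply interior_subset
    apply hsub
    rw [Metric.mem_closedBall] at hy
    rw [Metric.mem_ball]
    calc dist y (x i) ≤ dist y (w i r) + dist (w i r) (x i) := dist_triangle _ _ _
      _ < δ / 2 + δ / 2 := by linarith
      _ = δ := by ring
  -- balls are eventually disjoint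
  have hdisj : ∀ᶠ r in 𝓝[>] (0 : ℝ), ∀ i j, i ≠ j →
      Disjoint (Metric.closedBall (w i r) r) (Metric.closedBall (w j r) r) := by
    rw [eventually_all]
    intro i
    rw [eventually_all]
    intro j
    by_cases hij : i = j
    · filter_upwards with r h; exact absurd hij h
    by_cases hxx : x i = x j
    · filter_upwards [hrpos] with r hr _
      apply Metric.closedBall_disjoint_closedBall
      rw [dist_eq_norm]
      simp only [hw]
      rw [hxx, add_sub_add_left_eq_sub, ← sub_smul, norm_smul, hne, mul_one, Real.norm_eq_abs]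
      have h1 : (3 * (i : ℕ) * r - 3 * (j : ℕ) * r : ℝ) = 3 * r * ((i : ℕ) - (j : ℕ) : ℝ) := by ring
      rw [h1, abs_mul, abs_of_pos (by positivity)]
      have h2 : (1 : ℝ) ≤ |((i : ℕ) - (j : ℕ) : ℝ)| := by
        have h3 : ((i : ℕ) : ℤ) - ((j : ℕ) : ℤ) ≠ 0 := by
          intro h; apply hij; ext; omega
        have h4 : (1 : ℤ) ≤ |((i : ℕ) : ℤ) - ((j : ℕ) : ℤ)| := Int.one_le_abs h3
        exact_mod_cast h4
      nlinarith
    · have hpos : 0 < dist (x i) (x j) := dist_pos.mpr hxx
      have h0 : Tendsto (fun r => dist (w i r) (w j r) - (r + r)) (𝓝[>] 0)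
          (𝓝 (dist (x i) (x j) - (0 + 0))) := by
        apply ((hwlim i).dist (hwlim j)).sub
        apply Tendsto.add <;> exact nhdsWithin_le_nhds
      rw [add_zero, sub_zero] at h0
      filter_upwards [h0.eventually (lt_mem_nhds hpos)] with r hr _
      apply Metric.closedBall_disjoint_closedBall
      linarith
  -- the approximate inequality
  have happrox : ∀ᶠ r in 𝓝[>] (0 : ℝ), 0 ≤ ∑ i, (inner ℝ (w (σ i) r - w i r)
      (⨍ y in Metric.closedBall (w (σ i) r) r, T y) : ℝ) := by
    filter_upwards [hrpos, hball, hdisj] with r hr h1 h2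
    have h3 := swap_ineq hK hV hμ hT (B := fun i => Metric.closedBall (w i r) r)
      (v := fun i => w (σ i) r - w i r) σ (fun i j hij => h2 i j hij)
      (fun i => Metric.isClosed_closedBall.measurableSet) h1 (by
        intro i
        ext y
        simp only [mem_preimage, Metric.mem_closedBall, dist_eq_norm]
        rw [show y + (w (σ i) r - w i r) - w (σ i) r = y - w i r by abel])
    have h4 : ∀ i, (inner ℝ (w (σ i) r - w i r)
        (⨍ y in Metric.closedBall (w (σ i) r) r, T y) : ℝ)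
        = (volume.real (Metric.closedBall (0 : E (d + 1)) r))⁻¹ *
          inner ℝ (w (σ i) r - w i r) (∫ y in Metric.closedBall (w (σ i) r) r, T y) := by
      intro i
      rw [setAverage_eq, inner_smul_right]
      congr 2
      simp only [Measure.real]
      rw [Measure.addHaar_closedBall_center]
    simp_rw [h4]
    rw [← Finset.mul_sum]
    exact mul_nonneg (by positivity) h3
  have hfin : Tendsto (fun r => ∑ i, (inner ℝ (w (σ i) r - w i r)
      (⨍ y in Metric.closedBall (w (σ i) r) r, T y) : ℝ)) (𝓝[>] 0)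
      (𝓝 (∑ i, (inner ℝ (x (σ i) - x i) (T (x (σ i))) : ℝ))) := by
    apply tendsto_finsetSum
    intro i _
    exact ((hwlim (σ i)).sub (hwlim i)).inner (hlim (σ i))
  exact ge_of_tendsto hfin happrox

/-- Closed chains: the form needed for Rockafellar's construction. -/
theorem chain_le {d : ℕ} {G : Set (E d)} {T : E d → E d}
    (hG : ∀ (n : ℕ) (σ : Equiv.Perm (Fin n)) (x : Fin n → E d), (∀ i, x i ∈ G) →
      0 ≤ ∑ i, (inner ℝ (x (σ i) - x i) (T (x (σ i))) : ℝ))
    (n : ℕ) (p : ℕ → E d) (hp : ∀ i, p i ∈ G) :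
    ∑ i ∈ Finset.range n, (inner ℝ (T (p i)) (p (i + 1) - p i) : ℝ)
      + inner ℝ (T (p n)) (p 0 - p n) ≤ 0 := by
  have h := hG (n + 1) (finRotate (n + 1)).symm (fun i => p i) (fun i => hp i)
  rw [← Equiv.sum_comp (finRotate (n + 1))] at h
  simp only [Equiv.symm_apply_apply] at h
  rw [Fin.sum_univ_castSucc] at h
  have h1 : ∀ i : Fin n, ((finRotate (n + 1)) i.castSucc : ℕ) = (i : ℕ) + 1 := by
    intro i
    have := finRotate_of_lt i.2
    have h2 : i.castSucc = ⟨(i : ℕ), by omega⟩ := rfl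
    rw [h2, this]
  simp only [h1, finRotate_last, Fin.val_castSucc, Fin.val_last] at h
  rw [Fin.sum_univ_eq_sum_range (fun i => (inner ℝ (p i - p (i + 1)) (T (p i)) : ℝ)) n] at h
  have h3 : ∀ a b c : E d, (inner ℝ (a - b) c : ℝ) = - inner ℝ c (b - a) := by
    intro a b c
    rw [real_inner_comm, ← inner_neg_right, neg_sub]
  simp only [h3] at h
  rw [Finset.sum_neg_distrib] at h
  have h4 : ((0 : Fin (n + 1)) : ℕ) = 0 := rfl
  rw [h4] at h
  linarith

/-- Rockafellar's construction. -/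
theorem rockafellar {d : ℕ} {G : Set (E d)} (hne : G.Nonempty) {T : E d → E d} {L : ℝ}
    (hTL : ∀ x ∈ G, ‖T x‖ ≤ L)
    (hG : ∀ (n : ℕ) (p : ℕ → E d), (∀ i, p i ∈ G) →
      ∑ i ∈ Finset.range n, (inner ℝ (T (p i)) (p (i + 1) - p i) : ℝ)
        + inner ℝ (T (p n)) (p 0 - p n) ≤ 0) :
    ∃ u : E d → ℝ, ConvexOn ℝ univ u ∧ (∀ x y, |u x - u y| ≤ L * ‖x - y‖) ∧
      ∀ x ∈ G, ∀ z, u x + inner ℝ (T x) (z - x) ≤ u z := by
  obtain ⟨x₀, hx₀⟩ := hne
  let I : Type := {a : ℕ × (ℕ → E d) // (∀ i, a.2 i ∈ G) ∧ a.2 0 = x₀}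
  let φ : I → E d → ℝ := fun a z =>
    ∑ i ∈ Finset.range a.1.1, (inner ℝ (T (a.1.2 i)) (a.1.2 (i + 1) - a.1.2 i) : ℝ)
      + inner ℝ (T (a.1.2 a.1.1)) (z - a.1.2 a.1.1)
  have : Nonempty I := ⟨⟨(0, fun _ => x₀), fun _ => hx₀, rfl⟩⟩
  have hφx₀ : ∀ a, φ a x₀ ≤ 0 := by
    intro a
    have := hG a.1.1 a.1.2 a.2.1
    rw [a.2.2] at this
    exact this
  have hφdiff : ∀ a x y, φ a x - φ a y = inner ℝ (T (a.1.2 a.1.1)) (x - y) := by
    intro a x y
    simp only [φ]
    rw [add_sub_add_left_eq_sub, ← inner_sub_right]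
    congr 1
    abel
  have hφL : ∀ a x y, φ a x - φ a y ≤ L * ‖x - y‖ := by
    intro a x y
    rw [hφdiff]
    refine (real_inner_le_norm _ _).trans ?_
    exact mul_le_mul_of_nonneg_right (hTL _ (a.2.1 _)) (norm_nonneg _)
  have hbdd : ∀ z, BddAbove (range (fun a => φ a z)) := by
    intro z
    refine ⟨L * ‖z - x₀‖, ?_⟩
    rintro _ ⟨a, rfl⟩
    have h1 := hφL a z x₀
    have h2 := hφx₀ a
    simp only
    linarith
  refine ⟨fun z => ⨆ a, φ a z, ⟨convex_univ, ?_⟩, ?_, ?_⟩
  · intro x _ y _ a b ha hb hab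
    apply ciSup_le
    intro c
    have h1 := le_ciSup (hbdd x) c
    have h2 := le_ciSup (hbdd y) c
    have h3 : φ c (a • x + b • y) = a * φ c x + b * φ c y := by
      have hb' : b = 1 - a := by linarith
      subst hb'
      have e1 := hφdiff c (a • x + (1 - a) • y) y
      have e2 := hφdiff c x y
      rw [show a • x + (1 - a) • y - y = a • (x - y) by module, inner_smul_right, ← e2] at e1
      linarith
    rw [h3]
    simp only [smul_eq_mul]
    nlinarith
  · have key : ∀ x y, (⨆ a, φ a x) ≤ (⨆ a, φ a y) + L * ‖x - y‖ := by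
      intro x y
      apply ciSup_le
      intro a
      have h1 := le_ciSup (hbdd y) a
      have h2 := hφL a x y
      linarith
    intro x y
    rw [abs_le]
    have h1 := key x y
    have h2 := key y x
    rw [norm_sub_rev y x] at h2
    constructor <;> linarith
  · intro x hx z
    have key : (⨆ a, φ a x) ≤ (⨆ a, φ a z) - inner ℝ (T x) (z - x) := by
      apply ciSup_le
      intro a
      let b : I := ⟨(a.1.1 + 1, Function.update a.1.2 (a.1.1 + 1) x), by
        intro i
        by_cases h : i = a.1.1 + 1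
        · subst h; simpa using hx
        · simpa [Function.update_of_ne h] using a.2.1 i, by
        have : (0 : ℕ) ≠ a.1.1 + 1 := by omega
        simp only
        rw [Function.update_of_ne this]
        exact a.2.2⟩
      have h1 := le_ciSup (hbdd z) b
      have h2 : φ b z = φ a x + inner ℝ (T x) (z - x) := by
        simp only [φ, b, Function.update_self]
        rw [Finset.sum_range_succ]
        congr 1
        rw [Function.update_self, Function.update_of_ne (by omega)]
        congr 1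
        apply Finset.sum_congr rfl
        intro i hi
        rw [Finset.mem_range] at hi
        rw [Function.update_of_ne (by omega), Function.update_of_ne (by omega)]
      rw [h2] at h1
      linarith
    simp only
    linarith

end Vale.Agent.P074.L2

namespace Vale.Agent.P074

/-- L2: a Monge minimiser is a.e. a subgradient of a Lipschitz convex function. -/
theorem exists_convex_potential {d : ℕ} {K : Set (E d)} (hK : IsCompact K) (hKc : Convex ℝ K)
    (hKi : (interior K).Nonempty) {L : ℝ} (hL : 0 ≤ L) {μ : Measure (E d)}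
    (hμ : μ (Metric.closedBall 0 L)ᶜ = 0) {T : E d → E d} (hT : IsOTMap (unif K) μ T) :
    ∃ u : E d → ℝ, ConvexOn ℝ univ u ∧ (∀ x y, |u x - u y| ≤ L * ‖x - y‖) ∧
      ∀ᵐ x ∂(unif K), ∀ z, u x + inner ℝ (T x) (z - x) ≤ u z := by
  rcases d with _ | d
  · refine ⟨fun _ => 0, convexOn_const 0 convex_univ, fun x y => ?_, ?_⟩
    · simp only [sub_self, abs_zero]; positivity
    · refine Filter.Eventually.of_forall (fun x z => ?_)
      rw [Subsingleton.elim z x]; simp
  have hVpos : 0 < volume K :=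
    lt_of_lt_of_le (isOpen_interior.measure_pos volume hKi) (measure_mono interior_subset)
  have hVfin : volume K < ⊤ := hK.measure_lt_top
  have hKm : MeasurableSet K := hK.isClosed.measurableSet
  have hTm : Measurable T := hT.1
  -- bound on T
  have hTb : ∀ᵐ y ∂(unif K), ‖T y‖ ≤ L := by
    have : ∀ᵐ z ∂((unif K).map T), ‖z‖ ≤ L := by
      rw [hT.2.1, ae_iff]
      convert hμ using 2
      ext z; simp
    exact ae_of_ae_map hTm.aemeasurable this
  have hTbK : ∀ᵐ y ∂(volume.restrict K), ‖T y‖ ≤ L := by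
    rwa [unif, Measure.ae_ennreal_smul_measure_iff (by simp [hVfin.ne])] at hTb
  have hTint : IntegrableOn T K := by
    have : IsFiniteMeasure (volume.restrict K) := ⟨by simpa using hVfin⟩
    exact Integrable.of_bound hTm.aestronglyMeasurable L hTbK
  have hTind : LocallyIntegrable (K.indicator T) volume :=
    ((integrable_indicator_iff hKm).mpr hTint).locallyIntegrable
  -- Lebesgue points
  have hLeb : ∀ᵐ x : E (d + 1), ∀ n : ℕ, ∀ (w : ℝ → E (d + 1)) (δ : ℝ → ℝ),
      Tendsto δ (𝓝[>] (0 : ℝ)) (𝓝[>] 0) →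
      (∀ᶠ r in 𝓝[>] (0 : ℝ), x ∈ Metric.closedBall (w r) ((3 * n : ℝ) * δ r)) →
      Tendsto (fun r => ⨍ y in Metric.closedBall (w r) (δ r), K.indicator T y) (𝓝[>] 0)
        (𝓝 (K.indicator T x)) := by
    rw [ae_all_iff]
    intro n
    filter_upwards [IsUnifLocDoublingMeasure.ae_tendsto_average
      (volume : Measure (E (d + 1))) hTind (3 * n : ℝ)] with x hx w δ h1 h2
    exact hx w δ h1 h2
  set G : Set (E (d + 1)) := {x | x ∈ interior K ∧ ‖T x‖ ≤ L ∧ ∀ n : ℕ, ∀ w : ℝ → E (d + 1),
      (∀ᶠ r in 𝓝[>] (0 : ℝ), x ∈ Metric.closedBall (w r) ((3 * n : ℝ) * r)) →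
      Tendsto (fun r => ⨍ y in Metric.closedBall (w r) r, K.indicator T y) (𝓝[>] 0)
        (𝓝 (K.indicator T x))} with hGdef
  have hGae : ∀ᵐ x ∂(volume.restrict K), x ∈ G := by
    have h1 : ∀ᵐ x ∂(volume.restrict K), x ∈ interior K := by
      rw [ae_restrict_iff' hKm, ae_iff]
      refine measure_mono_null ?_ (hKc.addHaar_frontier volume)
      intro x hx
      simp only [Classical.not_imp, mem_ofPred_eq] at hx
      rw [frontier, hK.isClosed.closure_eq]
      exact hx
    filter_upwards [h1, hTbK, ae_restrict_of_ae hLeb] with x h1 h2 h3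
    refine ⟨h1, h2, fun n w hw => ?_⟩
    exact h3 n w id tendsto_id hw
  have hGne : G.Nonempty := by
    by_contra hcon
    rw [not_nonempty_iff_eq_empty] at hcon
    rw [hcon] at hGae
    simp only [mem_empty_iff_false, eventually_false_iff_eq_bot, ae_eq_bot,
      Measure.restrict_eq_zero] at hGae
    exact hVpos.ne' hGae
  have hcyc : ∀ (n : ℕ) (σ : Equiv.Perm (Fin n)) (x : Fin n → E (d + 1)), (∀ i, x i ∈ G) →
      0 ≤ ∑ i, (inner ℝ (x (σ i) - x i) (T (x (σ i))) : ℝ) := by
    intro n σ x hx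
    apply L2.cyclic_mono hK hVpos hμ hT σ x (fun i => (hx i).1)
    intro i w hw
    have h1 := (hx i).2.2 n w hw
    rw [indicator_of_mem (interior_subset (hx i).1)] at h1
    refine h1.congr' ?_
    -- eventually the balls are inside K
    obtain ⟨δ, hδ, hsub⟩ := Metric.isOpen_iff.mp isOpen_interior (x i) (hx i).1
    have h2 : ∀ᶠ r in 𝓝[>] (0 : ℝ), (3 * n : ℝ) * r + r < δ := by
      have h3 : Tendsto (fun r : ℝ => (3 * n : ℝ) * r + r) (𝓝[>] 0) (𝓝 ((3 * n : ℝ) * 0 + 0)) := by
        apply Tendsto.add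
        · exact (tendsto_const_nhds.mul tendsto_id).mono_left nhdsWithin_le_nhds
        · exact nhdsWithin_le_nhds
      simp only [mul_zero, add_zero] at h3
      exact h3.eventually (gt_mem_nhds hδ)
    filter_upwards [h2, hw] with r h3 h4
    apply setAverage_congr_fun Metric.isClosed_closedBall.measurableSet
    refine Filter.Eventually.of_forall (fun y hy => ?_)
    apply indicator_of_mem
    apply interior_subset
    apply hsub
    rw [Metric.mem_closedBall] at hy h4
    rw [Metric.mem_ball]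
    rw [dist_comm] at h4
    calc dist y (x i) ≤ dist y (w r) + dist (w r) (x i) := dist_triangle _ _ _
      _ < δ := by linarith
  obtain ⟨u, hu1, hu2, hu3⟩ := L2.rockafellar hGne (T := T) (L := L) (fun x hx => hx.2.1)
    (L2.chain_le hcyc)
  refine ⟨u, hu1, hu2, ?_⟩
  rw [unif, Measure.ae_ennreal_smul_measure_iff (by simp [hVfin.ne])]
  filter_upwards [hGae] with x hx
  exact hu3 x hx

end Vale.Agent.P074
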