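import Vale.Agent.Lib.P074.Defs

open MeasureTheory Set Filter
open scoped ENNReal NNReal Topology

namespace Vale.Agent.P074.L3

theorem sub_deriv {φ : ℝ → ℝ} {t p : ℝ} (hd : DifferentiableAt ℝ φ t)
    (h : ∀ s, φ t + p * (s - t) ≤ φ s) : p = deriv φ t := by
  have h1 : IsLocalMin (fun s => φ s - p * (s - t)) t := by
    apply Filter.Eventually.of_forall
    intro s
    have := h s
    simp only [sub_self, mul_zero, sub_zero]
    linarith
  have h2 : HasDerivAt (fun s => φ s - p * (s - t)) (deriv φ t - p * 1) t := by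
    apply hd.hasDerivAt.sub
    exact ((hasDerivAt_id t).sub_const t).const_mul p
  have := h1.hasDerivAt_eq_zero h2
  linarith

theorem convex_subgrad {φ : ℝ → ℝ} (hφ : ConvexOn ℝ univ φ) {t : ℝ}
    (hd : DifferentiableAt ℝ φ t) (s : ℝ) : φ t + deriv φ t * (s - t) ≤ φ s := by
  rcases lt_trichotomy s t with h | h | h
  · have := hφ.slope_le_deriv (mem_univ s) (mem_univ t) h hd
    rw [slope_def_field, div_le_iff₀ (by linarith)] at this
    nlinarith
  · subst h; simp
  · have := hφ.deriv_le_slope (mem_univ t) (mem_univ s) h hd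
    rw [slope_def_field, le_div_iff₀ (by linarith)] at this
    linarith

theorem deriv_mono_ae {φ : ℝ → ℝ} (hφ : ConvexOn ℝ univ φ) {s t : ℝ} (hst : s ≤ t)
    (hs : DifferentiableAt ℝ φ s) (ht : DifferentiableAt ℝ φ t) : deriv φ s ≤ deriv φ t := by
  rcases hst.eq_or_lt with h | h
  · rw [h]
  · have h1 := convex_subgrad hφ hs t
    have h2 := convex_subgrad hφ ht s
    by_contra hcon
    push Not at hcon
    nlinarith

theorem intervalIntegrable_of_bdd {f : ℝ → ℝ} (hf : Measurable f) {C : ℝ} (hC : ∀ x, |f x| ≤ C)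
    (a b : ℝ) : IntervalIntegrable f volume a b := by
  apply IntervalIntegrable.mono_fun' (g := fun _ => C) intervalIntegrable_const
    hf.aestronglyMeasurable
  exact Filter.Eventually.of_forall (fun x => by simpa using hC x)

theorem abs_deriv_le {φ : ℝ → ℝ} {L : ℝ≥0} (hL : LipschitzWith L φ) (x : ℝ) :
    |deriv φ x| ≤ L := by
  have := norm_deriv_le_of_lipschitz (x₀ := x) hL
  simpa using this

/-- the discrete version of the integration by parts bound -/
theorem key_h {φ F : ℝ → ℝ} {L L' : ℝ≥0} (hφ : ConvexOn ℝ univ φ) (hL : LipschitzWith L φ)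
    (hF : LipschitzWith L' F) {a b M : ℝ} (hab : a ≤ b) (hM : ∀ t ∈ Icc a b, |F t| ≤ M)
    {h : ℝ} (hh : 0 < h) :
    |∫ t in a..b, deriv φ t * ((F (t + h) - F t) / h)| ≤ 4 * L * (M + L' * h) := by
  have hM0 : 0 ≤ M := (abs_nonneg _).trans (hM a (left_mem_Icc.mpr hab))
  have hpm : Measurable (deriv φ) := measurable_deriv φ
  have hFc : Continuous F := hF.continuous
  have hpb : ∀ x, |deriv φ x| ≤ L := abs_deriv_le hL
  set p := deriv φ with hp
  have hae : ∀ᵐ t : ℝ, DifferentiableAt ℝ φ t := hL.ae_differentiableAt_real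
  have hae2 : ∀ᵐ t : ℝ, DifferentiableAt ℝ φ (t - h) :=
    (measurePreserving_sub_right volume h).quasiMeasurePreserving.ae hae
  -- integrability
  have hint : ∀ (c : ℝ) (G : ℝ → ℝ), Continuous G → ∀ x y : ℝ,
      IntervalIntegrable (fun t => p (t - c) * G t) volume x y := by
    intro c G hG x y
    have h1 : IntervalIntegrable (fun t => p (t - c)) volume x y :=
      intervalIntegrable_of_bdd (hpm.comp (measurable_id.sub_const c)) (fun t => hpb _) x y
    exact h1.mul_continuousOn hG.continuousOn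
  have hint0 : ∀ (G : ℝ → ℝ), Continuous G → ∀ x y : ℝ,
      IntervalIntegrable (fun t => p t * G t) volume x y := by
    intro G hG x y
    simpa using hint 0 G hG x y
  have hintp : ∀ (c : ℝ) (x y : ℝ), IntervalIntegrable (fun t => p (t - c)) volume x y :=
    fun c x y => intervalIntegrable_of_bdd (hpm.comp (measurable_id.sub_const c))
      (fun t => hpb _) x y
  -- step 1
  have e1 : ∫ t in a..b, p t * F (t + h) = ∫ t in (a + h)..(b + h), p (t - h) * F t := by
    have := intervalIntegral.integral_comp_add_right (a := a) (b := b)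
      (f := fun x => p (x - h) * F x) h
    simpa using this
  have e2 : ∫ t in (a + h)..(b + h), p (t - h) * F t
      = (∫ t in a..b, p (t - h) * F t) + (∫ t in b..(b + h), p (t - h) * F t)
        - ∫ t in a..(a + h), p (t - h) * F t := by
    have i1 := intervalIntegral.integral_add_adjacent_intervals (hint h F hFc a (a + h))
      (hint h F hFc (a + h) (b + h))
    have i2 := intervalIntegral.integral_add_adjacent_intervals (hint h F hFc a b)
      (hint h F hFc b (b + h))
    linarith
  have e3 : ∫ t in a..b, p t * ((F (t + h) - F t) / h)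
      = h⁻¹ * ((∫ t in a..b, (p (t - h) - p t) * F t) + (∫ t in b..(b + h), p (t - h) * F t)
        - ∫ t in a..(a + h), p (t - h) * F t) := by
    have i1 : ∫ t in a..b, p t * ((F (t + h) - F t) / h)
        = h⁻¹ * ((∫ t in a..b, p t * F (t + h)) - ∫ t in a..b, p t * F t) := by
      rw [← intervalIntegral.integral_sub
        (hint0 (fun t => F (t + h)) (hFc.comp (continuous_id.add continuous_const)) a b)
        (hint0 F hFc a b), ← intervalIntegral.integral_const_mul]
      congr 1
      ext t
      field_simp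
    have i2 : ∫ t in a..b, (p (t - h) - p t) * F t
        = (∫ t in a..b, p (t - h) * F t) - ∫ t in a..b, p t * F t := by
      rw [← intervalIntegral.integral_sub (hint h F hFc a b) (hint0 F hFc a b)]
      congr 1
      ext t
      ring
    rw [i1, i2, e1, e2]
    ring
  -- bounds
  have b1 : |∫ t in a..b, (p (t - h) - p t) * F t| ≤ 2 * L * h * M := by
    have s1 : ‖∫ t in a..b, (p (t - h) - p t) * F t‖
        ≤ ∫ t in a..b, (p t - p (t - h)) * M := by
      apply intervalIntegral.norm_integral_le_of_norm_le hab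
      · filter_upwards [hae, hae2] with t h1 h2 ht
        have hmono : p (t - h) ≤ p t := deriv_mono_ae hφ (by linarith) h2 h1
        rw [Real.norm_eq_abs, abs_mul, abs_sub_comm, abs_of_nonneg (sub_nonneg.mpr hmono)]
        exact mul_le_mul_of_nonneg_left (hM t ⟨ht.1.le, ht.2⟩) (sub_nonneg.mpr hmono)
      · apply IntervalIntegrable.mul_const
        exact (by simpa using hintp 0 a b : IntervalIntegrable p volume a b).sub (hintp h a b)
    have s2 : ∫ t in a..b, (p t - p (t - h)) * M
        = ((∫ t in (b - h)..b, p t) - ∫ t in (a - h)..a, p t) * M := by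
      rw [intervalIntegral.integral_mul_const]
      congr 1
      rw [intervalIntegral.integral_sub (by simpa using hintp 0 a b) (hintp h a b)]
      have : ∫ t in a..b, p (t - h) = ∫ t in (a - h)..(b - h), p t :=
        intervalIntegral.integral_comp_sub_right (f := p) h
      rw [this]
      have j0 : ∀ x y, IntervalIntegrable p volume x y := fun x y => by simpa using hintp 0 x y
      have j1 := intervalIntegral.integral_add_adjacent_intervals (j0 (a - h) a) (j0 a b)
      have j2 := intervalIntegral.integral_add_adjacent_intervals (j0 (a - h) (b - h))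
        (j0 (b - h) b)
      linarith
    have s3 : |∫ t in (b - h)..b, p t| ≤ L * h := by
      have := intervalIntegral.norm_integral_le_of_norm_le_const (a := b - h) (b := b)
        (f := p) (C := L) (fun x _ => by simpa using hpb x)
      simpa [abs_of_pos hh] using this
    have s4 : |∫ t in (a - h)..a, p t| ≤ L * h := by
      have := intervalIntegral.norm_integral_le_of_norm_le_const (a := a - h) (b := a)
        (f := p) (C := L) (fun x _ => by simpa using hpb x)
      simpa [abs_of_pos hh] using this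
    rw [Real.norm_eq_abs, s2] at s1
    refine s1.trans ?_
    have : (∫ t in (b - h)..b, p t) - ∫ t in (a - h)..a, p t ≤ 2 * L * h := by
      have := abs_le.mp s3; have := abs_le.mp s4
      linarith
    exact mul_le_mul_of_nonneg_right this hM0
  have b2 : ∀ c ∈ Icc a b, |∫ t in c..(c + h), p (t - h) * F t| ≤ L * (M + L' * h) * h := by
    intro c hc
    have := intervalIntegral.norm_integral_le_of_norm_le_const (a := c) (b := c + h)
        (f := fun t => p (t - h) * F t) (C := L * (M + L' * h)) (fun x hx => by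
          rw [Real.norm_eq_abs, abs_mul]
          apply mul_le_mul (hpb _) _ (abs_nonneg _) L.2
          rw [uIoc_of_le (by linarith)] at hx
          have h1 : |F x - F c| ≤ L' * |x - c| := by
            simpa [Real.dist_eq] using hF.dist_le_mul x c
          have h2 : |x - c| ≤ h := by
            rw [abs_of_nonneg (by linarith [hx.1])]; linarith [hx.2]
          have h3 : |F x| ≤ |F c| + |F x - F c| := by
            calc |F x| = |F c + (F x - F c)| := by ring_nf
              _ ≤ _ := abs_add_le _ _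
          have h4 := hM c hc
          have h5 : (L' : ℝ) * |x - c| ≤ L' * h := mul_le_mul_of_nonneg_left h2 L'.2
          linarith)
    simpa [abs_of_pos hh] using this
  have b3 := b2 b (right_mem_Icc.mpr hab)
  have b4 := b2 a (left_mem_Icc.mpr hab)
  rw [e3, abs_mul, abs_of_pos (inv_pos.mpr hh)]
  have hX : |(∫ t in a..b, (p (t - h) - p t) * F t) + (∫ t in b..(b + h), p (t - h) * F t)
        - ∫ t in a..(a + h), p (t - h) * F t| ≤ 2 * L * h * M + L * (M + L' * h) * h
          + L * (M + L' * h) * h := by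
    refine (abs_sub _ _).trans ?_
    have := abs_add_le (∫ t in a..b, (p (t - h) - p t) * F t)
      (∫ t in b..(b + h), p (t - h) * F t)
    linarith
  calc h⁻¹ * _ ≤ h⁻¹ * (2 * L * h * M + L * (M + L' * h) * h
          + L * (M + L' * h) * h) := mul_le_mul_of_nonneg_left hX (inv_pos.mpr hh).le
    _ = 4 * L * M + 2 * L * L' * h := by field_simp; ring
    _ ≤ 4 * L * (M + L' * h) := by
      have : 0 ≤ (L : ℝ) * L' * h := by positivity
      nlinarith

/-- `∫ φ' F'` is controlled by the sup of `F`. -/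
theorem key {φ F : ℝ → ℝ} {L L' : ℝ≥0} (hφ : ConvexOn ℝ univ φ) (hL : LipschitzWith L φ)
    (hF : LipschitzWith L' F) {a b M : ℝ} (hab : a ≤ b) (hM : ∀ t ∈ Icc a b, |F t| ≤ M) :
    |∫ t in a..b, deriv φ t * deriv F t| ≤ 4 * L * M := by
  set hn : ℕ → ℝ := fun n => 1 / ((n : ℝ) + 1) with hhn
  have hpos : ∀ n, 0 < hn n := fun n => by positivity
  have hlim : Tendsto hn atTop (𝓝 0) := tendsto_one_div_add_atTop_nhds_zero_nat
  have hlim' : Tendsto hn atTop (𝓝[≠] 0) :=
    tendsto_nhdsWithin_iff.mpr ⟨hlim, Filter.Eventually.of_forall (fun n => (hpos n).ne')⟩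
  have hA : ∀ n, |∫ t in a..b, deriv φ t * ((F (t + hn n) - F t) / hn n)|
      ≤ 4 * L * (M + L' * hn n) := fun n => key_h hφ hL hF hab hM (hpos n)
  have hT : Tendsto (fun n => ∫ t in a..b, deriv φ t * ((F (t + hn n) - F t) / hn n)) atTop
      (𝓝 (∫ t in a..b, deriv φ t * deriv F t)) := by
    apply intervalIntegral.tendsto_integral_filter_of_dominated_convergence
      (fun _ => (L : ℝ) * L')
    · refine Filter.Eventually.of_forall (fun n => ?_)
      apply Measurable.aestronglyMeasurable
      apply (measurable_deriv φ).mul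
      apply Continuous.measurable
      exact ((hF.continuous.comp (continuous_id.add continuous_const)).sub hF.continuous).div_const _
    · refine Filter.Eventually.of_forall (fun n => Filter.Eventually.of_forall (fun t _ => ?_))
      rw [Real.norm_eq_abs, abs_mul]
      apply mul_le_mul (abs_deriv_le hL t) _ (abs_nonneg _) L.2
      rw [abs_div, abs_of_pos (hpos n), div_le_iff₀ (hpos n)]
      have := hF.dist_le_mul (t + hn n) t
      simpa [Real.dist_eq, abs_of_pos (hpos n)] using this
    · exact intervalIntegrable_const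
    · filter_upwards [hF.ae_differentiableAt_real] with t ht _
      apply Tendsto.const_mul
      have := (hasDerivAt_iff_tendsto_slope_zero.mp ht.hasDerivAt).comp hlim'
      refine this.congr (fun n => ?_)
      simp [div_eq_inv_mul]
  have hB : Tendsto (fun n => 4 * (L : ℝ) * (M + L' * hn n)) atTop (𝓝 (4 * L * M)) := by
    have : Tendsto (fun n => 4 * (L : ℝ) * (M + L' * hn n)) atTop
        (𝓝 (4 * L * (M + L' * 0))) := (tendsto_const_nhds.add (hlim.const_mul _)).const_mul _
    simpa using this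
  exact le_of_tendsto_of_tendsto hT.abs hB (Filter.Eventually.of_forall hA)


theorem lower_J {F : ℝ → ℝ} {Λ : ℝ≥0} (hΛ : 0 < Λ) (hF : LipschitzWith Λ F) {a b M x₀ : ℝ}
    (hab : a ≤ b) (hx₀ : x₀ ∈ Icc a b) (hM : |F x₀| = M) (hM0 : 0 < M) :
    M ^ 2 / 4 * min (b - a) (M / (2 * Λ)) ≤ ∫ t in a..b, F t ^ 2 := by
  have hΛ' : (0 : ℝ) < Λ := by exact_mod_cast hΛ
  set r := M / (2 * Λ) with hr
  have hr0 : 0 < r := by positivity
  set c := max a (x₀ - r) with hc
  set e := min b (x₀ + r) with he
  have hce : c ≤ e := by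
    have e1 := hx₀.1
    have e2 := hx₀.2
    simp only [hc, he, max_le_iff, le_min_iff]
    refine ⟨⟨hab, by linarith⟩, ⟨by linarith, by linarith⟩⟩
  have hlen : min (b - a) r ≤ e - c := by
    have h1 : min (b - a) r ≤ b - a := min_le_left _ _
    have h2 : min (b - a) r ≤ r := min_le_right _ _
    rcases max_cases a (x₀ - r) with ⟨h3, _⟩ | ⟨h3, _⟩ <;>
    rcases min_cases b (x₀ + r) with ⟨h4, _⟩ | ⟨h4, _⟩ <;>
    simp only [hc, he, h3, h4] <;> linarith [hx₀.1, hx₀.2]
  have hFc : Continuous F := hF.continuous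
  have hle : ∀ t ∈ Icc c e, M ^ 2 / 4 ≤ F t ^ 2 := by
    intro t ht
    have h1 : |F x₀ - F t| ≤ Λ * |x₀ - t| := by
      simpa [Real.dist_eq] using hF.dist_le_mul x₀ t
    have h2 : |x₀ - t| ≤ r := by
      rw [abs_le]
      have := (max_le_iff.mp ht.1).2
      have := (le_min_iff.mp ht.2).2
      constructor <;> linarith
    have h3 : (Λ : ℝ) * |x₀ - t| ≤ M / 2 := by
      calc (Λ : ℝ) * |x₀ - t| ≤ Λ * r := mul_le_mul_of_nonneg_left h2 Λ.2
        _ = M / 2 := by rw [hr]; field_simp
    have h4 : M / 2 ≤ |F t| := by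
      have : |F x₀| ≤ |F x₀ - F t| + |F t| := by
        calc |F x₀| = |(F x₀ - F t) + F t| := by ring_nf
          _ ≤ _ := abs_add_le _ _
      linarith
    calc M ^ 2 / 4 = (M / 2) ^ 2 := by ring
      _ ≤ |F t| ^ 2 := by gcongr
      _ = F t ^ 2 := sq_abs _
  have hI : ∀ x y, IntervalIntegrable (fun t => F t ^ 2) volume x y :=
    fun x y => (hFc.pow 2).intervalIntegrable x y
  have s1 : ∫ t in c..e, F t ^ 2 ≤ ∫ t in a..b, F t ^ 2 := by
    apply intervalIntegral.integral_mono_interval (le_max_left _ _) hce (min_le_left _ _)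
    · exact Filter.Eventually.of_forall (fun t => sq_nonneg _)
    · exact hI a b
  have s2 : (e - c) * (M ^ 2 / 4) ≤ ∫ t in c..e, F t ^ 2 := by
    have := intervalIntegral.integral_mono_on hce
      (intervalIntegrable_const (c := M ^ 2 / 4)) (hI c e) hle
    simpa [mul_div_assoc] using this
  have s3 : M ^ 2 / 4 * min (b - a) r ≤ (e - c) * (M ^ 2 / 4) := by
    rw [mul_comm]
    exact mul_le_mul_of_nonneg_right hlen (by positivity)
  linarith

theorem oneD {f g : ℝ → ℝ} {L : ℝ≥0} (hf : ConvexOn ℝ univ f) (hg : ConvexOn ℝ univ g)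
    (hfL : LipschitzWith L f) (hgL : LipschitzWith L g) {a b : ℝ} (hab : a ≤ b) :
    (∫ t in a..b, (deriv f t - deriv g t) ^ 2) ^ 3
      ≤ 8192 * L ^ 4 * ∫ t in a..b, (f t - g t) ^ 2 := by
  have hJ0 : 0 ≤ ∫ t in a..b, (f t - g t) ^ 2 :=
    intervalIntegral.integral_nonneg hab (fun t _ => sq_nonneg _)
  have hI0 : 0 ≤ ∫ t in a..b, (deriv f t - deriv g t) ^ 2 :=
    intervalIntegral.integral_nonneg hab (fun t _ => sq_nonneg _)
  set F : ℝ → ℝ := fun t => f t - g t with hFdef
  have hFL : LipschitzWith (L + L) F := hfL.sub hgL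
  have hFc : Continuous F := hFL.continuous
  -- trivial bound
  have htriv : ∫ t in a..b, (deriv f t - deriv g t) ^ 2 ≤ 4 * L ^ 2 * (b - a) := by
    have h := intervalIntegral.norm_integral_le_of_norm_le_const (a := a) (b := b)
        (f := fun t => (deriv f t - deriv g t) ^ 2) (C := 4 * (L : ℝ) ^ 2) (fun x _ => by
          rw [Real.norm_eq_abs, abs_pow]
          have h1 : |deriv f x - deriv g x| ≤ 2 * L := by
            have := abs_deriv_le hfL x
            have := abs_deriv_le hgL x
            have := abs_sub (deriv f x) (deriv g x)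
            linarith
          calc |deriv f x - deriv g x| ^ 2 ≤ (2 * (L : ℝ)) ^ 2 := by gcongr
            _ = 4 * (L : ℝ) ^ 2 := by ring)
    rw [abs_of_nonneg (sub_nonneg.mpr hab)] at h
    exact (le_abs_self _).trans h
  rcases eq_or_lt_of_le (zero_le : 0 ≤ L) with hL | hL
  · rw [← hL] at htriv
    have : ∫ t in a..b, (deriv f t - deriv g t) ^ 2 = 0 := by
      apply le_antisymm _ hI0
      simpa using htriv
    rw [this]
    have : 0 ≤ 8192 * (L : ℝ) ^ 4 * ∫ t in a..b, (f t - g t) ^ 2 := by positivity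
    simpa using this
  -- the sup
  obtain ⟨x₀, hx₀, hmax⟩ := isCompact_Icc.exists_isMaxOn (nonempty_Icc.mpr hab)
    (hFc.abs.continuousOn (s := Icc a b))
  set M := |F x₀| with hMdef
  have hM : ∀ t ∈ Icc a b, |F t| ≤ M := fun t ht => hmax ht
  have hae_f := hfL.ae_differentiableAt_real
  have hae_g := hgL.ae_differentiableAt_real
  have k1 := key hf hfL hFL hab hM
  have k2 := key hg hgL hFL hab hM
  have hIle : ∫ t in a..b, (deriv f t - deriv g t) ^ 2 ≤ 8 * L * M := by
    have e1 : ∫ t in a..b, (deriv f t - deriv g t) ^ 2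
        = (∫ t in a..b, deriv f t * deriv F t) - ∫ t in a..b, deriv g t * deriv F t := by
      have hb : ∀ x, |deriv F x| ≤ (L + L : ℝ≥0) := abs_deriv_le hFL
      have i1 : IntervalIntegrable (fun t => deriv f t * deriv F t) volume a b :=
        intervalIntegrable_of_bdd ((measurable_deriv f).mul (measurable_deriv F))
          (C := L * (L + L : ℝ≥0)) (fun x => by
            rw [Pi.mul_apply, abs_mul]
            exact mul_le_mul (abs_deriv_le hfL x) (hb x) (abs_nonneg _) L.2) a b
      have i2 : IntervalIntegrable (fun t => deriv g t * deriv F t) volume a b :=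
        intervalIntegrable_of_bdd ((measurable_deriv g).mul (measurable_deriv F))
          (C := L * (L + L : ℝ≥0)) (fun x => by
            rw [Pi.mul_apply, abs_mul]
            exact mul_le_mul (abs_deriv_le hgL x) (hb x) (abs_nonneg _) L.2) a b
      rw [← intervalIntegral.integral_sub i1 i2]
      apply intervalIntegral.integral_congr_ae
      filter_upwards [hae_f, hae_g] with t h1 h2 _
      have : deriv F t = deriv f t - deriv g t := by
        simpa [hFdef] using deriv_fun_sub h1 h2
      rw [this]; ring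
    rw [e1]
    have := abs_le.mp k1
    have := abs_le.mp k2
    linarith
  rcases eq_or_lt_of_le (abs_nonneg (F x₀)) with hM0 | hM0
  · have hM0' : M = 0 := hM0.symm
    rw [hM0'] at hIle
    have : ∫ t in a..b, (deriv f t - deriv g t) ^ 2 = 0 := by
      apply le_antisymm _ hI0
      simpa using hIle
    rw [this]
    have : 0 ≤ 8192 * (L : ℝ) ^ 4 * ∫ t in a..b, (f t - g t) ^ 2 := by positivity
    simpa using this
  have hM0' : 0 < M := hM0
  have hLL : 0 < L + L := add_pos hL hL
  have hlow := lower_J hLL hFL hab hx₀ rfl hM0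
  have hLr : (0 : ℝ) < L := by exact_mod_cast hL
  have hcoe : ((L + L : ℝ≥0) : ℝ) = 2 * L := by push_cast; ring
  rw [hcoe] at hlow
  set I := ∫ t in a..b, (deriv f t - deriv g t) ^ 2 with hI
  set J := ∫ t in a..b, F t ^ 2 with hJ
  have hJ0' : 0 ≤ J := hJ0
  change M ^ 2 / 4 * min (b - a) (M / (2 * (2 * (L : ℝ)))) ≤ J at hlow
  change I ^ 3 ≤ 8192 * (L : ℝ) ^ 4 * J
  rcases le_total (b - a) (M / (2 * (2 * (L : ℝ)))) with hcase | hcase
  · rw [min_eq_left hcase] at hlow
    have h1 : 4 * L * (b - a) ≤ M := by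
      rw [le_div_iff₀ (by positivity)] at hcase
      linarith
    have hba : 0 ≤ b - a := sub_nonneg.mpr hab
    have h2 : (4 * L * (b - a)) ^ 2 ≤ M ^ 2 := by gcongr
    have h3 : (4 * L * (b - a)) ^ 2 / 4 * (b - a) ≤ J := by
      refine le_trans ?_ hlow
      gcongr
    calc I ^ 3 ≤ (4 * L ^ 2 * (b - a)) ^ 3 := by gcongr
      _ = 16 * L ^ 4 * ((4 * L * (b - a)) ^ 2 / 4 * (b - a)) := by ring
      _ ≤ 16 * L ^ 4 * J := by gcongr
      _ ≤ 8192 * L ^ 4 * J := by gcongr; norm_num
  · rw [min_eq_right hcase] at hlow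
    calc I ^ 3 ≤ (8 * L * M) ^ 3 := by gcongr
      _ = 8192 * L ^ 4 * (M ^ 2 / 4 * (M / (2 * (2 * L)))) := by
        field_simp; ring
      _ ≤ 8192 * L ^ 4 * J := by gcongr

/-- The point of the line in direction `k` through `y` at parameter `t`. -/
def line {n : ℕ} (k : Fin (n + 1)) (y : Fin n → ℝ) (t : ℝ) : E (n + 1) :=
  WithLp.toLp 2 (k.insertNth (α := fun _ => ℝ) t y)

theorem line_apply_same {n : ℕ} (k : Fin (n + 1)) (y : Fin n → ℝ) (t : ℝ) :
    (line k y t) k = t := by
  simp [line]

theorem line_apply_succAbove {n : ℕ} (k : Fin (n + 1)) (y : Fin n → ℝ) (t : ℝ) (j : Fin n) :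
    (line k y t) (k.succAbove j) = y j := by
  simp [line]

theorem line_eq {n : ℕ} (k : Fin (n + 1)) (y : Fin n → ℝ) (t : ℝ) :
    line k y t = line k y 0 + t • EuclideanSpace.single k (1 : ℝ) := by
  ext i
  rcases Fin.eq_self_or_eq_succAbove k i with h | ⟨j, h⟩
  · subst h; simp [line_apply_same]
  · subst h
    simp [line_apply_succAbove, Fin.succAbove_ne]

theorem line_sub {n : ℕ} (k : Fin (n + 1)) (y : Fin n → ℝ) (s t : ℝ) :
    line k y s - line k y t = (s - t) • EuclideanSpace.single k (1 : ℝ) := by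
  rw [line_eq k y s, line_eq k y t]
  module

theorem norm_line_sub {n : ℕ} (k : Fin (n + 1)) (y : Fin n → ℝ) (s t : ℝ) :
    ‖line k y s - line k y t‖ = |s - t| := by
  rw [line_sub, norm_smul]; simp

theorem continuous_line {n : ℕ} (k : Fin (n + 1)) (y : Fin n → ℝ) : Continuous (line k y) := by
  have : line k y = fun t => line k y 0 + t • EuclideanSpace.single k (1 : ℝ) := by
    ext1 t; exact line_eq k y t
  rw [this]
  fun_prop

theorem line_comb {n : ℕ} (k : Fin (n + 1)) (y : Fin n → ℝ) {a b : ℝ} (hab : a + b = 1)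
    (s t : ℝ) : line k y (a * s + b * t) = a • line k y s + b • line k y t := by
  have hb : b = 1 - a := by linarith
  subst hb
  rw [line_eq k y s, line_eq k y t, line_eq k y (a * s + _)]
  module

theorem convexOn_line {n : ℕ} (k : Fin (n + 1)) (y : Fin n → ℝ) {u : E (n + 1) → ℝ}
    (hu : ConvexOn ℝ univ u) : ConvexOn ℝ univ (fun t => u (line k y t)) := by
  refine ⟨convex_univ, fun s _ t _ a b ha hb hab => ?_⟩
  have := hu.2 (mem_univ (line k y s)) (mem_univ (line k y t)) ha hb hab
  simp only [smul_eq_mul] at this ⊢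
  rw [line_comb k y hab]
  exact this

theorem lipschitz_line {n : ℕ} (k : Fin (n + 1)) (y : Fin n → ℝ) {u : E (n + 1) → ℝ} {L : ℝ≥0}
    (hu : ∀ x y, |u x - u y| ≤ L * ‖x - y‖) : LipschitzWith L (fun t => u (line k y t)) := by
  apply LipschitzWith.of_dist_le_mul
  intro s t
  rw [Real.dist_eq, Real.dist_eq, ← norm_line_sub k y s t]
  exact hu _ _

theorem measurePreserving_line {n : ℕ} (k : Fin (n + 1)) :
    MeasurePreserving (fun z : (Fin n → ℝ) × ℝ => line k z.1 z.2)
      ((volume : Measure (Fin n → ℝ)).prod (volume : Measure ℝ)) (volume : Measure (E (n + 1))) := by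
  have h1 := (volume_preserving_piFinSuccAbove (fun _ : Fin (n + 1) => ℝ) k).symm
  have h2 := PiLp.volume_preserving_toLp (Fin (n + 1))
  have h3 := (Measure.measurePreserving_swap (μ := (volume : Measure (Fin n → ℝ)))
    (ν := (volume : Measure ℝ)))
  exact h2.comp (h1.comp h3)

theorem fiber_eq {n : ℕ} (k : Fin (n + 1)) (y : Fin n → ℝ) {K : Set (E (n + 1))}
    (hK : IsCompact K) (hKc : Convex ℝ K) :
    {t | line k y t ∈ K} = ∅ ∨ ∃ a b, a ≤ b ∧ {t | line k y t ∈ K} = Icc a b := by
  rcases eq_empty_or_nonempty {t | line k y t ∈ K} with h | h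
  · exact Or.inl h
  · right
    have hcl : IsClosed {t | line k y t ∈ K} := hK.isClosed.preimage (continuous_line k y)
    have hbd : Bornology.IsBounded {t | line k y t ∈ K} := by
      obtain ⟨t₀, ht₀⟩ := h
      obtain ⟨R, hR⟩ := hK.isBounded.subset_closedBall (line k y t₀)
      refine (Metric.isBounded_closedBall (x := t₀) (r := R)).subset (fun t ht => ?_)
      have := hR ht
      rw [Metric.mem_closedBall, dist_eq_norm, norm_line_sub] at this
      simpa [Real.dist_eq] using this
    have hcomp : IsCompact {t | line k y t ∈ K} := Metric.isCompact_of_isClosed_isBounded hcl hbd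
    have hconv : Convex ℝ {t | line k y t ∈ K} := by
      intro s hs t ht a b ha hb hab
      simp only [mem_ofPred_eq, smul_eq_mul] at hs ht ⊢
      rw [line_comb k y hab]
      exact hKc hs ht ha hb hab
    have := eq_Icc_of_connected_compact (hconv.isConnected h) hcomp
    refine ⟨_, _, ?_, this⟩
    rw [this] at h
    exact nonempty_Icc.mp h

theorem fiber_bound {n : ℕ} (k : Fin (n + 1)) {K : Set (E (n + 1))}
    (hK : IsCompact K) (hKc : Convex ℝ K) {L : ℝ≥0} {u v : E (n + 1) → ℝ}
    {T S : E (n + 1) → E (n + 1)}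
    (hu : ConvexOn ℝ univ u) (hv : ConvexOn ℝ univ v)
    (huL : ∀ x y, |u x - u y| ≤ L * ‖x - y‖) (hvL : ∀ x y, |v x - v y| ≤ L * ‖x - y‖)
    (y : Fin n → ℝ)
    (hT : ∀ᵐ t : ℝ, line k y t ∈ K → ∀ z, u (line k y t)
      + inner ℝ (T (line k y t)) (z - line k y t) ≤ u z)
    (hS : ∀ᵐ t : ℝ, line k y t ∈ K → ∀ z, v (line k y t)
      + inner ℝ (S (line k y t)) (z - line k y t) ≤ v z) :
    (∫⁻ t : ℝ, K.indicator (fun x => ENNReal.ofReal (((T x) k - (S x) k) ^ 2)) (line k y t)) ^ 3
      ≤ ENNReal.ofReal (8192 * L ^ 4) *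
        ∫⁻ t : ℝ, K.indicator (fun x => ENNReal.ofReal ((u x - v x) ^ 2)) (line k y t) := by
  set f : ℝ → ℝ := fun t => u (line k y t) with hf
  set g : ℝ → ℝ := fun t => v (line k y t) with hg
  have hfc : ConvexOn ℝ univ f := convexOn_line k y hu
  have hgc : ConvexOn ℝ univ g := convexOn_line k y hv
  have hfL : LipschitzWith L f := lipschitz_line k y huL
  have hgL : LipschitzWith L g := lipschitz_line k y hvL
  have hind : ∀ G : E (n + 1) → ℝ≥0∞, ∀ t, K.indicator G (line k y t)
      = {t | line k y t ∈ K}.indicator (fun t => G (line k y t)) t := by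
    intro G t
    by_cases h : line k y t ∈ K
    · rw [indicator_of_mem h, indicator_of_mem (by exact h)]
    · rw [indicator_of_notMem h, indicator_of_notMem (by exact h)]
  simp_rw [hind]
  rcases fiber_eq k y hK hKc with he | ⟨a, b, hab, he⟩
  · rw [he]; simp
  rw [he]
  rw [lintegral_indicator measurableSet_Icc, lintegral_indicator measurableSet_Icc]
  have e1 : ∫⁻ t in Icc a b, ENNReal.ofReal (((T (line k y t)) k - (S (line k y t)) k) ^ 2)
      = ENNReal.ofReal (∫ t in a..b, (deriv f t - deriv g t) ^ 2) := by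
    rw [intervalIntegral.integral_of_le hab, ← integral_Icc_eq_integral_Ioc]
    rw [ofReal_integral_eq_lintegral_ofReal]
    · apply lintegral_congr_ae
      rw [Filter.EventuallyEq, ae_restrict_iff' measurableSet_Icc]
      filter_upwards [hT, hS, hfL.ae_differentiableAt_real, hgL.ae_differentiableAt_real]
        with t h1 h2 h3 h4 ht
      have htK : line k y t ∈ K := by
        have : t ∈ {t | line k y t ∈ K} := by rw [he]; exact ht
        exact this
      have h5 : (T (line k y t)) k = deriv f t := by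
        apply sub_deriv h3
        intro s
        have := h1 htK (line k y s)
        rw [line_sub, inner_smul_right] at this
        simp only [EuclideanSpace.inner_single_right] at this
        simp only [hf]
        simp at this
        linarith
      have h6 : (S (line k y t)) k = deriv g t := by
        apply sub_deriv h4
        intro s
        have := h2 htK (line k y s)
        rw [line_sub, inner_smul_right] at this
        simp only [EuclideanSpace.inner_single_right] at this
        simp only [hg]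
        simp at this
        linarith
      rw [h5, h6]
    · have := intervalIntegrable_of_bdd (f := fun t => (deriv f t - deriv g t) ^ 2)
        (((measurable_deriv f).sub (measurable_deriv g)).pow_const 2) (C := (2 * L) ^ 2)
        (fun x => by
          rw [abs_pow]
          have h1 : |deriv f x - deriv g x| ≤ 2 * L := by
            have := abs_deriv_le hfL x
            have := abs_deriv_le hgL x
            have := abs_sub (deriv f x) (deriv g x)
            linarith
          gcongr) a b
      rw [intervalIntegrable_iff_integrableOn_Icc_of_le hab] at this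
      exact this
    · exact Filter.Eventually.of_forall (fun t => sq_nonneg _)
  have e2 : ∫⁻ t in Icc a b, ENNReal.ofReal ((u (line k y t) - v (line k y t)) ^ 2)
      = ENNReal.ofReal (∫ t in a..b, (f t - g t) ^ 2) := by
    rw [intervalIntegral.integral_of_le hab, ← integral_Icc_eq_integral_Ioc]
    rw [ofReal_integral_eq_lintegral_ofReal]
    · apply Continuous.integrableOn_Icc
      exact (hfL.continuous.sub hgL.continuous).pow 2
    · exact Filter.Eventually.of_forall (fun t => sq_nonneg _)
  rw [e1, e2, ← ENNReal.ofReal_mul (by positivity), ← ENNReal.ofReal_pow]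
  · exact ENNReal.ofReal_le_ofReal (oneD hfc hgc hfL hgL hab)
  · exact intervalIntegral.integral_nonneg hab (fun t _ => sq_nonneg _)

theorem coord_bound {n : ℕ} (k : Fin (n + 1)) {K : Set (E (n + 1))}
    (hK : IsCompact K) (hKc : Convex ℝ K) {R : ℝ} (hR : K ⊆ Metric.closedBall 0 R)
    {L : ℝ≥0} {u v : E (n + 1) → ℝ} {T S : E (n + 1) → E (n + 1)}
    (hu : ConvexOn ℝ univ u) (hv : ConvexOn ℝ univ v)
    (huL : ∀ x y, |u x - u y| ≤ L * ‖x - y‖) (hvL : ∀ x y, |v x - v y| ≤ L * ‖x - y‖)
    (hTm : Measurable T) (hSm : Measurable S)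
    (hT : ∀ᵐ x : E (n + 1), x ∈ K → ∀ z, u x + inner ℝ (T x) (z - x) ≤ u z)
    (hS : ∀ᵐ x : E (n + 1), x ∈ K → ∀ z, v x + inner ℝ (S x) (z - x) ≤ v z) :
    (∫⁻ x in K, ENNReal.ofReal (((T x) k - (S x) k) ^ 2)) ^ 3
      ≤ volume (Metric.closedBall (0 : Fin n → ℝ) R) ^ 2 * (ENNReal.ofReal (8192 * L ^ 4) *
        ∫⁻ x in K, ENNReal.ofReal ((u x - v x) ^ 2)) := by
  have hΦ := measurePreserving_line k
  have hKm : MeasurableSet K := hK.isClosed.measurableSet
  have huc : Continuous u := by
    apply (LipschitzWith.of_dist_le_mul (K := L) _).continuous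
    intro x y; rw [Real.dist_eq, dist_eq_norm]; exact huL x y
  have hvc : Continuous v := by
    apply (LipschitzWith.of_dist_le_mul (K := L) _).continuous
    intro x y; rw [Real.dist_eq, dist_eq_norm]; exact hvL x y
  set GI : E (n + 1) → ℝ≥0∞ := K.indicator (fun x => ENNReal.ofReal (((T x) k - (S x) k) ^ 2))
    with hGI
  set GJ : E (n + 1) → ℝ≥0∞ := K.indicator (fun x => ENNReal.ofReal ((u x - v x) ^ 2)) with hGJ
  have hcoord : Measurable (fun x : E (n + 1) => x k) :=
    (EuclideanSpace.proj k : EuclideanSpace ℝ (Fin (n + 1)) →L[ℝ] ℝ).continuous.measurable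
  have hGIm : Measurable GI := by
    apply Measurable.indicator _ hKm
    apply ENNReal.measurable_ofReal.comp
    exact ((hcoord.comp hTm).sub (hcoord.comp hSm)).pow_const 2
  have hGJm : Measurable GJ := by
    apply Measurable.indicator _ hKm
    apply ENNReal.measurable_ofReal.comp
    exact ((huc.sub hvc).pow 2).measurable
  have eI : ∫⁻ x in K, ENNReal.ofReal (((T x) k - (S x) k) ^ 2)
      = ∫⁻ y : Fin n → ℝ, ∫⁻ t : ℝ, GI (line k y t) := by
    rw [← lintegral_indicator hKm, ← hΦ.lintegral_comp hGIm]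
    exact lintegral_prod (fun z : (Fin n → ℝ) × ℝ => GI (line k z.1 z.2))
      (hGIm.comp hΦ.measurable).aemeasurable
  have eJ : ∫⁻ x in K, ENNReal.ofReal ((u x - v x) ^ 2)
      = ∫⁻ y : Fin n → ℝ, ∫⁻ t : ℝ, GJ (line k y t) := by
    rw [← lintegral_indicator hKm, ← hΦ.lintegral_comp hGJm]
    exact lintegral_prod (fun z : (Fin n → ℝ) × ℝ => GJ (line k z.1 z.2))
      (hGJm.comp hΦ.measurable).aemeasurable
  set I : (Fin n → ℝ) → ℝ≥0∞ := fun y => ∫⁻ t : ℝ, GI (line k y t) with hI
  set J : (Fin n → ℝ) → ℝ≥0∞ := fun y => ∫⁻ t : ℝ, GJ (line k y t) with hJ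
  have hIm : Measurable I := by
    have := (hGIm.comp hΦ.measurable).lintegral_prod_right' (ν := (volume : Measure ℝ))
    exact this
  have hT' := Measure.ae_ae_of_ae_prod (hΦ.quasiMeasurePreserving.ae hT)
  have hS' := Measure.ae_ae_of_ae_prod (hΦ.quasiMeasurePreserving.ae hS)
  have hfib : ∀ᵐ y : Fin n → ℝ, I y ^ 3 ≤ ENNReal.ofReal (8192 * L ^ 4) * J y := by
    filter_upwards [hT', hS'] with y h1 h2
    exact fiber_bound k hK hKc hu hv huL hvL y h1 h2
  -- support of `I`
  set B := Metric.closedBall (0 : Fin n → ℝ) R with hB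
  have hBm : MeasurableSet B := Metric.isClosed_closedBall.measurableSet
  have hIB : ∀ y, y ∉ B → I y = 0 := by
    intro y hy
    have : ∀ t, GI (line k y t) = 0 := by
      intro t
      apply indicator_of_notMem
      intro hmem
      apply hy
      have h1 := hR hmem
      rw [mem_closedBall_zero_iff] at h1
      have hR0 : 0 ≤ R := (norm_nonneg _).trans h1
      rw [hB, mem_closedBall_zero_iff, pi_norm_le_iff_of_nonneg hR0]
      intro j
      have := PiLp.norm_apply_le (line k y t) (k.succAbove j)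
      rw [line_apply_succAbove] at this
      exact this.trans h1
    simp [hI, this]
  have hIind : ∫⁻ y, I y = ∫⁻ y in B, I y := by
    rw [← lintegral_indicator hBm]
    congr 1
    ext1 y
    by_cases h : y ∈ B
    · rw [indicator_of_mem h]
    · rw [indicator_of_notMem h, hIB y h]
  have hholder : (∫⁻ y in B, I y) ^ 3 ≤ volume B ^ 2 * ∫⁻ y in B, I y ^ 3 := by
    have hpq : Real.HolderConjugate 3 (3 / 2) := by
      rw [Real.holderConjugate_iff]; norm_num
    have h := ENNReal.lintegral_mul_le_Lp_mul_Lq (volume.restrict B) hpq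
      (f := I) (g := fun _ => 1) hIm.aemeasurable aemeasurable_const
    have h1 : ∫⁻ y in B, I y ≤ (∫⁻ y in B, I y ^ (3 : ℝ)) ^ (1 / 3 : ℝ) *
        (volume B) ^ (1 / (3 / 2) : ℝ) := by
      simpa using h
    calc (∫⁻ y in B, I y) ^ 3 ≤ ((∫⁻ y in B, I y ^ (3 : ℝ)) ^ (1 / 3 : ℝ) *
        (volume B) ^ (1 / (3 / 2) : ℝ)) ^ 3 := by gcongr
      _ = volume B ^ 2 * ∫⁻ y in B, I y ^ 3 := by
        rw [mul_pow, ← ENNReal.rpow_natCast, ← ENNReal.rpow_mul, ← ENNReal.rpow_natCast,
          ← ENNReal.rpow_mul, mul_comm]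
        congr 1
        · rw [← ENNReal.rpow_natCast]; norm_num
        · simp only [one_div, Nat.cast_ofNat]
          rw [inv_mul_cancel₀ (by norm_num), ENNReal.rpow_one]
          congr 1
          ext1 y
          rw [← ENNReal.rpow_natCast]; norm_num
  rw [eI, eJ, hIind]
  refine hholder.trans ?_
  gcongr
  calc ∫⁻ y in B, I y ^ 3 ≤ ∫⁻ y, I y ^ 3 := setLIntegral_le_lintegral _ _
    _ ≤ ∫⁻ y, ENNReal.ofReal (8192 * L ^ 4) * J y := lintegral_mono_ae hfib
    _ = ENNReal.ofReal (8192 * L ^ 4) * ∫⁻ y, J y := by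
      rw [lintegral_const_mul']
      exact ENNReal.ofReal_ne_top

end Vale.Agent.P074.L3

namespace Vale.Agent.P074

/-- L3: Gagliardo-Nirenberg type inequality for convex functions. -/
theorem gagliardo_nirenberg {d : ℕ} {K : Set (E d)} (hK : IsCompact K) (hKc : Convex ℝ K)
    (hKi : (interior K).Nonempty) {L : ℝ} (hL : 0 ≤ L) :
    ∃ C : ℝ, 0 ≤ C ∧ ∀ (u v : E d → ℝ) (T S : E d → E d),
      ConvexOn ℝ univ u → ConvexOn ℝ univ v →
      (∀ x y, |u x - u y| ≤ L * ‖x - y‖) → (∀ x y, |v x - v y| ≤ L * ‖x - y‖) →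
      Measurable T → Measurable S →
      (∀ᵐ x ∂(unif K), ∀ z, u x + inner ℝ (T x) (z - x) ≤ u z) →
      (∀ᵐ x ∂(unif K), ∀ z, v x + inner ℝ (S x) (z - x) ≤ v z) →
      (∫ x, ‖T x - S x‖ ^ 2 ∂(unif K)) ^ 3 ≤ C * ∫ x, (u x - v x) ^ 2 ∂(unif K) := by
  rcases d with _ | n
  · refine ⟨0, le_rfl, fun u v T S _ _ _ _ _ _ _ _ => ?_⟩
    have : ∀ x, ‖T x - S x‖ ^ 2 = 0 := by
      intro x
      rw [Subsingleton.elim (T x) (S x)]; simp
    simp [this]
  obtain ⟨R, hR⟩ := hK.isBounded.subset_closedBall 0
  set B := Metric.closedBall (0 : Fin n → ℝ) R with hB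
  have hBfin : volume B < ⊤ := measure_closedBall_lt_top
  have hKm : MeasurableSet K := hK.isClosed.measurableSet
  have hVfin : volume K < ⊤ := hK.measure_lt_top
  have hVpos : 0 < volume K :=
    lt_of_lt_of_le (isOpen_interior.measure_pos volume hKi) (measure_mono interior_subset)
  set V := (volume K).toReal with hV
  have hV0 : 0 < V := ENNReal.toReal_pos hVpos.ne' hVfin.ne
  set c := (volume B).toReal ^ 2 * (8192 * L ^ 4) with hc
  have hc0 : 0 ≤ c := by positivity
  refine ⟨((n + 1 : ℕ) : ℝ) ^ 3 * c / V ^ 2, by positivity, fun u v T S hu hv huL hvL hTm hSm hT hS => ?_⟩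
  -- change from `unif K` to the restricted measure
  have hconv : ∀ f : E (n + 1) → ℝ, ∫ x, f x ∂(unif K) = V⁻¹ * ∫ x in K, f x := by
    intro f
    rw [unif, integral_smul_measure, ENNReal.toReal_inv, smul_eq_mul]
  have haeK : ∀ p : E (n + 1) → Prop, (∀ᵐ x ∂(unif K), p x) → ∀ᵐ x : E (n + 1), x ∈ K → p x := by
    intro p hp
    rw [← ae_restrict_iff' hKm]
    rw [unif, Measure.ae_ennreal_smul_measure_iff (by simp [hVfin.ne])] at hp
    exact hp
  have hT' := haeK _ hT
  have hS' := haeK _ hS
  lift L to ℝ≥0 using hL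
  have hcoord : ∀ k : Fin (n + 1), Measurable (fun x : E (n + 1) => x k) := fun k =>
    (EuclideanSpace.proj k : EuclideanSpace ℝ (Fin (n + 1)) →L[ℝ] ℝ).continuous.measurable
  have huc : Continuous u := by
    apply (LipschitzWith.of_dist_le_mul (K := L) _).continuous
    intro x y; rw [Real.dist_eq, dist_eq_norm]; exact huL x y
  have hvc : Continuous v := by
    apply (LipschitzWith.of_dist_le_mul (K := L) _).continuous
    intro x y; rw [Real.dist_eq, dist_eq_norm]; exact hvL x y
  -- the right-hand side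
  set J := ∫ x in K, (u x - v x) ^ 2 with hJ
  have hJint : IntegrableOn (fun x => (u x - v x) ^ 2) K :=
    ((huc.sub hvc).pow 2).continuousOn.integrableOn_compact hK
  have hJ0 : 0 ≤ J := integral_nonneg (fun x => sq_nonneg _)
  have hJeq : ∫⁻ x in K, ENNReal.ofReal ((u x - v x) ^ 2) = ENNReal.ofReal J := by
    rw [hJ, ofReal_integral_eq_lintegral_ofReal hJint
      (Filter.Eventually.of_forall (fun x => sq_nonneg _))]
  -- coordinates
  set A : Fin (n + 1) → ℝ≥0∞ := fun k => ∫⁻ x in K, ENNReal.ofReal (((T x) k - (S x) k) ^ 2)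
    with hA
  have hAle : ∀ k, A k ^ 3 ≤ ENNReal.ofReal (c * J) := by
    intro k
    have := L3.coord_bound k hK hKc hR hu hv huL hvL hTm hSm hT' hS'
    rw [hJeq] at this
    refine this.trans (le_of_eq ?_)
    have e1 : ENNReal.ofReal ((volume B).toReal ^ 2) = volume B ^ 2 := by
      rw [ENNReal.ofReal_pow ENNReal.toReal_nonneg, ENNReal.ofReal_toReal hBfin.ne]
    have e2 : ENNReal.ofReal (8192 * (L : ℝ) ^ 4) * ENNReal.ofReal J
        = ENNReal.ofReal (8192 * (L : ℝ) ^ 4 * J) := (ENNReal.ofReal_mul (by positivity)).symm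
    rw [e2, ← e1, ← ENNReal.ofReal_mul (by positivity), hc, mul_assoc ((volume B).toReal ^ 2)]
  have hAfin : ∀ k, A k ≠ ⊤ := by
    intro k hk
    have := hAle k
    rw [hk] at this
    simp at this
  have hAle' : ∀ k, (A k).toReal ^ 3 ≤ c * J := by
    intro k
    have h := ENNReal.toReal_mono ENNReal.ofReal_ne_top (hAle k)
    rwa [ENNReal.toReal_pow, ENNReal.toReal_ofReal (by positivity)] at h
  have hnorm : ∫ x in K, ‖T x - S x‖ ^ 2 = ∑ k, (A k).toReal := by
    rw [integral_eq_lintegral_of_nonneg_ae (f := fun x => ‖T x - S x‖ ^ 2)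
      (Filter.Eventually.of_forall (fun x => by positivity))
      ((hTm.sub hSm).norm.pow_const 2).aestronglyMeasurable]
    rw [← ENNReal.toReal_sum (fun k _ => hAfin k)]
    congr 1
    rw [hA, ← lintegral_finsetSum]
    · apply lintegral_congr
      intro x
      rw [EuclideanSpace.real_norm_sq_eq, ENNReal.ofReal_sum_of_nonneg (fun k _ => sq_nonneg _)]
      rfl
    · intro k _
      apply ENNReal.measurable_ofReal.comp
      exact (((hcoord k).comp hTm).sub ((hcoord k).comp hSm)).pow_const 2
  rw [hconv, hconv, hnorm]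
  set s := ∑ k, (A k).toReal with hs
  have hs0 : 0 ≤ s := Finset.sum_nonneg (fun k _ => ENNReal.toReal_nonneg)
  -- some coordinate carries at least the average
  have hs3 : s ^ 3 ≤ ((n + 1 : ℕ) : ℝ) ^ 3 * (c * J) := by
    obtain ⟨k, _, hk⟩ := Finset.exists_max_image Finset.univ (fun k => (A k).toReal)
      ⟨(0 : Fin (n + 1)), Finset.mem_univ _⟩
    have h1 : s ≤ ((n + 1 : ℕ) : ℝ) * (A k).toReal := by
      have := Finset.sum_le_card_nsmul Finset.univ (fun k => (A k).toReal) (A k).toReal
        (fun j hj => hk j hj)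
      simpa using this
    calc s ^ 3 ≤ (((n + 1 : ℕ) : ℝ) * (A k).toReal) ^ 3 := by gcongr
      _ = ((n + 1 : ℕ) : ℝ) ^ 3 * (A k).toReal ^ 3 := by ring
      _ ≤ ((n + 1 : ℕ) : ℝ) ^ 3 * (c * J) := by gcongr; exact hAle' k
  calc (V⁻¹ * s) ^ 3 = V⁻¹ ^ 3 * s ^ 3 := by ring
    _ ≤ V⁻¹ ^ 3 * (((n + 1 : ℕ) : ℝ) ^ 3 * (c * J)) := by gcongr
    _ = ((n + 1 : ℕ) : ℝ) ^ 3 * c / V ^ 2 * (V⁻¹ * J) := by
      field_simp

end Vale.Agent.P074
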