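import Vale.Agent.Lib.P074.Defs

open MeasureTheory Set
open scoped ENNReal NNReal

namespace Vale.Agent.P074

namespace L4

theorem hyperplane_null {d : ℕ} {v : E d} (hv : v ≠ 0) (c : ℝ) :
    (volume : Measure (E d)) {x | inner ℝ x v = c} = 0 := by
  have hv2 : inner ℝ v v ≠ (0 : ℝ) := by
    simpa using hv
  set p : E d := (c / inner ℝ v v) • v with hp
  have hpc : inner ℝ p v = c := by
    rw [hp, inner_smul_left]
    simp only [RCLike.conj_to_real]
    field_simp
  have e : {x : E d | inner ℝ x v = c}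
      = (fun x => x + -p) ⁻¹' ((LinearMap.ker (innerSL ℝ v : E d →L[ℝ] ℝ).toLinearMap :
          Submodule ℝ (E d)) : Set (E d)) := by
    ext x
    simp only [mem_ofPred_eq, mem_preimage, SetLike.mem_coe, LinearMap.mem_ker]
    have : (innerSL ℝ v : E d →L[ℝ] ℝ) (x + -p) = inner ℝ x v - c := by
      rw [innerSL_apply_apply, real_inner_comm, inner_add_left, inner_neg_left, hpc]
      ring
    constructor
    · intro h
      have h2 : (innerSL ℝ v : E d →L[ℝ] ℝ) (x + -p) = 0 := by rw [this, h, sub_self]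
      exact h2
    · intro h
      have h2 : (innerSL ℝ v : E d →L[ℝ] ℝ) (x + -p) = 0 := h
      rw [this] at h2
      linarith
  rw [e, measure_preimage_add_right]
  apply Measure.addHaar_submodule
  intro htop
  have : v ∈ (LinearMap.ker (innerSL ℝ v : E d →L[ℝ] ℝ).toLinearMap : Submodule ℝ (E d)) := by
    rw [htop]; trivial
  have h2 : (innerSL ℝ v : E d →L[ℝ] ℝ) v = 0 := this
  rw [innerSL_apply_apply] at h2
  exact hv2 h2

variable {d : ℕ} {ι : Type} [Fintype ι] [Nonempty ι]

/-- The maximum of the affine functions. -/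
noncomputable def M (y : ι → E d) (w : ι → ℝ) (x : E d) : ℝ :=
  Finset.univ.sup' Finset.univ_nonempty (fun i => inner ℝ x (y i) - w i)

theorem le_M (y : ι → E d) (w : ι → ℝ) (x : E d) (i : ι) :
    inner ℝ x (y i) - w i ≤ M y w x :=
  Finset.le_sup' (fun i => inner ℝ x (y i) - w i) (Finset.mem_univ i)

theorem M_le {y : ι → E d} {w : ι → ℝ} {x : E d} {c : ℝ}
    (h : ∀ i, inner ℝ x (y i) - w i ≤ c) : M y w x ≤ c :=
  Finset.sup'_le _ _ fun i _ => h i

theorem continuous_M (y : ι → E d) (w : ι → ℝ) : Continuous (M y w) := by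
  unfold M
  refine Continuous.finset_sup'_apply _ fun i _ => ?_
  exact (continuous_id.inner continuous_const).sub continuous_const

theorem M_lip (y : ι → E d) (w w' : ι → ℝ) (x : E d) : M y w x ≤ M y w' x + ‖w - w'‖ := by
  refine M_le fun i => ?_
  have h1 := le_M y w' x i
  have h2 : ‖(w - w') i‖ ≤ ‖w - w'‖ := norm_le_pi_norm (w - w') i
  rw [Pi.sub_apply, Real.norm_eq_abs, abs_le] at h2
  linarith [h2.1]

theorem M_shift (y : ι → E d) (w : ι → ℝ) (c : ℝ) (x : E d) :
    M y (fun i => w i + c) x = M y w x - c := by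
  apply le_antisymm
  · refine M_le fun i => ?_
    have := le_M y w x i
    linarith
  · have : M y w x ≤ M y (fun i => w i + c) x + c := by
      refine M_le fun i => ?_
      have := le_M y (fun i => w i + c) x i
      linarith
    linarith

/-- the bound on the linear functions -/
theorem inner_bound {R : ℝ} (y : ι → E d) {x : E d} (hx : ‖x‖ ≤ R) (i : ι) :
    |inner ℝ x (y i)| ≤ |R| * ∑ j, ‖y j‖ := by
  have h1 := abs_real_inner_le_norm x (y i)
  have h2 : ‖y i‖ ≤ ∑ j, ‖y j‖ :=
    Finset.single_le_sum (f := fun j => ‖y j‖) (fun j _ => norm_nonneg _) (Finset.mem_univ i)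
  calc |inner ℝ x (y i)| ≤ ‖x‖ * ‖y i‖ := h1
    _ ≤ |R| * ∑ j, ‖y j‖ := by
        apply mul_le_mul (hx.trans (le_abs_self R)) h2 (norm_nonneg _) (abs_nonneg _)

variable (σ : Measure (E d)) [IsProbabilityMeasure σ]

theorem ae_norm_le {R : ℝ} (hR : σ (Metric.closedBall 0 R)ᶜ = 0) : ∀ᵐ x ∂σ, ‖x‖ ≤ R := by
  have : ∀ᵐ x ∂σ, x ∈ Metric.closedBall (0 : E d) R := by
    rw [ae_iff]
    exact hR
  filter_upwards [this] with x hx
  simpa using hx

theorem integrable_M {R : ℝ} (hR : σ (Metric.closedBall 0 R)ᶜ = 0) (y : ι → E d) (w : ι → ℝ) :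
    Integrable (M y w) σ := by
  obtain ⟨i0⟩ := ‹Nonempty ι›
  refine Integrable.of_bound (C := |R| * ∑ j, ‖y j‖ + ∑ j, |w j|)
    (continuous_M y w).aestronglyMeasurable ?_
  filter_upwards [ae_norm_le σ hR] with x hx
  have hw : ∀ i, |w i| ≤ ∑ j, |w j| := fun i =>
    Finset.single_le_sum (f := fun j => |w j|) (fun j _ => abs_nonneg _) (Finset.mem_univ i)
  rw [Real.norm_eq_abs, abs_le]
  constructor
  · have h1 := le_M y w x i0
    have h2 := (abs_le.1 (inner_bound y hx i0)).1
    have h3 := (abs_le.1 (hw i0)).2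
    linarith
  · refine M_le fun i => ?_
    have h2 := (abs_le.1 (inner_bound y hx i)).2
    have h3 := (abs_le.1 (hw i)).1
    linarith

/-- The dual functional. -/
noncomputable def F (y : ι → E d) (m : ι → ℝ) (w : ι → ℝ) : ℝ :=
  (∫ x, M y w x ∂σ) + ∑ i, m i * w i

theorem F_shift {R : ℝ} (hR : σ (Metric.closedBall 0 R)ᶜ = 0) (y : ι → E d) (m : ι → ℝ)
    (hsum : ∑ i, m i = 1) (w : ι → ℝ) (c : ℝ) :
    F σ y m (fun i => w i + c) = F σ y m w := by
  unfold F
  have h1 : (∫ x, M y (fun i => w i + c) x ∂σ) = (∫ x, M y w x ∂σ) - c := by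
    simp only [M_shift]
    rw [integral_sub (integrable_M σ hR y w) (integrable_const c)]
    simp
  have h2 : ∑ i, m i * (w i + c) = (∑ i, m i * w i) + c := by
    simp only [mul_add, Finset.sum_add_distrib, ← Finset.sum_mul, hsum, one_mul]
  rw [h1, h2]
  ring

theorem F_cont {R : ℝ} (hR : σ (Metric.closedBall 0 R)ᶜ = 0) (y : ι → E d) (m : ι → ℝ) :
    Continuous (F σ y m) := by
  unfold F
  refine Continuous.add ?_ (by fun_prop)
  have key : ∀ w w' : ι → ℝ, (∫ x, M y w x ∂σ) - (∫ x, M y w' x ∂σ) ≤ ‖w - w'‖ := by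
    intro w w'
    have h1 : (∫ x, M y w x ∂σ) ≤ ∫ x, (M y w' x + ‖w - w'‖) ∂σ :=
      integral_mono (integrable_M σ hR y w)
        ((integrable_M σ hR y w').add (integrable_const _)) fun x => M_lip y w w' x
    rw [integral_add (integrable_M σ hR y w') (integrable_const _)] at h1
    simp only [integral_const, probReal_univ, smul_eq_mul, one_mul] at h1
    linarith
  have lip : LipschitzWith 1 (fun w : ι → ℝ => ∫ x, M y w x ∂σ) := by
    refine LipschitzWith.of_dist_le_mul fun w w' => ?_
    rw [Real.dist_eq, NNReal.coe_one, one_mul, dist_eq_norm, abs_le]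
    have a1 := key w w'
    have a2 := key w' w
    rw [norm_sub_rev] at a2
    constructor <;> linarith
  exact lip.continuous

theorem F_lower {R : ℝ} (hR : σ (Metric.closedBall 0 R)ᶜ = 0) (y : ι → E d) (m : ι → ℝ)
    (w : ι → ℝ) (j : ι) :
    -(|R| * ∑ j, ‖y j‖) - w j + ∑ i, m i * w i ≤ F σ y m w := by
  unfold F
  have : (∫ _x, (-(|R| * ∑ j, ‖y j‖) - w j) ∂σ) ≤ ∫ x, M y w x ∂σ := by
    refine integral_mono_ae (integrable_const _) (integrable_M σ hR y w) ?_
    filter_upwards [ae_norm_le σ hR] with x hx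
    have h1 := le_M y w x j
    have h2 := (abs_le.1 (inner_bound y hx j)).1
    linarith
  simp only [integral_const, probReal_univ, smul_eq_mul, one_mul] at this
  linarith

theorem F_zero_le {R : ℝ} (hR : σ (Metric.closedBall 0 R)ᶜ = 0) (y : ι → E d) (m : ι → ℝ) :
    F σ y m 0 ≤ |R| * ∑ j, ‖y j‖ := by
  unfold F
  have : (∫ x, M y 0 x ∂σ) ≤ ∫ _x, (|R| * ∑ j, ‖y j‖) ∂σ := by
    refine integral_mono_ae (integrable_M σ hR y 0) (integrable_const _) ?_
    filter_upwards [ae_norm_le σ hR] with x hx
    refine M_le fun i => ?_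
    have h2 := (abs_le.1 (inner_bound y hx i)).2
    simp only [Pi.zero_apply, sub_zero]
    exact h2
  simp only [integral_const, probReal_univ, smul_eq_mul, one_mul] at this
  simpa using this

theorem exists_min {R : ℝ} (hR : σ (Metric.closedBall 0 R)ᶜ = 0) (y : ι → E d) (m : ι → ℝ)
    (hm : ∀ i, 0 < m i) (hsum : ∑ i, m i = 1) :
    ∃ w : ι → ℝ, ∀ w', F σ y m w ≤ F σ y m w' := by
  classical
  set B : ℝ := |R| * ∑ j, ‖y j‖ with hB
  have B0 : 0 ≤ B := mul_nonneg (abs_nonneg _) (Finset.sum_nonneg fun j _ => norm_nonneg _)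
  obtain ⟨i0, -, hi0⟩ := Finset.exists_min_image Finset.univ m Finset.univ_nonempty
  set C : ℝ := 2 * B / m i0 with hC
  have C0 : 0 ≤ C := div_nonneg (by linarith) (hm i0).le
  have cpt : IsCompact (Set.Icc (0 : ι → ℝ) (fun _ => C)) := isCompact_Icc
  obtain ⟨w, hwB, hw⟩ := cpt.exists_isMinOn (f := F σ y m)
    ⟨0, ⟨le_rfl, fun _ => C0⟩⟩ (F_cont σ hR y m).continuousOn
  refine ⟨w, fun w' => ?_⟩
  obtain ⟨j0, -, hj0⟩ := Finset.exists_min_image Finset.univ w' Finset.univ_nonempty
  have e := F_shift σ hR y m hsum w' (-(w' j0))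
  rw [← e]
  set w'' : ι → ℝ := fun i => w' i + -(w' j0) with hw''
  have w0 : ∀ i, 0 ≤ w'' i := fun i => by
    have := hj0 i (Finset.mem_univ i)
    simp only [hw'']
    linarith
  by_cases hbox : ∀ i, w'' i ≤ C
  · exact hw ⟨w0, hbox⟩
  · push Not at hbox
    obtain ⟨i, hi⟩ := hbox
    have h0 : F σ y m w ≤ F σ y m 0 := hw ⟨le_rfl, fun _ => C0⟩
    have h1 := F_zero_le σ hR y m
    have h2 := F_lower σ hR y m w'' j0
    have h3 : w'' j0 = 0 := by simp [hw'']
    have h4 : m i * w'' i ≤ ∑ i, m i * w'' i :=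
      Finset.single_le_sum (f := fun i => m i * w'' i)
        (fun k _ => mul_nonneg (hm k).le (w0 k)) (Finset.mem_univ i)
    have h5 : m i0 * C ≤ m i * w'' i :=
      mul_le_mul (hi0 i (Finset.mem_univ i)) hi.le C0 (hm i).le
    have h6 : m i0 * C = 2 * B := by
      rw [hC]
      field_simp [(hm i0).ne']
    linarith

theorem cell_le {R : ℝ} (hR : σ (Metric.closedBall 0 R)ᶜ = 0) (y : ι → E d) (m : ι → ℝ)
    {w : ι → ℝ} (hw : ∀ w', F σ y m w ≤ F σ y m w') (i : ι) {t : ℝ} (ht : 0 < t) :
    σ.real {x | ∀ j, j ≠ i → inner ℝ x (y j) - w j + t ≤ inner ℝ x (y i) - w i} ≤ m i := by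
  classical
  set S : Set (E d) := {x | ∀ j, j ≠ i → inner ℝ x (y j) - w j + t ≤ inner ℝ x (y i) - w i} with hS
  have mS : MeasurableSet S := by
    have : S = ⋂ j, ⋂ (_ : j ≠ i),
        {x : E d | inner ℝ x (y j) - w j + t ≤ inner ℝ x (y i) - w i} := by
      ext x; simp [hS]
    rw [this]
    refine MeasurableSet.iInter fun j => MeasurableSet.iInter fun _ => ?_
    apply measurableSet_le
    · exact (((continuous_id.inner continuous_const).sub continuous_const).add
        continuous_const).measurable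
    · exact ((continuous_id.inner continuous_const).sub continuous_const).measurable
  set w' : ι → ℝ := Function.update w i (w i + t) with hw'
  have hpt : ∀ x, M y w' x ≤ M y w x - S.indicator (fun _ => t) x := by
    intro x
    by_cases hx : x ∈ S
    · rw [indicator_of_mem hx]
      refine M_le fun j => ?_
      have h1 := le_M y w x i
      by_cases hj : j = i
      · subst hj
        simp only [hw', Function.update_self]
        linarith
      · have := hx j hj
        simp only [hw', Function.update_of_ne hj]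
        linarith
    · rw [indicator_of_notMem hx, sub_zero]
      refine M_le fun j => ?_
      have h1 := le_M y w x j
      by_cases hj : j = i
      · subst hj
        simp only [hw', Function.update_self]
        linarith
      · simp only [hw', Function.update_of_ne hj]
        linarith
  have hint : (∫ x, M y w' x ∂σ) ≤ (∫ x, M y w x ∂σ) - t * σ.real S := by
    have hI : Integrable (S.indicator fun _ : E d => t) σ := (integrable_const t).indicator mS
    have h1 : (∫ x, M y w' x ∂σ) ≤ ∫ x, (M y w x - S.indicator (fun _ => t) x) ∂σ :=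
      integral_mono (integrable_M σ hR y w') ((integrable_M σ hR y w).sub hI) hpt
    rw [integral_sub (integrable_M σ hR y w) hI, integral_indicator mS] at h1
    simp only [setIntegral_const, smul_eq_mul] at h1
    linarith
  have hs : ∑ j, m j * w' j = (∑ j, m j * w j) + m i * t := by
    have : ∀ j, m j * w' j = m j * w j + (if j = i then m i * t else 0) := by
      intro j
      by_cases hj : j = i
      · subst hj
        simp only [hw', Function.update_self, if_true]
        ring
      · simp only [hw', Function.update_of_ne hj, if_neg hj, add_zero]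
    simp only [this, Finset.sum_add_distrib, Finset.sum_ite_eq', Finset.mem_univ, if_true]
  have hF := hw w'
  unfold F at hF
  rw [hs] at hF
  have : t * σ.real S ≤ t * m i := by linarith [mul_comm (m i) t]
  exact le_of_mul_le_mul_left this ht

end L4

/-- L4: semidiscrete optimal transport, existence of weights. -/
theorem exists_weights {d : ℕ} {ι : Type} [Fintype ι] [Nonempty ι] (σ : Measure (E d))
    [IsProbabilityMeasure σ] (hσ : σ ≪ volume) {R : ℝ} (hR : σ (Metric.closedBall 0 R)ᶜ = 0)
    (y : ι → E d) (hy : Function.Injective y) (m : ι → ℝ) (hm : ∀ i, 0 < m i)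
    (hsum : ∑ i, m i = 1) :
    ∃ w : ι → ℝ, ∀ i, σ {x | ∀ j, inner ℝ x (y j) - w j ≤ inner ℝ x (y i) - w i}
      = ENNReal.ofReal (m i) := by
  classical
  obtain ⟨w, hw⟩ := L4.exists_min σ hR y m hm hsum
  refine ⟨w, ?_⟩
  set A : ι → Set (E d) := fun i =>
    {x | ∀ j, inner ℝ x (y j) - w j ≤ inner ℝ x (y i) - w i} with hA
  -- upper bound for each closed cell
  have up : ∀ i, σ (A i) ≤ ENNReal.ofReal (m i) := by
    intro i
    set S : ℕ → Set (E d) := fun n =>
      {x | ∀ j, j ≠ i → inner ℝ x (y j) - w j + 1 / ((n : ℝ) + 1) ≤ inner ℝ x (y i) - w i} with hS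
    set N : Set (E d) := ⋃ j, ⋃ (_ : j ≠ i), {x | inner ℝ x (y i - y j) = w i - w j} with hN
    have hsub : A i ⊆ (⋃ n, S n) ∪ N := by
      intro x hx
      by_cases hxN : x ∈ N
      · exact Or.inr hxN
      left
      have hlt : ∀ j, j ≠ i → inner ℝ x (y j) - w j < inner ℝ x (y i) - w i := by
        intro j hj
        refine lt_of_le_of_ne (hx j) fun heq => hxN ?_
        simp only [hN, mem_iUnion]
        refine ⟨j, hj, ?_⟩
        simp only [mem_ofPred_eq, inner_sub_right]
        linarith
      -- choose n with all gaps at least 1/(n+1)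
      have : ∃ n : ℕ, ∀ j, j ≠ i →
          inner ℝ x (y j) - w j + 1 / ((n : ℝ) + 1) ≤ inner ℝ x (y i) - w i := by
        have hex : ∀ j, ∃ n : ℕ, j ≠ i → inner ℝ x (y j) - w j + 1 / ((n : ℝ) + 1)
            ≤ inner ℝ x (y i) - w i := by
          intro j
          by_cases hj : j = i
          · exact ⟨0, fun h => absurd hj h⟩
          · obtain ⟨n, hn⟩ := exists_nat_one_div_lt (sub_pos.2 (hlt j hj))
            exact ⟨n, fun _ => by linarith⟩
        choose n hn using hex
        refine ⟨Finset.univ.sup n, fun j hj => ?_⟩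
        have h1 := hn j hj
        have h2 : (n j : ℝ) ≤ ((Finset.univ.sup n : ℕ) : ℝ) := by
          exact_mod_cast Finset.le_sup (f := n) (Finset.mem_univ j)
        have h3 : 1 / (((Finset.univ.sup n : ℕ) : ℝ) + 1) ≤ 1 / ((n j : ℝ) + 1) := by
          apply one_div_le_one_div_of_le
          · positivity
          · linarith
        linarith
      obtain ⟨n, hn⟩ := this
      exact mem_iUnion.2 ⟨n, hn⟩
    have hN0 : σ N = 0 := by
      apply hσ
      rw [hN, measure_iUnion_null_iff]
      intro j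
      rw [measure_iUnion_null_iff]
      intro hj
      exact L4.hyperplane_null (sub_ne_zero.2 fun h => hj (hy h).symm) _
    have hmono : Monotone S := by
      intro a b hab x hx j hj
      have h1 := hx j hj
      have h2 : (1 : ℝ) / ((b : ℝ) + 1) ≤ 1 / ((a : ℝ) + 1) := by
        apply one_div_le_one_div_of_le
        · positivity
        · have : (a : ℝ) ≤ b := by exact_mod_cast hab
          linarith
      linarith
    have hUn : σ (⋃ n, S n) ≤ ENNReal.ofReal (m i) := by
      rw [hmono.measure_iUnion]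
      refine iSup_le fun n => ?_
      have := L4.cell_le σ hR y m hw i (t := 1 / ((n : ℝ) + 1)) (by positivity)
      rw [← ofReal_measureReal]
      exact ENNReal.ofReal_le_ofReal this
    calc σ (A i) ≤ σ ((⋃ n, S n) ∪ N) := measure_mono hsub
      _ ≤ σ (⋃ n, S n) + σ N := measure_union_le _ _
      _ ≤ ENNReal.ofReal (m i) := by rw [hN0, add_zero]; exact hUn
  -- the closed cells cover
  have cover : (⋃ i, A i) = univ := by
    rw [eq_univ_iff_forall]
    intro x
    obtain ⟨i, -, hi⟩ := Finset.exists_max_image Finset.univ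
      (fun i => inner ℝ x (y i) - w i) Finset.univ_nonempty
    exact mem_iUnion.2 ⟨i, fun j => hi j (Finset.mem_univ j)⟩
  have total : (1 : ℝ) ≤ ∑ i, σ.real (A i) := by
    have h1 : σ.real (⋃ i, A i) ≤ ∑ i, σ.real (A i) := measureReal_iUnion_fintype_le A
    rw [cover, probReal_univ] at h1
    exact h1
  have upr : ∀ i, σ.real (A i) ≤ m i := by
    intro i
    exact ENNReal.toReal_le_of_le_ofReal (hm i).le (up i)
  intro i
  have heq : σ.real (A i) = m i := by
    have h1 : ∑ i, (m i - σ.real (A i)) ≤ 0 := by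
      rw [Finset.sum_sub_distrib, hsum]
      linarith
    have h2 : ∀ j ∈ Finset.univ, 0 ≤ m j - σ.real (A j) := fun j _ => by linarith [upr j]
    have h3 := (Finset.sum_eq_zero_iff_of_nonneg h2).1 (le_antisymm h1 (Finset.sum_nonneg h2)) i
      (Finset.mem_univ i)
    linarith
  rw [← heq, ofReal_measureReal]

end Vale.Agent.P074
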