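import Mathlib
import Vale.Agent.Lib.P074.Defs
import Vale.Agent.Lib.P074.Cells

open MeasureTheory Set
open scoped ENNReal NNReal

namespace Vale.Agent.P074

variable {d : ℕ} {K : Set (E d)}

namespace L5

/-- Change of variables bound for a homothety of ratio at least `1/2`, with translation. -/
theorem lintegral_homothety_le (g : E d → ℝ≥0∞) (hg : Measurable g) (r : ℝ) (hr : 1 / 2 ≤ r)
    (c : E d) :
    ∫⁻ x, g (r • x + c) ∂volume ≤ 2 ^ d * ∫⁻ x, g x ∂volume := by
  have hr0 : (0 : ℝ) < r := by linarith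
  have hgc : Measurable (fun y : E d => g (y + c)) := hg.comp (measurable_id.add_const c)
  have h1 : ∫⁻ x, g (r • x + c) ∂volume =
      ∫⁻ y, g (y + c) ∂(Measure.map (fun x : E d => r • x) volume) := by
    rw [lintegral_map hgc (measurable_const_smul r)]
  rw [h1, Measure.map_addHaar_smul _ hr0.ne', lintegral_smul_measure,
    lintegral_add_right_eq_self (fun y => g y) c]
  have hfr : Module.finrank ℝ (E d) = d := by simp
  rw [hfr, smul_eq_mul]
  gcongr
  have h2 : |(r ^ d)⁻¹| ≤ 2 ^ d := by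
    rw [abs_of_pos (by positivity), ← inv_pow]
    apply pow_le_pow_left₀ (by positivity)
    rw [inv_le_comm₀ hr0 (by norm_num)]
    linarith
  calc ENNReal.ofReal |(r ^ d)⁻¹| ≤ ENNReal.ofReal (2 ^ d) := ENNReal.ofReal_le_ofReal h2
    _ = 2 ^ d := by
      rw [ENNReal.ofReal_pow (by norm_num)]
      norm_num

/-- One-variable version on `K`. -/
theorem lintegral_segment_le (hK : IsCompact K) (hKc : Convex ℝ K)
    (g : E d → ℝ≥0∞) (hg : Measurable g) (r : ℝ) (hr : 1 / 2 ≤ r) (hr1 : r ≤ 1) (z : E d)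
    (hz : z ∈ K) :
    ∫⁻ x, g (r • x + (1 - r) • z) ∂(unif K) ≤ 2 ^ d * ∫⁻ x, g x ∂(unif K) := by
  unfold unif
  rw [lintegral_smul_measure, lintegral_smul_measure, smul_eq_mul, smul_eq_mul, mul_left_comm]
  gcongr
  rw [← lintegral_indicator hK.measurableSet, ← lintegral_indicator hK.measurableSet]
  refine le_trans ?_ (lintegral_homothety_le (K.indicator g) (hg.indicator hK.measurableSet) r hr
    ((1 - r) • z))
  apply lintegral_mono
  intro x
  by_cases hx : x ∈ K
  · have hm : r • x + (1 - r) • z ∈ K := hKc hx hz (by linarith) (by linarith) (by ring)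
    simp only [indicator_of_mem hx, indicator_of_mem hm]
    exact le_refl _
  · simp only [indicator_of_notMem hx]
    exact zero_le

/-- The point at parameter `t` of the segment from `x` to `z`. -/
noncomputable def pt (t : ℝ) (p : E d × E d) : E d := (1 - t) • p.1 + t • p.2

theorem continuous_pt (t : ℝ) : Continuous (pt (d := d) t) := by
  unfold pt
  fun_prop

theorem measurable_pt (t : ℝ) : Measurable (pt (d := d) t) := (continuous_pt t).measurable

/-- Two-variable version on `K`. -/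
theorem lintegral_pt_le (hK : IsCompact K) (hKc : Convex ℝ K) (hKi : (interior K).Nonempty)
    (g : E d → ℝ≥0∞) (hg : Measurable g) (t : ℝ) (ht : 0 ≤ t) (ht1 : t ≤ 1) :
    ∫⁻ p, g (pt t p) ∂((unif K).prod (unif K)) ≤ 2 ^ d * ∫⁻ x, g x ∂(unif K) := by
  have := isProbabilityMeasure_unif hK hKi
  have hgm : Measurable (fun p : E d × E d => g (pt t p)) := hg.comp (measurable_pt t)
  rcases le_total t (1 / 2) with h | h
  · rw [lintegral_prod_symm' _ hgm]
    calc ∫⁻ z, ∫⁻ x, g (pt t (x, z)) ∂(unif K) ∂(unif K)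
        ≤ ∫⁻ z, (2 ^ d * ∫⁻ x, g x ∂(unif K)) ∂(unif K) := by
          apply lintegral_mono_ae
          filter_upwards [ae_mem_unif hK] with z hz
          have := lintegral_segment_le hK hKc g hg (1 - t) (by linarith) (by linarith) z hz
          simpa [pt] using this
      _ = 2 ^ d * ∫⁻ x, g x ∂(unif K) := by simp
  · rw [lintegral_prod _ hgm.aemeasurable]
    calc ∫⁻ x, ∫⁻ z, g (pt t (x, z)) ∂(unif K) ∂(unif K)
        ≤ ∫⁻ z, (2 ^ d * ∫⁻ x, g x ∂(unif K)) ∂(unif K) := by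
          apply lintegral_mono_ae
          filter_upwards [ae_mem_unif hK] with x hx
          have := lintegral_segment_le hK hKc g hg t (by linarith) (by linarith) x hx
          simpa [pt, add_comm] using this
      _ = 2 ^ d * ∫⁻ x, g x ∂(unif K) := by simp

/-- Almost every intermediate point is good. -/
theorem ae_pt (hK : IsCompact K) (hKc : Convex ℝ K) (hKi : (interior K).Nonempty)
    {P : E d → Prop} (hP : ∀ᵐ x ∂(unif K), P x) (t : ℝ) (ht : 0 ≤ t) (ht1 : t ≤ 1) :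
    ∀ᵐ p ∂((unif K).prod (unif K)), P (pt t p) := by
  have := isProbabilityMeasure_unif hK hKi
  have h0 : (unif K) {x | ¬ P x} = 0 := hP
  obtain ⟨N, hsub, hNm, hN0⟩ := exists_measurable_superset_of_null h0
  have h1 := lintegral_pt_le hK hKc hKi (N.indicator (fun _ => (1 : ℝ≥0∞)))
    (measurable_const.indicator hNm) t ht ht1
  rw [lintegral_indicator hNm] at h1
  simp only [lintegral_const, MeasurableSet.univ, Measure.restrict_apply, univ_inter, hN0,
    mul_zero, nonpos_iff_eq_zero] at h1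
  have hmeas : Measurable (fun p : E d × E d => N.indicator (fun _ => (1 : ℝ≥0∞)) (pt t p)) :=
    (measurable_const.indicator hNm).comp (measurable_pt t)
  rw [lintegral_eq_zero_iff hmeas] at h1
  filter_upwards [h1] with p hp
  by_contra hc
  have hmem : pt t p ∈ N := hsub hc
  simp [indicator_of_mem hmem] at hp

/-- Integral bound for compositions with `pt t`. -/
theorem integral_pt_le (hK : IsCompact K) (hKc : Convex ℝ K) (hKi : (interior K).Nonempty)
    {D : E d → ℝ} (hD : Measurable D) (hD0 : ∀ x, 0 ≤ D x) (hDi : Integrable D (unif K))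
    (t : ℝ) (ht : 0 ≤ t) (ht1 : t ≤ 1) :
    Integrable (fun p => D (pt t p)) ((unif K).prod (unif K)) ∧
      ∫ p, D (pt t p) ∂((unif K).prod (unif K)) ≤ 2 ^ d * ∫ x, D x ∂(unif K) := by
  have := isProbabilityMeasure_unif hK hKi
  have hm : Measurable (fun p : E d × E d => D (pt t p)) := hD.comp (measurable_pt t)
  have hle := lintegral_pt_le hK hKc hKi (fun x => ENNReal.ofReal (D x)) hD.ennreal_ofReal t ht ht1
  have hfin : ∫⁻ x, ENNReal.ofReal (D x) ∂(unif K) ≠ ⊤ :=
    (hasFiniteIntegral_iff_ofReal (Filter.Eventually.of_forall hD0)).1 hDi.2 |>.ne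
  have hfin2 : (2 : ℝ≥0∞) ^ d * ∫⁻ x, ENNReal.ofReal (D x) ∂(unif K) ≠ ⊤ :=
    ENNReal.mul_ne_top (by simp) hfin
  have hint : Integrable (fun p => D (pt t p)) ((unif K).prod (unif K)) := by
    refine ⟨hm.aestronglyMeasurable, ?_⟩
    rw [hasFiniteIntegral_iff_ofReal (Filter.Eventually.of_forall fun p => hD0 _)]
    exact lt_of_le_of_lt hle (lt_top_iff_ne_top.2 hfin2)
  refine ⟨hint, ?_⟩
  rw [integral_eq_lintegral_of_nonneg_ae (Filter.Eventually.of_forall fun p => hD0 _)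
      hm.aestronglyMeasurable,
    integral_eq_lintegral_of_nonneg_ae (Filter.Eventually.of_forall hD0)
      hD.aestronglyMeasurable]
  calc (∫⁻ p, ENNReal.ofReal (D (pt t p)) ∂((unif K).prod (unif K))).toReal
      ≤ (2 ^ d * ∫⁻ x, ENNReal.ofReal (D x) ∂(unif K)).toReal := ENNReal.toReal_mono hfin2 hle
    _ = 2 ^ d * (∫⁻ x, ENNReal.ofReal (D x) ∂(unif K)).toReal := by
      rw [ENNReal.toReal_mul]
      simp

end L5

open L5

/-- L5: chain argument (stability of potentials). -/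
theorem chain_stability {d : ℕ} {K : Set (E d)} (hK : IsCompact K) (hKc : Convex ℝ K)
    (hKi : (interior K).Nonempty) {L R : ℝ} (hL : 0 ≤ L) (hR : 0 ≤ R) (hKR : ∀ x ∈ K, ‖x‖ ≤ R)
    {v φ : E d → ℝ} (hv : Continuous v) (hφ : Continuous φ) {S : E d → E d} (hS : Measurable S)
    {D : E d → ℝ} (hD : Measurable D) (hD0 : ∀ x, 0 ≤ D x) (hDi : Integrable D (unif K))
    (hSL : ∀ᵐ x ∂(unif K), ‖S x‖ ≤ L)
    (h1 : ∀ᵐ x ∂(unif K), ∀ z ∈ K, v x + inner ℝ (S x) (z - x) ≤ v z)
    (h2 : ∀ᵐ x ∂(unif K), ∀ z ∈ K, φ x + inner ℝ (S x) (z - x) - D x ≤ φ z)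
    (n : ℕ) (hn : 0 < n) :
    ∫ x, ∫ z, |(φ z - v z) - (φ x - v x)| ∂(unif K) ∂(unif K) ≤
      2 * (4 * L * R / n + n * 2 ^ d * ∫ x, D x ∂(unif K)) := by
  have := isProbabilityMeasure_unif hK hKi
  have _ := hS
  set ρ := unif K with hρ
  have hn0 : (0 : ℝ) < n := by exact_mod_cast hn
  -- parameters
  let τ : ℕ → ℝ := fun k => k / n
  have hτ0 : ∀ k, 0 ≤ τ k := fun k => by positivity
  have hτ1 : ∀ k, k ≤ n → τ k ≤ 1 := fun k hk => by
    show (k : ℝ) / n ≤ 1
    rw [div_le_one hn0]; exact_mod_cast hk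
  -- good points
  have hgood : ∀ᵐ x ∂ρ, x ∈ K ∧ ‖S x‖ ≤ L ∧ (∀ z ∈ K, v x + inner ℝ (S x) (z - x) ≤ v z) ∧
      (∀ z ∈ K, φ x + inner ℝ (S x) (z - x) - D x ≤ φ z) := by
    filter_upwards [ae_mem_unif hK, hSL, h1, h2] with x a b c e
    exact ⟨a, b, c, e⟩
  have hall : ∀ᵐ p ∂(ρ.prod ρ), ∀ k ∈ Finset.range (n + 1),
      (pt (τ k) p ∈ K ∧ ‖S (pt (τ k) p)‖ ≤ L ∧
        (∀ z ∈ K, v (pt (τ k) p) + inner ℝ (S (pt (τ k) p)) (z - pt (τ k) p) ≤ v z) ∧
        (∀ z ∈ K, φ (pt (τ k) p) + inner ℝ (S (pt (τ k) p)) (z - pt (τ k) p)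
          - D (pt (τ k) p) ≤ φ z)) := by
    rw [Finset.eventually_all]
    intro k hk
    exact ae_pt hK hKc hKi hgood (τ k) (hτ0 k)
      (hτ1 k (Nat.lt_succ_iff.1 (Finset.mem_range.1 hk)))
  -- pointwise estimate
  have hpt : ∀ᵐ p ∂(ρ.prod ρ),
      -(4 * L * R / n) - ∑ k ∈ Finset.range n, D (pt (τ k) p) ≤
        (φ p.2 - v p.2) - (φ p.1 - v p.1) := by
    filter_upwards [hall] with p hp
    have hτ0' : pt (τ 0) p = p.1 := by simp [pt, τ]
    have hτn' : pt (τ n) p = p.2 := by simp [pt, τ, hn0.ne']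
    have hstep : ∀ k ∈ Finset.range n,
        -((inner ℝ (S (pt (τ (k + 1)) p)) (p.2 - p.1) - inner ℝ (S (pt (τ k) p)) (p.2 - p.1)) / n)
          - D (pt (τ k) p) ≤
        (φ (pt (τ (k + 1)) p) - v (pt (τ (k + 1)) p)) - (φ (pt (τ k) p) - v (pt (τ k) p)) := by
      intro k hk
      have hkn := Finset.mem_range.1 hk
      obtain ⟨a1, -, -, a4⟩ := hp k (Finset.mem_range.2 (by omega))
      obtain ⟨b1, -, b3, -⟩ := hp (k + 1) (Finset.mem_range.2 (by omega))
      have hdiff : pt (τ (k + 1)) p - pt (τ k) p = (1 / n : ℝ) • (p.2 - p.1) := by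
        have : τ (k + 1) = τ k + 1 / n := by
          show ((k + 1 : ℕ) : ℝ) / n = (k : ℝ) / n + 1 / n
          push_cast; ring
        rw [this]
        simp only [pt]
        module
      have hdiff' : pt (τ k) p - pt (τ (k + 1)) p = -((1 / n : ℝ) • (p.2 - p.1)) := by
        rw [← hdiff]; abel
      have e1 := a4 _ b1
      have e2 := b3 _ a1
      rw [hdiff, inner_smul_right] at e1
      rw [hdiff', inner_neg_right, inner_smul_right] at e2
      have e3 : (inner ℝ (S (pt (τ (k + 1)) p)) (p.2 - p.1)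
          - inner ℝ (S (pt (τ k) p)) (p.2 - p.1)) / n =
          1 / n * inner ℝ (S (pt (τ (k + 1)) p)) (p.2 - p.1)
          - 1 / n * inner ℝ (S (pt (τ k) p)) (p.2 - p.1) := by ring
      rw [e3]
      linarith
    have hsum := Finset.sum_le_sum hstep
    rw [Finset.sum_range_sub (fun k => φ (pt (τ k) p) - v (pt (τ k) p)),
      Finset.sum_sub_distrib, Finset.sum_neg_distrib, ← Finset.sum_div,
      Finset.sum_range_sub (fun k => inner ℝ (S (pt (τ k) p)) (p.2 - p.1)), hτ0', hτn'] at hsum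
    obtain ⟨c1, c2, -, -⟩ := hp 0 (Finset.mem_range.2 (by omega))
    obtain ⟨d1, d2, -, -⟩ := hp n (Finset.mem_range.2 (by omega))
    rw [hτ0'] at c1 c2
    rw [hτn'] at d1 d2
    have hz : ‖p.2 - p.1‖ ≤ 2 * R := by
      calc ‖p.2 - p.1‖ ≤ ‖p.2‖ + ‖p.1‖ := norm_sub_le _ _
        _ ≤ R + R := add_le_add (hKR _ d1) (hKR _ c1)
        _ = 2 * R := by ring
    have hi1 : |inner ℝ (S p.2) (p.2 - p.1)| ≤ L * (2 * R) :=
      (abs_real_inner_le_norm _ _).trans (mul_le_mul d2 hz (norm_nonneg _) hL)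
    have hi2 : |inner ℝ (S p.1) (p.2 - p.1)| ≤ L * (2 * R) :=
      (abs_real_inner_le_norm _ _).trans (mul_le_mul c2 hz (norm_nonneg _) hL)
    have hi3 : (inner ℝ (S p.2) (p.2 - p.1) - inner ℝ (S p.1) (p.2 - p.1)) / n ≤
        4 * L * R / n := by
      apply div_le_div_of_nonneg_right _ hn0.le
      have := abs_le.1 hi1
      have := abs_le.1 hi2
      linarith
    linarith
  -- integrability
  set F : E d → ℝ := fun x => φ x - v x with hF
  have hFc : Continuous F := hφ.sub hv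
  have hFi : Integrable F ρ := by
    rw [hρ]
    unfold unif
    have hI : IntegrableOn F K volume := hFc.continuousOn.integrableOn_compact hK
    exact hI.smul_measure (ENNReal.inv_ne_top.2 (volume_pos_of hKi).ne')
  have hF1 : Integrable (fun p : E d × E d => F p.1) (ρ.prod ρ) := hFi.comp_fst ρ
  have hF2 : Integrable (fun p : E d × E d => F p.2) (ρ.prod ρ) := hFi.comp_snd ρ
  have hA : Integrable (fun p : E d × E d => F p.2 - F p.1) (ρ.prod ρ) := hF2.sub hF1
  have hDk : ∀ k ∈ Finset.range n, Integrable (fun p => D (pt (τ k) p)) (ρ.prod ρ) ∧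
      ∫ p, D (pt (τ k) p) ∂(ρ.prod ρ) ≤ 2 ^ d * ∫ x, D x ∂ρ := fun k hk =>
    integral_pt_le hK hKc hKi hD hD0 hDi (τ k) (hτ0 k) (hτ1 k (Finset.mem_range.1 hk).le)
  have hsumint : Integrable (fun p => ∑ k ∈ Finset.range n, D (pt (τ k) p)) (ρ.prod ρ) :=
    integrable_finsetSum _ fun k hk => (hDk k hk).1
  have hprod : ∫ x, ∫ z, |(φ z - v z) - (φ x - v x)| ∂ρ ∂ρ =
      ∫ p, |F p.2 - F p.1| ∂(ρ.prod ρ) := by
    rw [integral_prod _ hA.abs]
  have hzero : ∫ p, (F p.2 - F p.1) ∂(ρ.prod ρ) = 0 := by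
    rw [integral_sub hF2 hF1]
    have e1 : ∫ p : E d × E d, F p.2 ∂(ρ.prod ρ) = ∫ x, F x ∂ρ := by
      rw [integral_prod _ hF2]; simp
    have e2 : ∫ p : E d × E d, F p.1 ∂(ρ.prod ρ) = ∫ x, F x ∂ρ := by
      rw [integral_prod _ hF1]; simp
    rw [e1, e2, sub_self]
  rw [hprod]
  have hci : Integrable (fun p : E d × E d =>
      4 * L * R / n + ∑ k ∈ Finset.range n, D (pt (τ k) p)) (ρ.prod ρ) :=
    (integrable_const _).add hsumint
  have hci2 : Integrable (fun p : E d × E d =>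
      2 * (4 * L * R / n + ∑ k ∈ Finset.range n, D (pt (τ k) p))) (ρ.prod ρ) :=
    hci.const_mul 2
  have hbound : ∀ᵐ p ∂(ρ.prod ρ), |F p.2 - F p.1| ≤
      (F p.2 - F p.1) + 2 * (4 * L * R / n + ∑ k ∈ Finset.range n, D (pt (τ k) p)) := by
    filter_upwards [hpt] with p hp
    have h0 : 0 ≤ 4 * L * R / n + ∑ k ∈ Finset.range n, D (pt (τ k) p) := by
      have : 0 ≤ ∑ k ∈ Finset.range n, D (pt (τ k) p) := Finset.sum_nonneg fun k _ => hD0 _
      positivity
    change _ ≤ F p.2 - F p.1 at hp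
    rcases abs_cases (F p.2 - F p.1) with ⟨h, h'⟩ | ⟨h, h'⟩
    · rw [h]; linarith
    · rw [h]; linarith
  calc ∫ p, |F p.2 - F p.1| ∂(ρ.prod ρ)
      ≤ ∫ p, ((F p.2 - F p.1) + 2 * (4 * L * R / n + ∑ k ∈ Finset.range n, D (pt (τ k) p)))
          ∂(ρ.prod ρ) :=
        integral_mono_ae hA.abs (hA.add hci2) hbound
    _ = 2 * (4 * L * R / n + ∑ k ∈ Finset.range n, ∫ p, D (pt (τ k) p) ∂(ρ.prod ρ)) := by
        rw [integral_add hA hci2, hzero, zero_add,
          integral_const_mul, integral_add (integrable_const _) hsumint, integral_const,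
          integral_finsetSum _ (fun k hk => (hDk k hk).1)]
        simp
    _ ≤ 2 * (4 * L * R / n + n * 2 ^ d * ∫ x, D x ∂ρ) := by
        have : ∑ k ∈ Finset.range n, ∫ p, D (pt (τ k) p) ∂(ρ.prod ρ) ≤
            ∑ _k ∈ Finset.range n, (2 ^ d * ∫ x, D x ∂ρ) :=
          Finset.sum_le_sum fun k hk => (hDk k hk).2
        rw [Finset.sum_const, Finset.card_range, nsmul_eq_mul] at this
        nlinarith [this]

end Vale.Agent.P074
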