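import Vale.Agent.Lib.P074.Defs

open MeasureTheory Set
open scoped ENNReal NNReal

namespace Vale.Agent.P074

namespace L6

/-- a finite-valued Borel approximation of the identity on a ball -/
theorem exists_simple {d : ℕ} (L : ℝ) {ε : ℝ} (hε : 0 < ε) :
    ∃ s : SimpleFunc (E d) (E d), ∀ x ∈ Metric.closedBall (0 : E d) L, ‖s x - x‖ ≤ ε := by
  obtain ⟨t, ht⟩ := (isCompact_closedBall (0 : E d) L).elim_finite_subcover
    (fun k : ℕ => Metric.ball (TopologicalSpace.denseSeq (E d) k) ε)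
    (fun _ => Metric.isOpen_ball) (by
      intro x _
      obtain ⟨k, hk⟩ := (TopologicalSpace.denseRange_denseSeq (E d)).exists_dist_lt x hε
      exact mem_iUnion.2 ⟨k, by simpa [Metric.mem_ball] using hk⟩)
  refine ⟨SimpleFunc.nearestPt (TopologicalSpace.denseSeq (E d)) (t.sup id), fun x hx => ?_⟩
  obtain ⟨k, hk⟩ := mem_iUnion.1 (ht hx)
  obtain ⟨hkt, hkx⟩ := mem_iUnion.1 hk
  have h1 := SimpleFunc.edist_nearestPt_le (TopologicalSpace.denseSeq (E d)) x
    (Finset.le_sup (f := id) hkt)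
  rw [edist_dist, edist_dist] at h1
  have h2 := (ENNReal.ofReal_le_ofReal_iff dist_nonneg).1 h1
  rw [← dist_eq_norm]
  refine h2.trans ?_
  rw [dist_comm]
  exact (Metric.mem_ball.1 hkx).le

/-- the values of positive mass of a simple function, numbered -/
theorem exists_index {α : Type*} [MeasurableSpace α] {β : Type*} (q : SimpleFunc α β)
    (γ : Measure α) [IsProbabilityMeasure γ] :
    ∃ (N : ℕ) (c : Fin (N + 1) → β), Function.Injective c ∧
      (∀ i, 0 < γ.real (q ⁻¹' {c i})) ∧ ∀ᵐ p ∂γ, ∃ i, q p = c i := by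
  classical
  set F := q.range.filter (fun c => 0 < γ.real (q ⁻¹' {c})) with hF
  have hae : ∀ᵐ p ∂γ, q p ∈ F := by
    have h1 : ∀ c ∈ q.range, ∀ᵐ p ∂γ, γ.real (q ⁻¹' {c}) = 0 → q p ≠ c := by
      intro c _
      by_cases hc : γ.real (q ⁻¹' {c}) = 0
      · have h2 : γ (q ⁻¹' {c}) = 0 := by
          rwa [measureReal_eq_zero_iff] at hc
        have h3 : ∀ᵐ p ∂γ, p ∉ q ⁻¹' {c} := measure_eq_zero_iff_ae_notMem.1 h2
        filter_upwards [h3] with p hp _ h
        exact hp h
      · exact ae_of_all _ fun p h => absurd h hc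
    have h2 : ∀ᵐ p ∂γ, ∀ c ∈ q.range, γ.real (q ⁻¹' {c}) = 0 → q p ≠ c :=
      (Filter.eventually_all_finset _).2 h1
    filter_upwards [h2] with p hp
    rw [hF, Finset.mem_filter]
    refine ⟨SimpleFunc.mem_range_self _ _, ?_⟩
    rcases (measureReal_nonneg (μ := γ) (s := q ⁻¹' {q p})).eq_or_lt with h | h
    · exact absurd rfl (hp _ (SimpleFunc.mem_range_self _ _) h.symm)
    · exact h
  have hne : F.Nonempty := by
    obtain ⟨p, hp⟩ := hae.exists
    exact ⟨_, hp⟩
  obtain ⟨N, hN⟩ := Nat.exists_eq_succ_of_ne_zero (Finset.card_pos.2 hne).ne'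
  let e : F ≃ Fin (N + 1) := F.equivFinOfCardEq hN
  refine ⟨N, fun i => (e.symm i : β), fun i j h => e.symm.injective (Subtype.ext h), fun i => ?_, ?_⟩
  · exact (Finset.mem_filter.1 (e.symm i).2).2
  · filter_upwards [hae] with p hp
    exact ⟨e ⟨_, hp⟩, by simp⟩

theorem integral_simple_fin {α : Type*} [MeasurableSpace α] {n : ℕ} (J : SimpleFunc α (Fin n))
    (γ : Measure α) [IsProbabilityMeasure γ] (G : Fin n → ℝ) :
    ∫ p, G (J p) ∂γ = ∑ i, γ.real (J ⁻¹' {i}) * G i := by
  have h1 : ∀ p, G (J p) = ∑ i, (J ⁻¹' {i}).indicator (fun _ => G i) p := by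
    intro p
    rw [Finset.sum_eq_single (J p)]
    · rw [indicator_of_mem]; rfl
    · intro i _ hi
      rw [indicator_of_notMem]
      intro h
      exact hi (mem_singleton_iff.1 h).symm
    · intro h; exact absurd (Finset.mem_univ _) h
  simp_rw [h1]
  rw [integral_finset_sum]
  · refine Finset.sum_congr rfl fun i _ => ?_
    rw [integral_indicator_const _ (J.measurableSet_fiber i), smul_eq_mul]
  · intro i _
    exact (integrable_const _).indicator (J.measurableSet_fiber i)

theorem integrable_simple {α β : Type*} [MeasurableSpace α] (J : SimpleFunc α β)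
    (γ : Measure α) [IsProbabilityMeasure γ] (G : β → ℝ) : Integrable (fun p => G (J p)) γ := by
  have := (J.map G).integrable_of_isFiniteMeasure (μ := γ)
  exact this

end L6

/-- L6: discretization of a coupling, file Vale/Agent/Lib/P074/L6.lean -/
theorem exists_discretization {d : ℕ} (hd : 1 ≤ d) {L R δ : ℝ} (hL : 0 ≤ L) (hR : 0 < R)
    (hδ : 0 < δ) (hδ1 : δ ≤ 1) {μ ν : Measure (E d)} (γ : Measure (E d × E d))
    [IsProbabilityMeasure γ] (hγ : IsCoupling γ μ ν)
    (hμ : μ (Metric.closedBall 0 L)ᶜ = 0) (hν : ν (Metric.closedBall 0 L)ᶜ = 0) :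
    ∃ (N : ℕ) (y z : Fin (N + 1) → E d) (m : Fin (N + 1) → ℝ),
      Function.Injective y ∧ Function.Injective z ∧ (∀ i, 0 < m i) ∧ (∑ i, m i = 1) ∧
      (∀ i, ‖y i‖ ≤ L + 1) ∧ (∀ i, ‖z i‖ ≤ L + 1) ∧
      (∑ i, m i * ‖z i - y i‖ ^ 2 ≤ 2 * (∫ p, ‖p.1 - p.2‖ ^ 2 ∂γ) + 8 * δ ^ 2) ∧
      (∀ f : E d → ℝ, (∀ a b, |f a - f b| ≤ R * ‖a - b‖) →
        |(∑ i, m i * f (y i)) - ∫ a, f a ∂μ| ≤ R * δ) ∧
      (∀ f : E d → ℝ, (∀ a b, |f a - f b| ≤ R * ‖a - b‖) →
        |(∑ i, m i * f (z i)) - ∫ a, f a ∂ν| ≤ R * δ) ∧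
      (∀ (ρ : Measure (E d)) [IsProbabilityMeasure ρ] (T : E d → E d), Measurable T →
        ρ.map T = μ → (∀ᵐ x ∂ρ, ‖x‖ ≤ R) → ∀ (w : Fin (N + 1) → ℝ) (Φ : E d → ℝ),
        Integrable Φ ρ → (∀ᵐ x ∂ρ, ∀ i, inner ℝ x (y i) - w i ≤ Φ x) →
        (∫ x, inner ℝ x (T x) ∂ρ) - 2 * R * δ ≤ (∫ x, Φ x ∂ρ) + ∑ i, m i * w i) := by
  obtain ⟨hγ1, hγ2⟩ := hγ
  obtain ⟨s, hs⟩ := L6.exists_simple (d := d) L (half_pos hδ)
  let q : SimpleFunc (E d × E d) (E d × E d) :=
    (s.comp Prod.fst measurable_fst).pair (s.comp Prod.snd measurable_snd)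
  have hq : ∀ p, q p = (s p.1, s p.2) := fun p => rfl
  obtain ⟨N, c, hc, hcpos, hcae⟩ := L6.exists_index q γ
  -- a.e. facts
  have hball1 : ∀ᵐ p ∂γ, p.1 ∈ Metric.closedBall (0 : E d) L := by
    have h1 : ∀ᵐ a ∂μ, a ∈ Metric.closedBall (0 : E d) L := by
      rw [ae_iff]; exact hμ
    rw [← hγ1] at h1
    exact ae_of_ae_map measurable_fst.aemeasurable h1
  have hball2 : ∀ᵐ p ∂γ, p.2 ∈ Metric.closedBall (0 : E d) L := by
    have h1 : ∀ᵐ a ∂ν, a ∈ Metric.closedBall (0 : E d) L := by
      rw [ae_iff]; exact hν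
    rw [← hγ2] at h1
    exact ae_of_ae_map measurable_snd.aemeasurable h1
  -- the unit vector
  let e0 : E d := EuclideanSpace.single ⟨0, hd⟩ (1 : ℝ)
  have he0 : ‖e0‖ = 1 := by simp [e0]
  have he0' : e0 ≠ 0 := by
    intro h; rw [h, norm_zero] at he0; exact zero_ne_one he0
  -- the perturbation
  have hinj : ∀ u : Fin (N + 1) → E d, ∀ i j, i ≠ j →
      ∀ᶠ t : ℝ in nhdsWithin 0 (Ioi 0), u i + (t * (i : ℕ)) • e0 ≠ u j + (t * (j : ℕ)) • e0 := by
    intro u i j hij
    by_cases huv : u i = u j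
    · filter_upwards [self_mem_nhdsWithin] with t ht h
      rw [huv, add_right_inj] at h
      have h2 : (t * (i : ℕ) - t * (j : ℕ)) • e0 = 0 := by rw [sub_smul, h, sub_self]
      rw [smul_eq_zero] at h2
      rcases h2 with h2 | h2
      · have h3 : t * ((i : ℕ) : ℝ) = t * ((j : ℕ) : ℝ) := by linarith
        have h4 := mul_left_cancel₀ (ne_of_gt ht) h3
        exact hij (Fin.ext (by exact_mod_cast h4))
      · exact he0' h2
    · have hcont : Continuous fun t : ℝ =>
          (u i + (t * (i : ℕ)) • e0) - (u j + (t * (j : ℕ)) • e0) := by fun_prop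
      have h0 : (u i + ((0 : ℝ) * (i : ℕ)) • e0) - (u j + ((0 : ℝ) * (j : ℕ)) • e0) ≠ 0 := by
        simpa [sub_eq_zero] using huv
      have h1 : ∀ᶠ t : ℝ in nhds 0,
          (u i + (t * (i : ℕ)) • e0) - (u j + (t * (j : ℕ)) • e0) ≠ 0 :=
        hcont.continuousAt.eventually_ne h0
      filter_upwards [nhdsWithin_le_nhds h1] with t ht h
      exact ht (sub_eq_zero.2 h)
  have hinj' : ∀ u : Fin (N + 1) → E d, ∀ᶠ t : ℝ in nhdsWithin 0 (Ioi 0),
      Function.Injective fun i : Fin (N + 1) => u i + (t * (i : ℕ)) • e0 := by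
    intro u
    have h1 : ∀ᶠ t : ℝ in nhdsWithin 0 (Ioi 0), ∀ i j : Fin (N + 1), i ≠ j →
        u i + (t * (i : ℕ)) • e0 ≠ u j + (t * (j : ℕ)) • e0 := by
      rw [Filter.eventually_all]
      intro i
      rw [Filter.eventually_all]
      intro j
      by_cases hij : i = j
      · exact Filter.Eventually.of_forall fun t h => absurd hij h
      · filter_upwards [hinj u i j hij] with t ht _ using ht
    filter_upwards [h1] with t ht i j h
    by_contra hij
    exact ht i j hij h
  have hsmall : ∀ᶠ t : ℝ in nhdsWithin 0 (Ioi 0), 0 < t ∧ t * (N + 1) ≤ δ / 2 := by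
    have h1 : ∀ᶠ t : ℝ in nhds 0, t * (N + 1) < δ / 2 := by
      have hcont : Continuous fun t : ℝ => t * ((N : ℝ) + 1) := by fun_prop
      have := hcont.tendsto 0
      simp only [zero_mul] at this
      exact this.eventually_lt_const (half_pos hδ)
    filter_upwards [self_mem_nhdsWithin, nhdsWithin_le_nhds h1] with t ht h
    exact ⟨ht, h.le⟩
  obtain ⟨t, ht1, ht2, ht0, ht3⟩ :=
    ((hinj' fun i => (c i).1).and ((hinj' fun i => (c i).2).and hsmall)).exists
  have hpert : ∀ i : Fin (N + 1), ‖(t * (i : ℕ)) • e0‖ ≤ δ / 2 := by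
    intro i
    rw [norm_smul, he0, mul_one, Real.norm_eq_abs, abs_of_nonneg (by positivity)]
    refine le_trans ?_ ht3
    have : ((i : ℕ) : ℝ) ≤ N + 1 := by
      have := i.2
      exact_mod_cast this.le
    gcongr
  set y : Fin (N + 1) → E d := fun i => (c i).1 + (t * (i : ℕ)) • e0 with hy
  set z : Fin (N + 1) → E d := fun i => (c i).2 + (t * (i : ℕ)) • e0 with hz
  -- the index map
  classical
  let jj : E d × E d → Fin (N + 1) := fun v => if h : ∃ i, v = c i then h.choose else 0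
  have hjj : ∀ i, jj (c i) = i := by
    intro i
    have h : ∃ j, c i = c j := ⟨i, rfl⟩
    have h2 : jj (c i) = h.choose := by
      simp only [jj]
      rw [dif_pos h]
    rw [h2]
    exact (hc h.choose_spec).symm
  let J : SimpleFunc (E d × E d) (Fin (N + 1)) := q.map jj
  have hJ : ∀ p, J p = jj (q p) := fun p => rfl
  have hJae : ∀ᵐ p ∂γ, q p = c (J p) := by
    filter_upwards [hcae] with p ⟨i, hi⟩
    rw [hJ, hi, hjj]
  have hJy : ∀ᵐ p ∂γ, ‖y (J p) - p.1‖ ≤ δ := by
    filter_upwards [hJae, hball1] with p hp hb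
    have h1 : (c (J p)).1 = s p.1 := by rw [← hp]; rfl
    have h2 : y (J p) - p.1 = (s p.1 - p.1) + (t * ((J p : Fin (N + 1)) : ℕ)) • e0 := by
      simp only [hy]; rw [h1]; abel
    rw [h2]
    refine (norm_add_le _ _).trans ?_
    linarith [hs _ hb, hpert (J p)]
  have hJz : ∀ᵐ p ∂γ, ‖z (J p) - p.2‖ ≤ δ := by
    filter_upwards [hJae, hball2] with p hp hb
    have h1 : (c (J p)).2 = s p.2 := by rw [← hp]; rfl
    have h2 : z (J p) - p.2 = (s p.2 - p.2) + (t * ((J p : Fin (N + 1)) : ℕ)) • e0 := by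
      simp only [hz]; rw [h1]; abel
    rw [h2]
    refine (norm_add_le _ _).trans ?_
    linarith [hs _ hb, hpert (J p)]
  have hmpos : ∀ i, 0 < γ.real (J ⁻¹' {i}) := by
    intro i
    refine (hcpos i).trans_le (measureReal_mono ?_)
    intro p hp
    have hp' : q p = c i := hp
    change J p = i
    rw [hJ, hp', hjj]
  have hint := fun G : Fin (N + 1) → ℝ => L6.integral_simple_fin J γ G
  -- pick points
  have hpick : ∀ i, ∃ p : E d × E d, J p = i ∧ ‖y (J p) - p.1‖ ≤ δ ∧ ‖z (J p) - p.2‖ ≤ δ ∧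
      p.1 ∈ Metric.closedBall (0 : E d) L ∧ p.2 ∈ Metric.closedBall (0 : E d) L := by
    intro i
    have h1 : ∃ᵐ p ∂γ, p ∈ J ⁻¹' {i} := by
      rw [frequently_ae_mem_iff]
      intro h
      have := hmpos i
      rw [measureReal_def, h] at this
      simp at this
    obtain ⟨p, hp, h2, h3, h4, h5⟩ :=
      (h1.and_eventually (hJy.and (hJz.and (hball1.and hball2)))).exists
    exact ⟨p, hp, h2, h3, h4, h5⟩
  refine ⟨N, y, z, fun i => γ.real (J ⁻¹' {i}), ht1, ht2, hmpos, ?_, ?_, ?_, ?_, ?_, ?_, ?_⟩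
  · have := hint fun _ => 1
    simpa using this.symm
  · intro i
    obtain ⟨p, hp, h2, -, h4, -⟩ := hpick i
    rw [hp] at h2
    have h6 : ‖p.1‖ ≤ L := by simpa using h4
    have h7 : y i = (y i - p.1) + p.1 := by abel
    rw [h7]
    refine (norm_add_le _ _).trans ?_
    linarith
  · intro i
    obtain ⟨p, hp, -, h3, -, h5⟩ := hpick i
    rw [hp] at h3
    have h6 : ‖p.2‖ ≤ L := by simpa using h5
    have h7 : z i = (z i - p.2) + p.2 := by abel
    rw [h7]
    refine (norm_add_le _ _).trans ?_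
    linarith
  · rw [← hint fun i => ‖z i - y i‖ ^ 2]
    have hI : Integrable (fun p : E d × E d => ‖p.1 - p.2‖ ^ 2) γ := by
      refine Integrable.of_bound (by fun_prop) ((2 * L) ^ 2) ?_
      filter_upwards [hball1, hball2] with p h1 h2
      have h1' : ‖p.1‖ ≤ L := by simpa using h1
      have h2' : ‖p.2‖ ≤ L := by simpa using h2
      rw [Real.norm_eq_abs, abs_of_nonneg (by positivity)]
      have h3 : ‖p.1 - p.2‖ ≤ 2 * L := (norm_sub_le _ _).trans (by linarith)
      gcongr
    have h1 : ∫ p, ‖z (J p) - y (J p)‖ ^ 2 ∂γ ≤ ∫ p, (2 * ‖p.1 - p.2‖ ^ 2 + 8 * δ ^ 2) ∂γ := by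
      refine integral_mono_ae (L6.integrable_simple J γ fun i => ‖z i - y i‖ ^ 2)
        ((hI.const_mul 2).add (integrable_const _)) ?_
      filter_upwards [hJy, hJz] with p h1 h2
      have h3 : ‖z (J p) - y (J p)‖ ≤ ‖p.1 - p.2‖ + 2 * δ := by
        have h4 : z (J p) - y (J p) = (z (J p) - p.2) + ((p.2 - p.1) + (p.1 - y (J p))) := by abel
        rw [h4]
        refine (norm_add_le _ _).trans ?_
        have h5 := norm_add_le (p.2 - p.1) (p.1 - y (J p))
        rw [norm_sub_rev p.2 p.1, norm_sub_rev p.1 (y (J p))] at h5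
        linarith
      have h0 := norm_nonneg (z (J p) - y (J p))
      have h0' := norm_nonneg (p.1 - p.2)
      have h6 : ‖z (J p) - y (J p)‖ ^ 2 ≤ (‖p.1 - p.2‖ + 2 * δ) ^ 2 := by gcongr
      nlinarith [sq_nonneg (‖p.1 - p.2‖ - 2 * δ)]
    refine h1.trans (le_of_eq ?_)
    rw [integral_add (hI.const_mul 2) (integrable_const _), integral_const_mul]
    simp
  · intro f hf
    have hfc : Continuous f := by
      have : LipschitzWith (Real.toNNReal R) f := by
        refine LipschitzWith.of_dist_le_mul fun a b => ?_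
        rw [Real.dist_eq, dist_eq_norm, Real.coe_toNNReal _ hR.le]
        exact hf a b
      exact this.continuous
    have hfi : Integrable (fun p : E d × E d => f p.1) γ := by
      obtain ⟨M, hM⟩ := (isCompact_closedBall (0 : E d) L).exists_bound_of_continuousOn
        hfc.continuousOn
      refine Integrable.of_bound (by fun_prop) M ?_
      filter_upwards [hball1] with p h1 using hM _ h1
    have h1 : ∫ a, f a ∂μ = ∫ p, f p.1 ∂γ := by
      rw [← hγ1, integral_map measurable_fst.aemeasurable hfc.aestronglyMeasurable]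
    rw [← hint fun i => f (y i), h1, ← integral_sub (L6.integrable_simple J γ fun i => f (y i)) hfi]
    have h2 : ‖∫ p, (f (y (J p)) - f p.1) ∂γ‖ ≤ R * δ * γ.real univ := by
      refine norm_integral_le_of_norm_le_const ?_
      filter_upwards [hJy] with p hp
      rw [Real.norm_eq_abs]
      refine (hf _ _).trans ?_
      gcongr
    simpa using h2
  · intro f hf
    have hfc : Continuous f := by
      have : LipschitzWith (Real.toNNReal R) f := by
        refine LipschitzWith.of_dist_le_mul fun a b => ?_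
        rw [Real.dist_eq, dist_eq_norm, Real.coe_toNNReal _ hR.le]
        exact hf a b
      exact this.continuous
    have hfi : Integrable (fun p : E d × E d => f p.2) γ := by
      obtain ⟨M, hM⟩ := (isCompact_closedBall (0 : E d) L).exists_bound_of_continuousOn
        hfc.continuousOn
      refine Integrable.of_bound (by fun_prop) M ?_
      filter_upwards [hball2] with p h1 using hM _ h1
    have h1 : ∫ a, f a ∂ν = ∫ p, f p.2 ∂γ := by
      rw [← hγ2, integral_map measurable_snd.aemeasurable hfc.aestronglyMeasurable]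
    rw [← hint fun i => f (z i), h1, ← integral_sub (L6.integrable_simple J γ fun i => f (z i)) hfi]
    have h2 : ‖∫ p, (f (z (J p)) - f p.2) ∂γ‖ ≤ R * δ * γ.real univ := by
      refine norm_integral_le_of_norm_le_const ?_
      filter_upwards [hJz] with p hp
      rw [Real.norm_eq_abs]
      refine (hf _ _).trans ?_
      gcongr
    simpa using h2
  · intro ρ _ T hT hTμ hxR w Φ hΦ hΦw
    -- minimising index with given first coordinate
    have hmin : ∀ a : E d, ∃ i0 : Fin (N + 1), (∃ i, (c i).1 = a) →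
        ((c i0).1 = a ∧ ∀ i, (c i).1 = a → w i0 ≤ w i) := by
      intro a
      by_cases h : ∃ i, (c i).1 = a
      · obtain ⟨i1, h1⟩ := h
        have hne : (Finset.univ.filter fun i => (c i).1 = a).Nonempty :=
          ⟨i1, by simp [h1]⟩
        obtain ⟨i0, hi0, h0⟩ := Finset.exists_min_image _ w hne
        refine ⟨i0, fun _ => ⟨by simpa using hi0, fun i hi => h0 i (by simpa using hi)⟩⟩
      · exact ⟨0, fun h' => absurd h' h⟩
    choose i0 hi0 using hmin
    -- a.e. existence of the index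
    have hexγ : ∀ᵐ p ∂γ, ∃ i, (c i).1 = s p.1 := by
      filter_upwards [hJae] with p hp
      exact ⟨J p, by rw [← hp]; rfl⟩
    have hexμ : ∀ᵐ a ∂μ, ∃ i, (c i).1 = s a := by
      have hms : MeasurableSet {a : E d | ∃ i, (c i).1 = s a} :=
        s.measurableSet_preimage {v | ∃ i, (c i).1 = v}
      rw [← hγ1]
      exact (ae_map_iff measurable_fst.aemeasurable hms).2 hexγ
    have hexρ : ∀ᵐ x ∂ρ, ∃ i, (c i).1 = s (T x) := by
      rw [← hTμ] at hexμ
      exact ae_of_ae_map hT.aemeasurable hexμ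
    have hTball : ∀ᵐ x ∂ρ, T x ∈ Metric.closedBall (0 : E d) L := by
      have h1 : ∀ᵐ a ∂μ, a ∈ Metric.closedBall (0 : E d) L := by
        rw [ae_iff]; exact hμ
      rw [← hTμ] at h1
      exact ae_of_ae_map hT.aemeasurable h1
    let sT : SimpleFunc (E d) (E d) := s.comp T hT
    have hWi : Integrable (fun x => w (i0 (s (T x)))) ρ :=
      L6.integrable_simple sT ρ fun a => w (i0 a)
    have hTi : Integrable (fun x => (inner ℝ x (T x) : ℝ)) ρ := by
      refine Integrable.of_bound ?_ (R * L) ?_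
      · exact (Measurable.inner measurable_id hT).aestronglyMeasurable
      · filter_upwards [hxR, hTball] with x hx hTx
        have h1 : ‖T x‖ ≤ L := by simpa using hTx
        refine (norm_inner_le_norm _ _).trans ?_
        gcongr
    have hstep : (∫ x, inner ℝ x (T x) ∂ρ) - R * δ ≤ (∫ x, Φ x ∂ρ) + ∫ x, w (i0 (s (T x))) ∂ρ := by
      rw [← integral_add hΦ hWi]
      have h1 : (∫ x, inner ℝ x (T x) ∂ρ) - R * δ = ∫ x, (inner ℝ x (T x) - R * δ) ∂ρ := by
        rw [integral_sub hTi (integrable_const _)]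
        simp
      rw [h1]
      refine integral_mono_ae (hTi.sub (integrable_const _)) (hΦ.add hWi) ?_
      filter_upwards [hΦw, hexρ, hTball, hxR] with x h2 h3 h4 h5
      obtain ⟨h6, -⟩ := hi0 (s (T x)) h3
      have h7 := h2 (i0 (s (T x)))
      have h8 : ‖T x - y (i0 (s (T x)))‖ ≤ δ := by
        have h9 : T x - y (i0 (s (T x))) =
            -(s (T x) - T x) - (t * ((i0 (s (T x)) : Fin (N + 1)) : ℕ)) • e0 := by
          simp only [hy]; rw [h6]; abel
        rw [h9]
        refine (norm_sub_le _ _).trans ?_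
        rw [norm_neg]
        linarith [hs _ h4, hpert (i0 (s (T x)))]
      have h10 : (inner ℝ x (T x) : ℝ) - inner ℝ x (y (i0 (s (T x)))) ≤ R * δ := by
        rw [← inner_sub_right]
        refine (real_inner_le_norm _ _).trans ?_
        gcongr
      linarith
    have hW : ∫ x, w (i0 (s (T x))) ∂ρ ≤ ∑ i, γ.real (J ⁻¹' {i}) * w i := by
      have h1 : ∫ x, w (i0 (s (T x))) ∂ρ = ∫ a, w (i0 (s a)) ∂μ := by
        rw [← hTμ, integral_map hT.aemeasurable]
        exact ((s.map fun a => w (i0 a)).measurable).aestronglyMeasurable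
      have h2 : ∫ a, w (i0 (s a)) ∂μ = ∫ p, w (i0 (s p.1)) ∂γ := by
        rw [← hγ1, integral_map measurable_fst.aemeasurable]
        exact ((s.map fun a => w (i0 a)).measurable).aestronglyMeasurable
      rw [h1, h2, ← hint w]
      refine integral_mono_ae
        (L6.integrable_simple (s.comp Prod.fst measurable_fst) γ fun a => w (i0 a))
        (L6.integrable_simple J γ w) ?_
      filter_upwards [hJae] with p hp
      have h3 : (c (J p)).1 = s p.1 := by rw [← hp]; rfl
      exact (hi0 (s p.1) ⟨J p, h3⟩).2 _ h3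
    have : 0 ≤ R * δ := by positivity
    linarith

end Vale.Agent.P074
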