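import Vale.Agent.Lib.P074.Pot
import Vale.Agent.Lib.P074.L2
import Vale.Agent.Lib.P074.L3

open MeasureTheory Set
open scoped ENNReal NNReal

namespace Vale.Agent.P074

variable {d : ℕ} {K : Set (E d)}

/-- duality form of the Lipschitz estimate for potentials -/
theorem dual_estimate (hd : 1 ≤ d) (hK : IsCompact K) (hKc : Convex ℝ K)
    (hKi : (interior K).Nonempty) {R L : ℝ} (hR : 0 < R) (hKR : ∀ x ∈ K, ‖x‖ ≤ R) (hL : 0 ≤ L)
    {u v : E d → ℝ} (hu : ∀ x y, |u x - u y| ≤ L * ‖x - y‖)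
    (hv : ∀ x y, |v x - v y| ≤ L * ‖x - y‖) {T S : E d → E d} (hT : Measurable T)
    (hS : Measurable S) (hTL : ∀ᵐ x ∂(unif K), ‖T x‖ ≤ L) (hSL : ∀ᵐ x ∂(unif K), ‖S x‖ ≤ L)
    (hTu : ∀ᵐ x ∂(unif K), ∀ z, u x + inner ℝ (T x) (z - x) ≤ u z)
    (hSv : ∀ᵐ x ∂(unif K), ∀ z, v x + inner ℝ (S x) (z - x) ≤ v z)
    (γ : Measure (E d × E d)) [IsProbabilityMeasure γ]
    (hγ : IsCoupling γ ((unif K).map T) ((unif K).map S))
    {g : E d → ℝ} (hg : Measurable g) (hg1 : ∀ x, |g x| ≤ 1) (hg0 : ∫ x, g x ∂(unif K) = 0) :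
    ∫ x, g x * v x ∂(unif K) ≤ (∫ x, g x * u x ∂(unif K)) +
      √(528 * R ^ 2 * ∫ x, g x ^ 2 ∂(unif K)) * √(2 * (∫ p, ‖p.1 - p.2‖ ^ 2 ∂γ)) := by
  obtain ⟨A, hA⟩ : ∃ A : ℝ, A = √(528 * R ^ 2 * ∫ x, g x ^ 2 ∂(unif K)) := ⟨_, rfl⟩
  obtain ⟨c, hc⟩ : ∃ c : ℝ, c = ∫ p, ‖p.1 - p.2‖ ^ 2 ∂γ := ⟨_, rfl⟩
  obtain ⟨C1, hC1⟩ : ∃ C1 : ℝ, C1 = (2 * L + 1) * (2 * R) := ⟨_, rfl⟩
  obtain ⟨F, hF⟩ : ∃ F : ℝ → ℝ, F = fun τ => (∫ x, g x * u x ∂(unif K)) + 3 * R * τ ^ 2 +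
    A * √(2 * c + 8 * τ ^ 8) +
    2 * (4 * (L + 1) * R * τ + 2 ^ d * (2 * R * τ ^ 3 + C1 * τ)) := ⟨_, rfl⟩
  have hFc : Continuous F := by rw [hF]; fun_prop
  have hk : ∀ k : ℕ, 2 ≤ k → ∫ x, g x * v x ∂(unif K) ≤ F (1 / (k : ℝ)) := by
    intro k hk
    have hk' : (2 : ℝ) ≤ k := by exact_mod_cast hk
    have hk0 : (0 : ℝ) < k := by linarith
    have hs1 : 1 / (k : ℝ) ^ 2 ≤ 1 / 2 := by
      apply one_div_le_one_div_of_le (by norm_num)
      nlinarith
    have hδ1 : 1 / (k : ℝ) ^ 4 ≤ 1 := by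
      rw [div_le_one (by positivity)]
      exact one_le_pow₀ (by linarith)
    have h := step_estimate hd hK hKc hKi hR hKR hL hu hv hT hS hTL hSL hTu hSv γ hγ hg hg1 hg0
      (s := 1 / (k : ℝ) ^ 2) (δ := 1 / (k : ℝ) ^ 4) (by positivity) hs1 (by positivity) hδ1
      (n := k) (by omega)
    rw [← hA, ← hc, ← hC1] at h
    have h2 := mul_le_mul_of_nonneg_left h (by positivity : 0 ≤ (k : ℝ) ^ 2)
    have e1 : (k : ℝ) ^ 2 * (1 / (k : ℝ) ^ 2 * ∫ x, g x * v x ∂(unif K)) =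
        ∫ x, g x * v x ∂(unif K) := by field_simp
    have e2 : (8 : ℝ) * (1 / (k : ℝ) ^ 4) ^ 2 = 8 * (1 / (k : ℝ)) ^ 8 := by
      field_simp
    rw [e1, e2] at h2
    refine h2.trans (le_of_eq ?_)
    rw [hF]
    simp only
    field_simp
  have hlim : Filter.Tendsto (fun k : ℕ => F (1 / (k : ℝ))) Filter.atTop (nhds (F 0)) :=
    (hFc.tendsto 0).comp tendsto_one_div_atTop_nhds_zero_nat
  have hfin := ge_of_tendsto hlim (Filter.eventually_atTop.2 ⟨2, hk⟩)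
  have hF0 : F 0 = (∫ x, g x * u x ∂(unif K)) + A * √(2 * c) := by
    rw [hF]; simp
  rw [hF0, hA, hc] at hfin
  exact hfin

/-- Lipschitz estimate for the potentials -/
theorem potential_estimate (hd : 1 ≤ d) (hK : IsCompact K) (hKc : Convex ℝ K)
    (hKi : (interior K).Nonempty) {R L : ℝ} (hR : 0 < R) (hKR : ∀ x ∈ K, ‖x‖ ≤ R) (hL : 0 ≤ L)
    {u v : E d → ℝ} (hu : ∀ x y, |u x - u y| ≤ L * ‖x - y‖)
    (hv : ∀ x y, |v x - v y| ≤ L * ‖x - y‖) {T S : E d → E d} (hT : Measurable T)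
    (hS : Measurable S) (hTL : ∀ᵐ x ∂(unif K), ‖T x‖ ≤ L) (hSL : ∀ᵐ x ∂(unif K), ‖S x‖ ≤ L)
    (hTu : ∀ᵐ x ∂(unif K), ∀ z, u x + inner ℝ (T x) (z - x) ≤ u z)
    (hSv : ∀ᵐ x ∂(unif K), ∀ z, v x + inner ℝ (S x) (z - x) ≤ v z)
    (γ : Measure (E d × E d)) [IsProbabilityMeasure γ]
    (hγ : IsCoupling γ ((unif K).map T) ((unif K).map S)) {c : ℝ}
    (hc : c = ∫ x, (v x - u x) ∂(unif K)) :
    ∫ x, (u x - (v x - c)) ^ 2 ∂(unif K) ≤ 1056 * R ^ 2 * ∫ p, ‖p.1 - p.2‖ ^ 2 ∂γ := by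
  have hprob := isProbabilityMeasure_unif hK hKi
  have hcu := continuous_of_lip hu
  have hcv := continuous_of_lip hv
  have hKm := hK.measurableSet
  obtain ⟨G, hG⟩ : ∃ G : E d → ℝ, G = fun x => v x - u x - c := ⟨_, rfl⟩
  have hGc : Continuous G := by rw [hG]; fun_prop
  have hGi : Integrable G (unif K) := integrable_of_continuous hK hKi hGc
  have hG0 : ∫ x, G x ∂(unif K) = 0 := by
    have i1 : Integrable (fun x => v x - u x) (unif K) :=
      integrable_of_continuous hK hKi (hcv.sub hcu)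
    have e : ∫ x, G x ∂(unif K) = ∫ x, ((v x - u x) - c) ∂(unif K) := by rw [hG]
    rw [e, integral_sub i1 (integrable_const _), ← hc]
    simp
  obtain ⟨M0, hM0⟩ := hK.exists_bound_of_continuousOn hGc.continuousOn
  obtain ⟨M, hM⟩ : ∃ M : ℝ, M = max M0 1 := ⟨_, rfl⟩
  have hMpos : 0 < M := by rw [hM]; exact lt_max_of_lt_right one_pos
  have hMG : ∀ x ∈ K, |G x| ≤ M := fun x hx => by
    rw [hM]; exact (hM0 x hx).trans (le_max_left _ _)
  obtain ⟨g, hgdef⟩ : ∃ g : E d → ℝ, g = K.indicator (fun x => G x / M) := ⟨_, rfl⟩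
  have hgae : g =ᵐ[unif K] fun x => G x / M := by
    filter_upwards [ae_mem_unif hK] with x hx
    rw [hgdef, indicator_of_mem hx]
  have hgm : Measurable g := by
    rw [hgdef]; exact (hGc.div_const M).measurable.indicator hKm
  have hg1 : ∀ x, |g x| ≤ 1 := by
    intro x
    rw [hgdef]
    by_cases hx : x ∈ K
    · rw [indicator_of_mem hx, abs_div, abs_of_pos hMpos, div_le_one hMpos]
      exact hMG x hx
    · rw [indicator_of_notMem hx]; simp
  have hg0 : ∫ x, g x ∂(unif K) = 0 := by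
    rw [integral_congr_ae hgae, integral_div, hG0, zero_div]
  have key := dual_estimate hd hK hKc hKi hR hKR hL hu hv hT hS hTL hSL hTu hSv γ hγ hgm hg1 hg0
  obtain ⟨I, hI⟩ : ∃ I : ℝ, I = ∫ x, G x ^ 2 ∂(unif K) := ⟨_, rfl⟩
  have hI0 : 0 ≤ I := by rw [hI]; exact integral_nonneg fun x => sq_nonneg _
  have e1 : ∫ x, g x ^ 2 ∂(unif K) = I / M ^ 2 := by
    rw [hI, ← integral_div]
    refine integral_congr_ae ?_
    filter_upwards [hgae] with x hx
    rw [hx, div_pow]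
  have e2 : (∫ x, g x * v x ∂(unif K)) - ∫ x, g x * u x ∂(unif K) = I / M := by
    have i1 : ∀ f : E d → ℝ, Continuous f → Integrable (fun x => g x * f x) (unif K) := by
      intro f hf
      refine (integrable_of_continuous hK hKi hf).bdd_mul (c := 1) hgm.aestronglyMeasurable
        (ae_of_all _ fun x => ?_)
      rw [Real.norm_eq_abs]; exact hg1 x
    rw [← integral_sub (i1 v hcv) (i1 u hcu), hI, ← integral_div]
    have e3 : ∫ x, (g x * v x - g x * u x) ∂(unif K) =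
        ∫ x, (G x ^ 2 / M + c / M * G x) ∂(unif K) := by
      refine integral_congr_ae ?_
      filter_upwards [hgae] with x hx
      rw [hx, hG]
      ring
    have i2 : Integrable (fun x => G x ^ 2 / M) (unif K) :=
      integrable_of_continuous hK hKi (by fun_prop)
    rw [e3, integral_add i2 (hGi.const_mul _), integral_const_mul, hG0, mul_zero, add_zero]
  rw [e1] at key
  obtain ⟨C, hC⟩ : ∃ C : ℝ, C = ∫ p, ‖p.1 - p.2‖ ^ 2 ∂γ := ⟨_, rfl⟩
  have hC0 : 0 ≤ C := by rw [hC]; exact integral_nonneg fun x => by positivity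
  rw [← hC] at key ⊢
  have e4 : I / M ≤ √(528 * R ^ 2 * (I / M ^ 2)) * √(2 * C) := by linarith
  have e5 : √(528 * R ^ 2 * (I / M ^ 2)) * √(2 * C) = √(1056 * R ^ 2 * C * I) / M := by
    rw [← Real.sqrt_mul (by positivity),
      show 528 * R ^ 2 * (I / M ^ 2) * (2 * C) = (1056 * R ^ 2 * C * I) / M ^ 2 by ring,
      Real.sqrt_div (by positivity), Real.sqrt_sq hMpos.le]
  rw [e5, div_le_div_iff_of_pos_right hMpos] at e4
  have e6 : I ^ 2 ≤ 1056 * R ^ 2 * C * I := by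
    have := pow_le_pow_left₀ hI0 e4 2
    rwa [Real.sq_sqrt (by positivity)] at this
  have e7 : ∫ x, (u x - (v x - c)) ^ 2 ∂(unif K) = I := by
    rw [hI, hG]
    refine integral_congr_ae (ae_of_all _ fun x => ?_)
    ring
  rw [e7]
  rcases hI0.eq_or_lt with h | h
  · rw [← h]; positivity
  · have : I * I ≤ (1056 * R ^ 2 * C) * I := by nlinarith
    exact le_of_mul_le_mul_right this h

theorem norm_sq_lintegral {α : Type*} [MeasurableSpace α] {σ : Measure α} (f : α → ℝ)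
    (hf : Integrable (fun x => f x ^ 2) σ) :
    ∫⁻ x, ENNReal.ofReal (f x ^ 2) ∂σ = ENNReal.ofReal (∫ x, f x ^ 2 ∂σ) :=
  (ofReal_integral_eq_lintegral_ofReal hf (ae_of_all _ fun x => sq_nonneg _)).symm

/-- the exponent `1/3` is admissible -/
theorem admissible_third (hd : 1 ≤ d) : Admissible d (1 / 3) := by
  refine ⟨by norm_num, by norm_num, ?_⟩
  intro K hK hKc hKi Y hYn hY
  have hprob := isProbabilityMeasure_unif hK hKi
  obtain ⟨R0, hR0⟩ := hK.isBounded.exists_norm_le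
  obtain ⟨R, hRdef⟩ : ∃ R : ℝ, R = max R0 1 := ⟨_, rfl⟩
  have hR : 0 < R := by rw [hRdef]; exact lt_max_of_lt_right one_pos
  have hKR : ∀ x ∈ K, ‖x‖ ≤ R := fun x hx => by
    rw [hRdef]; exact (hR0 x hx).trans (le_max_left _ _)
  obtain ⟨L0, hL0⟩ := hY.isBounded.exists_norm_le
  obtain ⟨L, hLdef⟩ : ∃ L : ℝ, L = max L0 1 := ⟨_, rfl⟩
  have hL : 0 ≤ L := by rw [hLdef]; exact (lt_max_of_lt_right one_pos).le
  have hYL : ∀ x ∈ Y, ‖x‖ ≤ L := fun x hx => by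
    rw [hLdef]; exact (hL0 x hx).trans (le_max_left _ _)
  obtain ⟨CG, hCG0, hCG⟩ := gagliardo_nirenberg hK hKc hKi hL
  obtain ⟨C', hC'⟩ : ∃ C' : ℝ, C' = CG * (1056 * R ^ 2) := ⟨_, rfl⟩
  have hC'0 : 0 ≤ C' := by rw [hC']; positivity
  refine ⟨Real.toNNReal (C' ^ (1 / 6 : ℝ)), ?_⟩
  intro μ ν hμ hν T S hT hS
  have hμL : μ (Metric.closedBall 0 L)ᶜ = 0 := by
    refine measure_mono_null ?_ hμ.2
    intro x hx hxY
    exact hx (by simpa using hYL x hxY)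
  have hνL : ν (Metric.closedBall 0 L)ᶜ = 0 := by
    refine measure_mono_null ?_ hν.2
    intro x hx hxY
    exact hx (by simpa using hYL x hxY)
  have hnorm : ∀ (Q : E d → E d) (σ : Measure (E d)), Measurable Q → (unif K).map Q = σ →
      σ (Metric.closedBall 0 L)ᶜ = 0 → ∀ᵐ x ∂(unif K), ‖Q x‖ ≤ L := by
    intro Q σ hQ hσ hσL
    rw [← hσ, Measure.map_apply hQ measurableSet_closedBall.compl] at hσL
    rw [ae_iff]
    refine measure_mono_null ?_ hσL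
    intro x hx
    simpa using hx
  have hTL := hnorm T μ hT.1 hT.2.1 hμL
  have hSL := hnorm S ν hS.1 hS.2.1 hνL
  obtain ⟨u, hucvx, hulip, husub⟩ := exists_convex_potential hK hKc hKi hL hμL hT
  obtain ⟨v, hvcvx, hvlip, hvsub⟩ := exists_convex_potential hK hKc hKi hL hνL hS
  obtain ⟨c, hc⟩ : ∃ c : ℝ, c = ∫ x, (v x - u x) ∂(unif K) := ⟨_, rfl⟩
  obtain ⟨I, hI⟩ : ∃ I : ℝ, I = ∫ x, ‖T x - S x‖ ^ 2 ∂(unif K) := ⟨_, rfl⟩
  have hI0 : 0 ≤ I := by rw [hI]; exact integral_nonneg fun x => by positivity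
  have hTm := hT.1
  have hSm := hS.1
  have hIi : Integrable (fun x => ‖T x - S x‖ ^ 2) (unif K) := by
    refine Integrable.of_bound (by fun_prop) ((2 * L) ^ 2) ?_
    filter_upwards [hTL, hSL] with x h1 h2
    rw [Real.norm_eq_abs, abs_of_nonneg (by positivity)]
    refine pow_le_pow_left₀ (norm_nonneg _) ?_ 2
    exact (norm_sub_le _ _).trans (by linarith)
  -- estimate for each coupling
  have hcoup : ∀ γ : Measure (E d × E d), IsCoupling γ μ ν →
      ENNReal.ofReal (I ^ 3) ≤ ENNReal.ofReal C' * ∫⁻ z, edist z.1 z.2 ^ 2 ∂γ := by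
    intro γ hγ
    have hγprob : IsProbabilityMeasure γ := by
      refine ⟨?_⟩
      have h1 : (γ.map Prod.fst) univ = 1 := by rw [hγ.1]; exact hμ.1.measure_univ
      rwa [Measure.map_apply measurable_fst MeasurableSet.univ, preimage_univ] at h1
    have hγ' : IsCoupling γ ((unif K).map T) ((unif K).map S) := by
      rw [hT.2.1, hS.2.1]; exact hγ
    have h1 := potential_estimate hd hK hKc hKi hR hKR hL hulip hvlip hTm hSm hTL hSL
      husub hvsub γ hγ' hc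
    have hv' : ConvexOn ℝ univ (fun x => v x - c) := by
      have h := hvcvx.add_const (-c)
      have e : (v + fun _ => -c) = fun x => v x - c := by
        funext x; simp [sub_eq_add_neg]
      rw [← e]; exact h
    have h2 := hCG u (fun x => v x - c) T S hucvx hv' hulip
      (fun x y => by simpa using hvlip x y) hTm hSm husub
      (by filter_upwards [hvsub] with x hx z; linarith [hx z])
    rw [← hI] at h2
    have h3 : I ^ 3 ≤ C' * ∫ p, ‖p.1 - p.2‖ ^ 2 ∂γ := by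
      refine h2.trans ?_
      rw [hC']
      calc CG * ∫ x, (u x - (v x - c)) ^ 2 ∂(unif K) ≤
          CG * (1056 * R ^ 2 * ∫ p, ‖p.1 - p.2‖ ^ 2 ∂γ) := by gcongr
        _ = _ := by ring
    -- integrability under γ
    have ae1 : ∀ᵐ p ∂γ, ‖p.1‖ ≤ L := by
      have : ∀ᵐ a ∂(γ.map Prod.fst), ‖a‖ ≤ L := by
        rw [hγ.1, ae_iff]
        refine measure_mono_null ?_ hμL
        intro x hx; simpa using hx
      exact ae_of_ae_map measurable_fst.aemeasurable this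
    have ae2 : ∀ᵐ p ∂γ, ‖p.2‖ ≤ L := by
      have : ∀ᵐ a ∂(γ.map Prod.snd), ‖a‖ ≤ L := by
        rw [hγ.2, ae_iff]
        refine measure_mono_null ?_ hνL
        intro x hx; simpa using hx
      exact ae_of_ae_map measurable_snd.aemeasurable this
    have hpi : Integrable (fun p : E d × E d => ‖p.1 - p.2‖ ^ 2) γ := by
      refine Integrable.of_bound (by fun_prop) ((2 * L) ^ 2) ?_
      filter_upwards [ae1, ae2] with x h1 h2
      rw [Real.norm_eq_abs, abs_of_nonneg (by positivity)]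
      refine pow_le_pow_left₀ (norm_nonneg _) ?_ 2
      exact (norm_sub_le _ _).trans (by linarith)
    have h4 : ∫⁻ z, edist z.1 z.2 ^ 2 ∂γ = ENNReal.ofReal (∫ p, ‖p.1 - p.2‖ ^ 2 ∂γ) := by
      rw [← norm_sq_lintegral _ hpi]
      refine lintegral_congr fun p => ?_
      rw [edist_dist, dist_eq_norm, ENNReal.ofReal_pow (norm_nonneg _)]
    rw [h4, ← ENNReal.ofReal_mul hC'0]
    exact ENNReal.ofReal_le_ofReal h3
  -- conclude
  obtain ⟨W, hW⟩ : ∃ W : ℝ≥0∞, W = ⨅ (π : Measure (E d × E d)) (_ : IsCoupling π μ ν),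
    ∫⁻ z, edist z.1 z.2 ^ 2 ∂π := ⟨_, rfl⟩
  have hW2 : W2 μ ν = W ^ (1 / 2 : ℝ) := by rw [hW]; rfl
  have hmain : ENNReal.ofReal (I ^ 3) ≤ ENNReal.ofReal C' * W := by
    rw [hW]
    by_cases h0 : ENNReal.ofReal C' = 0
    · have hex : IsCoupling (μ.prod ν) μ ν := by
        have := hμ.1
        have := hν.1
        exact ⟨by simp, by simp⟩
      have := hcoup _ hex
      rw [h0, zero_mul] at this ⊢
      exact this
    · rw [mul_comm, ← ENNReal.div_le_iff_le_mul (Or.inl h0) (Or.inl ENNReal.ofReal_ne_top)]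
      refine le_iInf₂ fun γ hγ => ?_
      rw [ENNReal.div_le_iff_le_mul (Or.inl h0) (Or.inl ENNReal.ofReal_ne_top), mul_comm]
      exact hcoup γ hγ
  have hleft : eLpNorm (fun x => T x - S x) 2 (unif K) = ENNReal.ofReal (I ^ 3) ^ (1 / 6 : ℝ) := by
    rw [eLpNorm_eq_lintegral_rpow_enorm_toReal (by norm_num) (by norm_num)]
    have h1 : ∫⁻ x, ‖T x - S x‖ₑ ^ (2 : ℝ≥0∞).toReal ∂(unif K) = ENNReal.ofReal I := by
      rw [hI, ← norm_sq_lintegral _ hIi]
      refine lintegral_congr fun x => ?_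
      rw [ENNReal.ofReal_pow (norm_nonneg _), ofReal_norm]
      simp
    rw [h1, ENNReal.ofReal_pow hI0, ← ENNReal.rpow_natCast, ← ENNReal.rpow_mul]
    norm_num
  rw [hleft, hW2]
  calc ENNReal.ofReal (I ^ 3) ^ (1 / 6 : ℝ) ≤ (ENNReal.ofReal C' * W) ^ (1 / 6 : ℝ) :=
        ENNReal.rpow_le_rpow hmain (by norm_num)
    _ = ENNReal.ofReal C' ^ (1 / 6 : ℝ) * W ^ (1 / 6 : ℝ) :=
        ENNReal.mul_rpow_of_nonneg _ _ (by norm_num)
    _ = (Real.toNNReal (C' ^ (1 / 6 : ℝ)) : ℝ≥0∞) * (W ^ (1 / 2 : ℝ)) ^ (1 / 3 : ℝ) := by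
        rw [← ENNReal.rpow_mul]
        congr 1
        · rw [ENNReal.ofReal_rpow_of_nonneg hC'0 (by norm_num)]
          rfl
        · norm_num

end Vale.Agent.P074
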