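import Vale.Agent.Lib.P074.Bary
import Vale.Agent.Lib.P074.L4

open MeasureTheory Set
open scoped ENNReal NNReal

namespace Vale.Agent.P074

/-! ### an elementary summation lemma -/

theorem path_sum {Δ β : ℝ → ℝ} {G : Set ℝ} {κ B : ℝ} (hfin : (Icc (0 : ℝ) 1 \ G).Finite)
    (h0 : (0 : ℝ) ∈ G) (h1 : (1 : ℝ) ∈ G)
    (hΔ : ∀ t ∈ G, ∀ t' ∈ G, t < t' → Δ t' - Δ t ≤ (t' - t) * (κ + β t' - β t))
    (hβ : ∀ t ∈ G, |β t| ≤ B) (hmono : ∀ t ∈ G, ∀ t' ∈ G, t < t' → β t ≤ β t') :
    Δ 1 - Δ 0 ≤ κ := by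
  have hB : 0 ≤ B := (abs_nonneg _).trans (hβ 0 h0)
  have hn : ∀ n : ℕ, 0 < n → Δ 1 - Δ 0 ≤ κ + 4 * B / n := by
    intro n hn
    have hn' : (0 : ℝ) < n := by exact_mod_cast hn
    have hch : ∀ k : ℕ, 0 < k → k < n → ∃ τ, τ ∈ G ∧ (k : ℝ) / n < τ ∧ τ < ((k : ℝ) + 1) / n := by
      intro k hk hkn
      have hlt : (k : ℝ) / n < ((k : ℝ) + 1) / n := by gcongr; linarith
      have hinf : (Ioo ((k : ℝ) / n) (((k : ℝ) + 1) / n)).Infinite := Ioo_infinite hlt
      obtain ⟨τ, hτ, hτ2⟩ := (hinf.sdiff hfin).nonempty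
      have hk1 : ((k : ℝ) + 1) / n ≤ 1 := by
        rw [div_le_one hn']
        exact_mod_cast hkn
      have hk0 : 0 ≤ (k : ℝ) / n := by positivity
      have hτI : τ ∈ Icc (0 : ℝ) 1 := ⟨by linarith [hτ.1], by linarith [hτ.2]⟩
      refine ⟨τ, ?_, hτ.1, hτ.2⟩
      by_contra hc
      exact hτ2 ⟨hτI, hc⟩
    choose! τ0 hτ0 using hch
    set τ : ℕ → ℝ := fun k => if k = 0 then 0 else if k < n then τ0 k else 1 with hτ
    have hG : ∀ k, τ k ∈ G := by
      intro k
      simp only [hτ]
      split_ifs with e1 e2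
      · exact h0
      · exact (hτ0 k (Nat.pos_of_ne_zero e1) e2).1
      · exact h1
    have hlow : ∀ k, k < n → (k : ℝ) / n ≤ τ k := by
      intro k hk
      simp only [hτ]
      split_ifs with e1
      · simp [e1]
      · exact (hτ0 k (Nat.pos_of_ne_zero e1) hk).2.1.le
    have hup : ∀ k, k ≤ n → τ k ≤ ((k : ℝ) + 1) / n := by
      intro k hk
      simp only [hτ]
      split_ifs with e1 e2
      · positivity
      · exact (hτ0 k (Nat.pos_of_ne_zero e1) e2).2.2.le
      · have : k = n := by omega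
        rw [this, le_div_iff₀ hn']; linarith
    have hlt : ∀ k, k < n → τ k < τ (k + 1) := by
      intro k hk
      have a1 : τ k < ((k : ℝ) + 1) / n := by
        simp only [hτ]
        split_ifs with e1
        · positivity
        · exact (hτ0 k (Nat.pos_of_ne_zero e1) hk).2.2
      by_cases hk1 : k + 1 < n
      · have := hlow (k + 1) hk1
        push_cast at this
        linarith
      · have e : τ (k + 1) = 1 := by
          simp only [hτ]
          rw [if_neg (by omega), if_neg hk1]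
        rw [e]
        have : ((k : ℝ) + 1) / n ≤ 1 := by
          rw [div_le_one hn']
          exact_mod_cast hk
        linarith
    have hstep : ∀ k, k < n → τ (k + 1) - τ k ≤ 2 / n := by
      intro k hk
      have a1 := hup (k + 1) hk
      have a2 := hlow k hk
      push_cast at a1
      have : ((k : ℝ) + 1 + 1) / n - k / n = 2 / n := by ring
      linarith
    have hsum : Δ 1 - Δ 0 = ∑ k ∈ Finset.range n, (Δ (τ (k + 1)) - Δ (τ k)) := by
      rw [Finset.sum_range_sub (fun k => Δ (τ k))]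
      simp only [hτ, if_true, lt_irrefl, if_false]
      rw [if_neg (by omega)]
    have hsumτ : ∑ k ∈ Finset.range n, (τ (k + 1) - τ k) = 1 := by
      rw [Finset.sum_range_sub τ]
      simp only [hτ, if_true, lt_irrefl, if_false]
      rw [if_neg (by omega)]
      simp
    have hsumβ : ∑ k ∈ Finset.range n, (β (τ (k + 1)) - β (τ k)) = β 1 - β 0 := by
      rw [Finset.sum_range_sub (fun k => β (τ k))]
      simp only [hτ, if_true, lt_irrefl, if_false]
      rw [if_neg (by omega)]
    calc Δ 1 - Δ 0 = ∑ k ∈ Finset.range n, (Δ (τ (k + 1)) - Δ (τ k)) := hsum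
      _ ≤ ∑ k ∈ Finset.range n, (κ * (τ (k + 1) - τ k) +
          2 / n * (β (τ (k + 1)) - β (τ k))) := by
          refine Finset.sum_le_sum fun k hk => ?_
          have hk := Finset.mem_range.1 hk
          have a1 := hΔ _ (hG k) _ (hG (k + 1)) (hlt k hk)
          have a2 := hmono _ (hG k) _ (hG (k + 1)) (hlt k hk)
          have a3 := hstep k hk
          have a4 := mul_le_mul_of_nonneg_right a3 (sub_nonneg.2 a2)
          linarith
      _ = κ + 2 / n * (β 1 - β 0) := by
          rw [Finset.sum_add_distrib, ← Finset.mul_sum, ← Finset.mul_sum, hsumτ, hsumβ, mul_one]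
      _ ≤ κ + 4 * B / n := by
          have b1 := abs_le.1 (hβ 0 h0)
          have b2 := abs_le.1 (hβ 1 h1)
          have : 2 / (n : ℝ) * (β 1 - β 0) ≤ 2 / n * (2 * B) := by
            gcongr; linarith
          calc κ + 2 / n * (β 1 - β 0) ≤ κ + 2 / n * (2 * B) := by linarith
            _ = _ := by ring
  have hlim : Filter.Tendsto (fun n : ℕ => κ + 4 * B / n) Filter.atTop (nhds (κ + 0)) :=
    tendsto_const_nhds.add (tendsto_const_div_atTop_nhds_zero_nat _)
  rw [add_zero] at hlim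
  exact ge_of_tendsto hlim (Filter.eventually_atTop.2 ⟨1, fun n hn1 => hn n hn1⟩)

variable {d : ℕ} {K : Set (E d)}

section

variable {ι : Type} [Fintype ι]

theorem path_bad_finite {y z : ι → E d} (hy : Function.Injective y) :
    (Icc (0 : ℝ) 1 \ {t | Function.Injective fun i => y i + t • (z i - y i)}).Finite := by
  have hsub : (Icc (0 : ℝ) 1 \ {t | Function.Injective fun i => y i + t • (z i - y i)}) ⊆
      ⋃ p : ι × ι, {t | p.1 ≠ p.2 ∧ y p.1 + t • (z p.1 - y p.1) = y p.2 + t • (z p.2 - y p.2)} := by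
    rintro t ⟨_, ht⟩
    have ht' : ¬ Function.Injective fun i => y i + t • (z i - y i) := ht
    unfold Function.Injective at ht'
    push Not at ht'
    obtain ⟨i, j, h1, h2⟩ := ht'
    exact mem_iUnion.2 ⟨(i, j), h2, h1⟩
  refine (Set.finite_iUnion fun p => ?_).subset hsub
  refine Set.Subsingleton.finite ?_
  rintro t ⟨h1, ht⟩ t' ⟨_, ht'⟩
  have e1 : (t - t') • ((z p.1 - y p.1) - (z p.2 - y p.2)) = 0 := by
    have a : t • ((z p.1 - y p.1) - (z p.2 - y p.2)) = y p.2 - y p.1 := by
      rw [smul_sub]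
      have := ht
      rw [← sub_eq_zero] at this ⊢
      rw [← this]; abel
    have b : t' • ((z p.1 - y p.1) - (z p.2 - y p.2)) = y p.2 - y p.1 := by
      rw [smul_sub]
      have := ht'
      rw [← sub_eq_zero] at this ⊢
      rw [← this]; abel
    rw [sub_smul, a, b, sub_self]
  rcases smul_eq_zero.1 e1 with h | h
  · linarith
  · exfalso
    apply h1
    apply hy
    have e2 : t • (z p.1 - y p.1) = t • (z p.2 - y p.2) := by
      rw [← sub_eq_zero, ← smul_sub, h, smul_zero]
    rw [e2] at ht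
    exact add_right_cancel ht

end

section values

variable {ι : Type} [Fintype ι] [Nonempty ι]

/-- the max-affine function -/
noncomputable def Phi (y : ι → E d) (w : ι → ℝ) (x : E d) : ℝ :=
  Finset.univ.sup' Finset.univ_nonempty fun j => inner ℝ x (y j) - w j

theorem le_Phi (y : ι → E d) (w : ι → ℝ) (x : E d) (i : ι) :
    inner ℝ x (y i) - w i ≤ Phi y w x :=
  Finset.le_sup' (fun j => inner ℝ x (y j) - w j) (Finset.mem_univ i)

theorem Phi_of_mem {y : ι → E d} {w : ι → ℝ} {x : E d} {i : ι} (hx : x ∈ cell K y w i) :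
    Phi y w x = inner ℝ x (y i) - w i :=
  le_antisymm (Finset.sup'_le _ _ fun j _ => hx.2 j) (le_Phi y w x i)

theorem continuous_Phi (y : ι → E d) (w : ι → ℝ) : Continuous (Phi y w) := by
  unfold Phi
  exact Continuous.finset_sup'_apply _ fun i _ => by fun_prop

/-- value of a cell assignment -/
noncomputable def Val (K : Set (E d)) (h : E d → ℝ) (y : ι → E d) (w : ι → ℝ)
    (y' : ι → E d) : ℝ :=
  ∑ i, inner ℝ (∫ x in cell K y w i, h x • x ∂(unif K)) (y' i)

end values

/-- bounded density -/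
structure Dens (K : Set (E d)) (h : E d → ℝ) : Prop where
  meas : Measurable h
  low : ∀ x, 1 / 2 ≤ h x
  up : ∀ x, h x ≤ 3 / 2
  int : ∫ x, h x ∂(unif K) = 1

theorem Dens.integrable (hK : IsCompact K) (hKi : (interior K).Nonempty) {h : E d → ℝ}
    (hh : Dens K h) : Integrable h (unif K) := by
  have := isProbabilityMeasure_unif hK hKi
  exact Integrable.of_bound hh.meas.aestronglyMeasurable (3 / 2)
      (ae_of_all _ fun x => by
        rw [Real.norm_eq_abs, abs_le]; constructor <;> linarith [hh.low x, hh.up x])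

theorem Dens.integrable_mul (hK : IsCompact K) (hKi : (interior K).Nonempty) {h : E d → ℝ}
    (hh : Dens K h) {φ : E d → ℝ} (hφ : Continuous φ) :
    Integrable (fun x => h x * φ x) (unif K) := by
  have h1 := integrable_of_continuous hK hKi hφ
  refine h1.bdd_mul (c := 3 / 2) hh.meas.aestronglyMeasurable (ae_of_all _ fun x => ?_)
  rw [Real.norm_eq_abs, abs_le]; constructor <;> linarith [hh.low x, hh.up x]

theorem Dens.integrable_smul (hK : IsCompact K) (hKi : (interior K).Nonempty) {h : E d → ℝ}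
    (hh : Dens K h) : Integrable (fun x => h x • x) (unif K) := by
  have h1 : Integrable (fun x : E d => x) (unif K) :=
    integrable_of_continuous hK hKi continuous_id
  refine h1.bdd_smul (3 / 2) hh.meas.aestronglyMeasurable (ae_of_all _ fun x => ?_)
  rw [Real.norm_eq_abs, abs_le]; constructor <;> linarith [hh.low x, hh.up x]

theorem Dens.one (hK : IsCompact K) (hKi : (interior K).Nonempty) :
    Dens K (fun _ : E d => (1 : ℝ)) := by
  have := isProbabilityMeasure_unif hK hKi
  exact ⟨measurable_const, fun _ => by norm_num, fun _ => by norm_num, by simp⟩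

section values2

variable {ι : Type} [Fintype ι] [Nonempty ι]

theorem Val_eq_sum (hK : IsCompact K) (hKi : (interior K).Nonempty) {h : E d → ℝ}
    (hh : Dens K h) (y : ι → E d) (w : ι → ℝ) (y' : ι → E d) :
    Val K h y w y' = ∑ i, ∫ x in cell K y w i, h x * inner ℝ x (y' i) ∂(unif K) := by
  unfold Val
  refine Finset.sum_congr rfl fun i _ => ?_
  have h1 : Integrable (fun x => h x • x) ((unif K).restrict (cell K y w i)) :=
    (hh.integrable_smul hK hKi).integrableOn
  rw [real_inner_comm, ← integral_inner h1]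
  refine integral_congr_ae (ae_of_all _ fun x => ?_)
  simp only
  rw [real_inner_comm, inner_smul_left]
  simp

/-- any assignment with the right masses is dominated by the dual value -/
theorem Val_le (hK : IsCompact K) (hKi : (interior K).Nonempty) {h : E d → ℝ}
    (hh : Dens K h) {m : ι → ℝ} {y' : ι → E d} (hy' : Function.Injective y') {w' : ι → ℝ}
    (hm' : ∀ i, ∫ x in cell K y' w' i, h x ∂(unif K) = m i) (y : ι → E d) (w : ι → ℝ) :
    Val K h y' w' y ≤ (∫ x, h x * Phi y w x ∂(unif K)) + ∑ i, m i * w i := by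
  rw [Val_eq_sum hK hKi hh]
  have hint := hh.integrable_mul hK hKi (continuous_Phi y w)
  rw [← integral_sum_cells hK (unif K) unif_absolutelyContinuous (ae_mem_unif hK) hy' w' hint,
    ← Finset.sum_add_distrib]
  refine Finset.sum_le_sum fun i _ => ?_
  have i1 : Integrable (fun x => h x * Phi y w x) ((unif K).restrict (cell K y' w' i)) :=
    hint.integrableOn
  have i2 : Integrable (fun x => h x) ((unif K).restrict (cell K y' w' i)) :=
    (hh.integrable hK hKi).integrableOn
  have i3 : Integrable (fun x => h x * inner ℝ x (y i)) ((unif K).restrict (cell K y' w' i)) :=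
    (hh.integrable_mul hK hKi (by fun_prop)).integrableOn
  rw [← hm' i, ← integral_mul_const, ← integral_add i1 (i2.mul_const _)]
  refine integral_mono_ae i3 (i1.add (i2.mul_const _)) (ae_of_all _ fun x => ?_)
  have h1 := le_Phi y w x i
  have h2 : 0 ≤ h x := by linarith [hh.low x]
  nlinarith

/-- for the optimal weights the dual value is attained -/
theorem Val_eq (hK : IsCompact K) (hKi : (interior K).Nonempty) {h : E d → ℝ}
    (hh : Dens K h) {m : ι → ℝ} {y : ι → E d} (hy : Function.Injective y) {w : ι → ℝ}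
    (hm : ∀ i, ∫ x in cell K y w i, h x ∂(unif K) = m i) :
    Val K h y w y = (∫ x, h x * Phi y w x ∂(unif K)) + ∑ i, m i * w i := by
  rw [Val_eq_sum hK hKi hh]
  have hint := hh.integrable_mul hK hKi (continuous_Phi y w)
  rw [← integral_sum_cells hK (unif K) unif_absolutelyContinuous (ae_mem_unif hK) hy w hint,
    ← Finset.sum_add_distrib]
  refine Finset.sum_congr rfl fun i _ => ?_
  have i1 : Integrable (fun x => h x * Phi y w x) ((unif K).restrict (cell K y w i)) :=
    hint.integrableOn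
  have i2 : Integrable (fun x => h x) ((unif K).restrict (cell K y w i)) :=
    (hh.integrable hK hKi).integrableOn
  rw [← hm i, ← integral_mul_const, ← integral_add i1 (i2.mul_const _)]
  refine setIntegral_congr_fun (measurableSet_cell hK y w i) fun x hx => ?_
  rw [Phi_of_mem hx]
  ring

theorem exists_cell_weights (hK : IsCompact K) (hKi : (interior K).Nonempty)
    {R : ℝ} (hKR : ∀ x ∈ K, ‖x‖ ≤ R) {h : E d → ℝ} (hh : Dens K h) {m : ι → ℝ}
    (hm : ∀ i, 0 < m i) (hsum : ∑ i, m i = 1) {y : ι → E d} (hy : Function.Injective y) :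
    ∃ w : ι → ℝ, ∀ i, ∫ x in cell K y w i, h x ∂(unif K) = m i := by
  have hprob := isProbabilityMeasure_unif hK hKi
  obtain ⟨σ, hσ⟩ : ∃ σ : Measure (E d),
      σ = (unif K).withDensity (fun x => ENNReal.ofReal (h x)) := ⟨_, rfl⟩
  have hhm : Measurable (fun x => ENNReal.ofReal (h x)) := hh.meas.ennreal_ofReal
  have hint := hh.integrable hK hKi
  have hpos : ∀ x, 0 ≤ h x := fun x => by linarith [hh.low x]
  have hσset : ∀ s : Set (E d), MeasurableSet s →
      σ s = ENNReal.ofReal (∫ x in s, h x ∂(unif K)) := by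
    intro s hs
    rw [hσ, withDensity_apply _ hs,
      ofReal_integral_eq_lintegral_ofReal hint.integrableOn (ae_of_all _ hpos)]
  have hσprob : IsProbabilityMeasure σ := by
    refine ⟨?_⟩
    rw [hσset _ MeasurableSet.univ, Measure.restrict_univ, hh.int, ENNReal.ofReal_one]
  have hσac : σ ≪ unif K := by
    rw [hσ]; exact withDensity_absolutelyContinuous _ _
  have hσK : ∀ᵐ x ∂σ, x ∈ K := hσac.ae_le (ae_mem_unif hK)
  have hσR : σ (Metric.closedBall 0 R)ᶜ = 0 := by
    refine measure_mono_null ?_ (ae_iff.1 hσK)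
    intro x hx
    simp only [mem_compl_iff, Metric.mem_closedBall, dist_zero_right] at hx
    intro hxK
    exact hx (hKR x hxK)
  obtain ⟨w, hw⟩ := exists_weights σ (hσac.trans unif_absolutelyContinuous) hσR y hy m hm hsum
  refine ⟨w, fun i => ?_⟩
  have h1 : σ (cell K y w i) = ENNReal.ofReal (m i) := by
    rw [← hw i]
    refine measure_congr ?_
    filter_upwards [hσK] with x hx
    refine propext ⟨fun h => h.2, fun h => ⟨hx, h⟩⟩
  rw [hσset _ (measurableSet_cell hK y w i)] at h1
  have h2 : 0 ≤ ∫ x in cell K y w i, h x ∂(unif K) := integral_nonneg fun x => hpos x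
  exact (ENNReal.ofReal_eq_ofReal_iff h2 (hm i).le).1 h1

theorem Val_unique (hK : IsCompact K) (hKi : (interior K).Nonempty) {h : E d → ℝ}
    (hh : Dens K h) {m : ι → ℝ} {y : ι → E d} (hy : Function.Injective y) {w w' : ι → ℝ}
    (hm : ∀ i, ∫ x in cell K y w i, h x ∂(unif K) = m i)
    (hm' : ∀ i, ∫ x in cell K y w' i, h x ∂(unif K) = m i) :
    Val K h y w y = Val K h y w' y := by
  refine le_antisymm ?_ ?_
  · rw [Val_eq hK hKi hh hy hm']
    exact Val_le hK hKi hh hy hm y w'
  · rw [Val_eq hK hKi hh hy hm]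
    exact Val_le hK hKi hh hy hm' y w

theorem Val_add (h : E d → ℝ) (y : ι → E d) (w : ι → ℝ) (a b : ι → E d) (s : ℝ) :
    Val K h y w (fun i => a i + s • b i) = Val K h y w a + s * Val K h y w b := by
  unfold Val
  rw [Finset.mul_sum, ← Finset.sum_add_distrib]
  refine Finset.sum_congr rfl fun i _ => ?_
  rw [inner_add_right, inner_smul_right]

theorem abs_Val_le (hK : IsCompact K) (hKi : (interior K).Nonempty)
    {R : ℝ} (hKR : ∀ x ∈ K, ‖x‖ ≤ R) {h : E d → ℝ} (hh : Dens K h) (y : ι → E d)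
    (w : ι → ℝ) (ξ : ι → E d) :
    |Val K h y w ξ| ≤ ∑ i, 3 / 2 * R * ‖ξ i‖ := by
  have hprob := isProbabilityMeasure_unif hK hKi
  have hR : 0 ≤ R := by
    obtain ⟨x, hx⟩ := hKi
    exact (norm_nonneg x).trans (hKR x (interior_subset hx))
  unfold Val
  refine (Finset.abs_sum_le_sum_abs _ _).trans (Finset.sum_le_sum fun i _ => ?_)
  refine (abs_real_inner_le_norm _ _).trans ?_
  refine mul_le_mul_of_nonneg_right ?_ (norm_nonneg _)
  have h1 : ‖∫ x in cell K y w i, h x • x ∂(unif K)‖ ≤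
      3 / 2 * R * ((unif K).restrict (cell K y w i)).real univ := by
    refine norm_integral_le_of_norm_le_const (ae_restrict_of_ae ?_)
    filter_upwards [ae_mem_unif hK] with x hx
    rw [norm_smul, Real.norm_eq_abs, abs_of_nonneg (by linarith [hh.low x])]
    exact mul_le_mul (hh.up x) (hKR x hx) (norm_nonneg _) (by norm_num)
  have h2 : ((unif K).restrict (cell K y w i)).real univ ≤ 1 := by
    rw [measureReal_restrict_apply_univ]; exact measureReal_le_one
  calc _ ≤ 3 / 2 * R * ((unif K).restrict (cell K y w i)).real univ := h1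
    _ ≤ 3 / 2 * R * 1 := by gcongr
    _ = _ := by ring

/-- the mixed difference estimate -/
theorem mixed_difference (hK : IsCompact K) (hKc : Convex ℝ K) (hKi : (interior K).Nonempty)
    {R : ℝ} (hR : 0 < R) (hKR : ∀ x ∈ K, ‖x‖ ≤ R) {h : E d → ℝ} (hh : Dens K h)
    {m : ι → ℝ} (hm : ∀ i, 0 < m i) (hsum : ∑ i, m i = 1)
    {y z : ι → E d} (hy : Function.Injective y) (hz : Function.Injective z)
    {wh0 wh1 w0 w1 : ι → ℝ}
    (hh0 : ∀ i, ∫ x in cell K y wh0 i, h x ∂(unif K) = m i)
    (hh1 : ∀ i, ∫ x in cell K z wh1 i, h x ∂(unif K) = m i)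
    (h0 : ∀ i, ∫ x in cell K y w0 i, (1 : ℝ) ∂(unif K) = m i)
    (h1 : ∀ i, ∫ x in cell K z w1 i, (1 : ℝ) ∂(unif K) = m i) :
    (Val K h z wh1 z - Val K (fun _ => 1) z w1 z) -
      (Val K h y wh0 y - Val K (fun _ => 1) y w0 y) ≤
      √(528 * R ^ 2 * ∫ x, (h x - 1) ^ 2 ∂(unif K)) * √(∑ i, m i * ‖z i - y i‖ ^ 2) := by
  have hone := Dens.one hK hKi (d := d)
  obtain ⟨Y, hY⟩ : ∃ Y : ℝ → ι → E d, Y = fun t i => y i + t • (z i - y i) := ⟨_, rfl⟩
  obtain ⟨ξ, hξ⟩ : ∃ ξ : ι → E d, ξ = fun i => z i - y i := ⟨_, rfl⟩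
  have hY0 : Y 0 = y := by rw [hY]; funext i; simp
  have hY1 : Y 1 = z := by rw [hY]; funext i; simp
  have hstepY : ∀ t t', Y t' = fun i => Y t i + (t' - t) • ξ i := by
    intro t t'
    rw [hY, hξ]
    funext i
    module
  have hWh : ∀ t, ∃ w : ι → ℝ, Function.Injective (Y t) →
      ∀ i, ∫ x in cell K (Y t) w i, h x ∂(unif K) = m i := by
    intro t
    by_cases ht : Function.Injective (Y t)
    · obtain ⟨w, hw⟩ := exists_cell_weights hK hKi hKR hh hm hsum ht
      exact ⟨w, fun _ => hw⟩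
    · exact ⟨0, fun h => absurd h ht⟩
  have hW1 : ∀ t, ∃ w : ι → ℝ, Function.Injective (Y t) →
      ∀ i, ∫ x in cell K (Y t) w i, (1 : ℝ) ∂(unif K) = m i := by
    intro t
    by_cases ht : Function.Injective (Y t)
    · obtain ⟨w, hw⟩ := exists_cell_weights hK hKi hKR hone hm hsum ht
      exact ⟨w, fun _ => hw⟩
    · exact ⟨0, fun h => absurd h ht⟩
  choose Wh hWh using hWh
  choose W1 hW1 using hW1
  -- convexity along the path
  have hconv : ∀ (g : E d → ℝ), Dens K g → ∀ (W : ℝ → ι → ℝ),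
      (∀ t, Function.Injective (Y t) → ∀ i, ∫ x in cell K (Y t) (W t) i, g x ∂(unif K) = m i) →
      ∀ t t', Function.Injective (Y t) → Function.Injective (Y t') →
      Val K g (Y t) (W t) (Y t) + (t' - t) * Val K g (Y t) (W t) ξ ≤
        Val K g (Y t') (W t') (Y t') := by
    intro g hg W hW t t' ht ht'
    rw [← Val_add, ← hstepY t t', Val_eq hK hKi hg ht' (hW t' ht')]
    exact Val_le hK hKi hg ht (hW t ht) (Y t') (W t')
  -- the barycenter estimate
  have hbary : ∀ t, Function.Injective (Y t) →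
      Val K h (Y t) (Wh t) ξ ≤ Val K (fun _ => 1) (Y t) (W1 t) ξ +
        √(528 * R ^ 2 * ∫ x, (h x - 1) ^ 2 ∂(unif K)) * √(∑ i, m i * ‖z i - y i‖ ^ 2) := by
    intro t ht
    have hA : ∀ i, (unif K).real (cell K (Y t) (W1 t) i) = m i := by
      intro i
      have := hW1 t ht i
      rw [setIntegral_const, smul_eq_mul, mul_one] at this
      exact this
    have hb := barycenter_stability hK hKc hKi hR hKR ht (w := W1 t) (w' := Wh t) hh.meas
      hh.low hh.up hm hA (hWh t ht)
    have e : Val K h (Y t) (Wh t) ξ - Val K (fun _ => 1) (Y t) (W1 t) ξ =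
        ∑ i, inner ℝ ((∫ x in cell K (Y t) (Wh t) i, h x • x ∂(unif K)) -
          ∫ x in cell K (Y t) (W1 t) i, x ∂(unif K)) (ξ i) := by
      unfold Val
      rw [← Finset.sum_sub_distrib]
      refine Finset.sum_congr rfl fun i _ => ?_
      rw [inner_sub_left]
      simp only [one_smul]
    have e2 : ∑ i, inner ℝ ((∫ x in cell K (Y t) (Wh t) i, h x • x ∂(unif K)) -
          ∫ x in cell K (Y t) (W1 t) i, x ∂(unif K)) (ξ i) ≤
        ∑ i, (√(m i)⁻¹ * ‖(∫ x in cell K (Y t) (Wh t) i, h x • x ∂(unif K)) -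
          ∫ x in cell K (Y t) (W1 t) i, x ∂(unif K)‖) * (√(m i) * ‖ξ i‖) := by
      refine Finset.sum_le_sum fun i _ => ?_
      refine (real_inner_le_norm _ _).trans (le_of_eq ?_)
      have : √(m i)⁻¹ * √(m i) = 1 := by
        rw [← Real.sqrt_mul (inv_nonneg.2 (hm i).le), inv_mul_cancel₀ (hm i).ne', Real.sqrt_one]
      calc _ = (√(m i)⁻¹ * √(m i)) * (‖(∫ x in cell K (Y t) (Wh t) i, h x • x ∂(unif K)) -
          ∫ x in cell K (Y t) (W1 t) i, x ∂(unif K)‖ * ‖ξ i‖) := by rw [this, one_mul]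
        _ = _ := by ring
    have e3 := Finset.sum_mul_sq_le_sq_mul_sq Finset.univ
      (fun i => √(m i)⁻¹ * ‖(∫ x in cell K (Y t) (Wh t) i, h x • x ∂(unif K)) -
          ∫ x in cell K (Y t) (W1 t) i, x ∂(unif K)‖) (fun i => √(m i) * ‖ξ i‖)
    have e4 : ∀ i, (√(m i)⁻¹ * ‖(∫ x in cell K (Y t) (Wh t) i, h x • x ∂(unif K)) -
          ∫ x in cell K (Y t) (W1 t) i, x ∂(unif K)‖) ^ 2 =
        (m i)⁻¹ * ‖(∫ x in cell K (Y t) (Wh t) i, h x • x ∂(unif K)) -
          ∫ x in cell K (Y t) (W1 t) i, x ∂(unif K)‖ ^ 2 := by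
      intro i
      rw [mul_pow, Real.sq_sqrt (inv_nonneg.2 (hm i).le)]
    have e5 : ∀ i, (√(m i) * ‖ξ i‖) ^ 2 = m i * ‖z i - y i‖ ^ 2 := by
      intro i
      rw [mul_pow, Real.sq_sqrt (hm i).le, hξ]
    simp only [e4, e5] at e3
    have e6 := Real.le_sqrt_of_sq_le e3
    rw [Real.sqrt_mul (Finset.sum_nonneg fun i _ => by
      have := hm i; positivity)] at e6
    have e7 := Real.sqrt_le_sqrt hb
    have e8 : 0 ≤ √(∑ i, m i * ‖z i - y i‖ ^ 2) := Real.sqrt_nonneg _
    have e9 := mul_le_mul_of_nonneg_right e7 e8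
    linarith
  -- apply the path lemma
  obtain ⟨κ, hκ⟩ : ∃ κ : ℝ, κ = √(528 * R ^ 2 * ∫ x, (h x - 1) ^ 2 ∂(unif K)) *
    √(∑ i, m i * ‖z i - y i‖ ^ 2) := ⟨_, rfl⟩
  rw [← hκ] at hbary ⊢
  have hG0 : (0 : ℝ) ∈ {t | Function.Injective (Y t)} := by
    change Function.Injective (Y 0); rw [hY0]; exact hy
  have hG1 : (1 : ℝ) ∈ {t | Function.Injective (Y t)} := by
    change Function.Injective (Y 1); rw [hY1]; exact hz
  have hfin : (Icc (0 : ℝ) 1 \ {t | Function.Injective (Y t)}).Finite := by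
    rw [hY]; exact path_bad_finite hy
  have hmain := path_sum (G := {t | Function.Injective (Y t)}) (κ := κ)
    (B := ∑ i, 3 / 2 * R * ‖ξ i‖)
    (Δ := fun t => Val K h (Y t) (Wh t) (Y t) - Val K (fun _ => 1) (Y t) (W1 t) (Y t))
    (β := fun t => Val K (fun _ => 1) (Y t) (W1 t) ξ) hfin hG0 hG1
    (by
      intro t ht t' ht' htt
      have a1 := hconv h hh Wh hWh t' t ht' ht
      have a2 := hconv _ hone W1 hW1 t t' ht ht'
      have a3 := hbary t' ht'
      have a4 : 0 < t' - t := sub_pos.2 htt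
      have a5 := mul_le_mul_of_nonneg_left a3 a4.le
      nlinarith)
    (by
      intro t _
      exact abs_Val_le hK hKi hKR hone (Y t) (W1 t) ξ)
    (by
      intro t ht t' ht' htt
      have a1 := hconv _ hone W1 hW1 t' t ht' ht
      have a2 := hconv _ hone W1 hW1 t t' ht ht'
      have a4 : 0 < t' - t := sub_pos.2 htt
      have a5 : (t' - t) * Val K (fun _ => 1) (Y t) (W1 t) ξ ≤
        (t' - t) * Val K (fun _ => 1) (Y t') (W1 t') ξ := by linarith
      exact le_of_mul_le_mul_left a5 a4)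
  have b1 : Val K h (Y 1) (Wh 1) (Y 1) = Val K h z wh1 z := by
    have := hWh 1 hG1
    rw [hY1] at this ⊢
    exact Val_unique hK hKi hh hz this hh1
  have b2 : Val K (fun _ => 1) (Y 1) (W1 1) (Y 1) = Val K (fun _ => 1) z w1 z := by
    have := hW1 1 hG1
    rw [hY1] at this ⊢
    exact Val_unique hK hKi hone hz this h1
  have b3 : Val K h (Y 0) (Wh 0) (Y 0) = Val K h y wh0 y := by
    have := hWh 0 hG0
    rw [hY0] at this ⊢
    exact Val_unique hK hKi hh hy this hh0
  have b4 : Val K (fun _ => 1) (Y 0) (W1 0) (Y 0) = Val K (fun _ => 1) y w0 y := by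
    have := hW1 0 hG0
    rw [hY0] at this ⊢
    exact Val_unique hK hKi hone hy this h0
  rw [b1, b2, b3, b4] at hmain
  exact hmain

end values2

end Vale.Agent.P074
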