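import Vale.Agent.Lib.P074.Path
import Vale.Agent.Lib.P074.L5
import Vale.Agent.Lib.P074.L6

open MeasureTheory Set
open scoped ENNReal NNReal

namespace Vale.Agent.P074

variable {d : ℕ} {K : Set (E d)}

/-! ### Legendre transform on `K` -/

/-- Legendre transform relative to `K` -/
noncomputable def conj (K : Set (E d)) (f : E d → ℝ) (y : E d) : ℝ :=
  sSup ((fun x => inner ℝ x y - f x) '' K)

theorem conj_ge (hK : IsCompact K) {f : E d → ℝ} (hf : Continuous f) {x : E d} (hx : x ∈ K)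
    (y : E d) : inner ℝ x y - f x ≤ conj K f y := by
  refine le_csSup ?_ (mem_image_of_mem _ hx)
  exact (hK.image (by fun_prop)).bddAbove

theorem conj_le (hKn : K.Nonempty) {f : E d → ℝ} {y : E d} {c : ℝ}
    (h : ∀ x ∈ K, inner ℝ x y - f x ≤ c) : conj K f y ≤ c := by
  refine csSup_le (hKn.image _) ?_
  rintro _ ⟨x, hx, rfl⟩
  exact h x hx

theorem conj_lip (hK : IsCompact K) (hKn : K.Nonempty) {R : ℝ} (hKR : ∀ x ∈ K, ‖x‖ ≤ R)
    {f : E d → ℝ} (hf : Continuous f) (a b : E d) :
    |conj K f a - conj K f b| ≤ R * ‖a - b‖ := by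
  have key : ∀ a b : E d, conj K f a - conj K f b ≤ R * ‖a - b‖ := by
    intro a b
    rw [sub_le_iff_le_add]
    refine conj_le hKn fun x hx => ?_
    have h1 := conj_ge hK hf hx b
    have h2 : inner ℝ x a - inner ℝ x b ≤ R * ‖a - b‖ := by
      rw [← inner_sub_right]
      refine (real_inner_le_norm _ _).trans ?_
      exact mul_le_mul_of_nonneg_right (hKR x hx) (norm_nonneg _)
    linarith
  rw [abs_le]
  refine ⟨?_, key a b⟩
  have := key b a
  rw [norm_sub_rev] at this
  linarith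

theorem continuous_of_lip {L : ℝ} {u : E d → ℝ} (hu : ∀ x y, |u x - u y| ≤ L * ‖x - y‖) :
    Continuous u := by
  have hL : LipschitzWith (Real.toNNReal L) u := by
    refine LipschitzWith.of_dist_le_mul fun x y => ?_
    rw [Real.dist_eq, dist_eq_norm]
    refine (hu x y).trans ?_
    exact mul_le_mul_of_nonneg_right (Real.le_coe_toNNReal L) (norm_nonneg _)
  exact hL.continuous

theorem continuous_conj (hK : IsCompact K) (hKn : K.Nonempty) {R : ℝ} (hKR : ∀ x ∈ K, ‖x‖ ≤ R)
    {f : E d → ℝ} (hf : Continuous f) : Continuous (conj K f) :=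
  continuous_of_lip (conj_lip hK hKn hKR hf)

theorem conj_at_subgradient (hK : IsCompact K) {f : E d → ℝ} (hf : Continuous f) {x p : E d}
    (hx : x ∈ K) (hp : ∀ z, f x + inner ℝ p (z - x) ≤ f z) :
    conj K f p = inner ℝ x p - f x := by
  refine le_antisymm ?_ (conj_ge hK hf hx p)
  refine conj_le ⟨x, hx⟩ fun z _ => ?_
  have h1 := hp z
  rw [inner_sub_right, real_inner_comm z p, real_inner_comm x p] at h1
  linarith

section Phi

variable {ι : Type} [Fintype ι] [Nonempty ι]

theorem Phi_lip {L : ℝ} {y : ι → E d} (hy : ∀ i, ‖y i‖ ≤ L) (w : ι → ℝ) (a b : E d) :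
    |Phi y w a - Phi y w b| ≤ L * ‖a - b‖ := by
  have key : ∀ a b : E d, Phi y w a - Phi y w b ≤ L * ‖a - b‖ := by
    intro a b
    rw [sub_le_iff_le_add]
    refine Finset.sup'_le _ _ fun i _ => ?_
    have h1 := le_Phi y w b i
    have h2 : inner ℝ a (y i) - inner ℝ b (y i) ≤ L * ‖a - b‖ := by
      rw [← inner_sub_left]
      refine (real_inner_le_norm _ _).trans ?_
      rw [mul_comm]
      exact mul_le_mul_of_nonneg_right (hy i) (norm_nonneg _)
    linarith
  rw [abs_le]
  refine ⟨?_, key a b⟩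
  have := key b a
  rw [norm_sub_rev] at this
  linarith

theorem Phi_conj_le (hK : IsCompact K) {f : E d → ℝ} (hf : Continuous f) (y : ι → E d)
    {x : E d} (hx : x ∈ K) : Phi y (fun i => conj K f (y i)) x ≤ f x := by
  refine Finset.sup'_le _ _ fun i _ => ?_
  have := conj_ge hK hf hx (y i)
  linarith

/-- upper bound of an optimal value by a pair of potentials -/
theorem Val_le_potential (hK : IsCompact K) (hKi : (interior K).Nonempty) {h : E d → ℝ}
    (hh : Dens K h) {m : ι → ℝ} {y : ι → E d} (hy : Function.Injective y) {w : ι → ℝ}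
    (hm : ∀ i, ∫ x in cell K y w i, h x ∂(unif K) = m i) {u : E d → ℝ} (hu : Continuous u) :
    Val K h y w y ≤ (∫ x, h x * u x ∂(unif K)) + ∑ i, m i * conj K u (y i) := by
  refine (Val_le hK hKi hh hy hm y (fun i => conj K u (y i))).trans ?_
  refine add_le_add ?_ le_rfl
  refine integral_mono_ae (hh.integrable_mul hK hKi (continuous_Phi _ _))
    (hh.integrable_mul hK hKi hu) ?_
  filter_upwards [ae_mem_unif hK] with x hx
  have h1 := Phi_conj_le hK hu y hx
  have h2 : 0 ≤ h x := by linarith [hh.low x]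
  exact mul_le_mul_of_nonneg_left h1 h2

end Phi

/-- integral of the conjugate along the transport map -/
theorem integral_conj_map (hK : IsCompact K) (hKi : (interior K).Nonempty) {R : ℝ}
    (hKR : ∀ x ∈ K, ‖x‖ ≤ R) {u : E d → ℝ} (hu : Continuous u) {T : E d → E d}
    (hT : Measurable T) {L : ℝ} (hTL : ∀ᵐ x ∂(unif K), ‖T x‖ ≤ L)
    (hsub : ∀ᵐ x ∂(unif K), ∀ z, u x + inner ℝ (T x) (z - x) ≤ u z) :
    ∫ a, conj K u a ∂((unif K).map T) =
      (∫ x, inner ℝ x (T x) ∂(unif K)) - ∫ x, u x ∂(unif K) := by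
  have hprob := isProbabilityMeasure_unif hK hKi
  have hKn : K.Nonempty := hKi.mono interior_subset
  rw [integral_map hT.aemeasurable (continuous_conj hK hKn hKR hu).aestronglyMeasurable]
  have i1 : Integrable (fun x => inner ℝ x (T x)) (unif K) := by
    refine Integrable.of_bound (by fun_prop) (R * L) ?_
    filter_upwards [ae_mem_unif hK, hTL] with x hx h2
    rw [Real.norm_eq_abs]
    refine (abs_real_inner_le_norm _ _).trans ?_
    exact mul_le_mul (hKR x hx) h2 (norm_nonneg _) ((norm_nonneg x).trans (hKR x hx))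
  rw [← integral_sub i1 (integrable_of_continuous hK hKi hu)]
  refine integral_congr_ae ?_
  filter_upwards [ae_mem_unif hK, hsub] with x hx h2
  exact conj_at_subgradient hK hu hx h2

/-- one step of the argument, with all parameters explicit -/
theorem step_estimate (hd : 1 ≤ d) (hK : IsCompact K) (hKc : Convex ℝ K)
    (hKi : (interior K).Nonempty) {R L : ℝ} (hR : 0 < R) (hKR : ∀ x ∈ K, ‖x‖ ≤ R) (hL : 0 ≤ L)
    {u v : E d → ℝ} (hu : ∀ x y, |u x - u y| ≤ L * ‖x - y‖)
    (hv : ∀ x y, |v x - v y| ≤ L * ‖x - y‖) {T S : E d → E d} (hT : Measurable T)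
    (hS : Measurable S) (hTL : ∀ᵐ x ∂(unif K), ‖T x‖ ≤ L) (hSL : ∀ᵐ x ∂(unif K), ‖S x‖ ≤ L)
    (hTu : ∀ᵐ x ∂(unif K), ∀ z, u x + inner ℝ (T x) (z - x) ≤ u z)
    (hSv : ∀ᵐ x ∂(unif K), ∀ z, v x + inner ℝ (S x) (z - x) ≤ v z)
    (γ : Measure (E d × E d)) [IsProbabilityMeasure γ]
    (hγ : IsCoupling γ ((unif K).map T) ((unif K).map S))
    {g : E d → ℝ} (hg : Measurable g) (hg1 : ∀ x, |g x| ≤ 1) (hg0 : ∫ x, g x ∂(unif K) = 0)
    {s δ : ℝ} (hs : 0 < s) (hs1 : s ≤ 1 / 2) (hδ : 0 < δ) (hδ1 : δ ≤ 1) {n : ℕ} (hn : 0 < n) :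
    s * (∫ x, g x * v x ∂(unif K)) ≤ s * (∫ x, g x * u x ∂(unif K)) + 3 * R * δ +
      s * √(528 * R ^ 2 * ∫ x, g x ^ 2 ∂(unif K)) *
        √(2 * (∫ p, ‖p.1 - p.2‖ ^ 2 ∂γ) + 8 * δ ^ 2) +
      s * (2 * (4 * (L + 1) * R / n + n * 2 ^ d * (2 * R * δ + s * ((2 * L + 1) * (2 * R))))) := by
  have hprob := isProbabilityMeasure_unif hK hKi
  have hKn : K.Nonempty := hKi.mono interior_subset
  have hcu := continuous_of_lip hu
  have hcv := continuous_of_lip hv
  have hone := Dens.one hK hKi (d := d)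
  -- the perturbed density
  obtain ⟨h, hhdef⟩ : ∃ h : E d → ℝ, h = fun x => 1 + s * g x := ⟨_, rfl⟩
  have hgi : Integrable g (unif K) :=
    Integrable.of_bound hg.aestronglyMeasurable 1 (ae_of_all _ fun x => by
      rw [Real.norm_eq_abs]; exact hg1 x)
  have hh : Dens K h := by
    refine ⟨by rw [hhdef]; fun_prop, fun x => ?_, fun x => ?_, ?_⟩
    · rw [hhdef]
      have := abs_le.1 (hg1 x)
      simp only
      nlinarith
    · rw [hhdef]
      have := abs_le.1 (hg1 x)
      simp only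
      nlinarith
    · rw [hhdef, integral_add (integrable_const _) (hgi.const_mul s), integral_const_mul, hg0]
      simp
  have hgc : ∀ φ : E d → ℝ, Continuous φ → Integrable (fun x => g x * φ x) (unif K) := by
    intro φ hφ
    refine (integrable_of_continuous hK hKi hφ).bdd_mul (c := 1) hg.aestronglyMeasurable
      (ae_of_all _ fun x => ?_)
    rw [Real.norm_eq_abs]; exact hg1 x
  have hhφ : ∀ φ : E d → ℝ, Continuous φ → ∫ x, h x * φ x ∂(unif K) =
      (∫ x, φ x ∂(unif K)) + s * ∫ x, g x * φ x ∂(unif K) := by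
    intro φ hφ
    have e : (fun x => h x * φ x) = fun x => φ x + s * (g x * φ x) := by
      funext x; rw [hhdef]; ring
    rw [e, integral_add (integrable_of_continuous hK hKi hφ) ((hgc φ hφ).const_mul s),
      integral_const_mul]
  -- discretization
  have hball : ∀ Q : E d → E d, Measurable Q → (∀ᵐ x ∂(unif K), ‖Q x‖ ≤ L) →
      ((unif K).map Q) (Metric.closedBall 0 L)ᶜ = 0 := by
    intro Q hQ hQL
    rw [Measure.map_apply hQ measurableSet_closedBall.compl]
    refine measure_mono_null ?_ (ae_iff.1 hQL)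
    intro x hx
    simpa using hx
  obtain ⟨N, y, z, m, hy, hz, hm, hsum, hyL, hzL, hcost, hdy, hdz, hglue⟩ :=
    exists_discretization hd hL hR hδ hδ1 γ hγ (hball T hT hTL) (hball S hS hSL)
  obtain ⟨wh0, hwh0⟩ := exists_cell_weights hK hKi hKR hh hm hsum hy
  obtain ⟨wh1, hwh1⟩ := exists_cell_weights hK hKi hKR hh hm hsum hz
  obtain ⟨w0, hw0⟩ := exists_cell_weights hK hKi hKR hone hm hsum hy
  obtain ⟨w1, hw1⟩ := exists_cell_weights hK hKi hKR hone hm hsum hz
  have hMD := mixed_difference hK hKc hKi hR hKR hh hm hsum hy hz hwh0 hwh1 hw0 hw1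
  -- (MD) simplification
  have hMD2 : √(528 * R ^ 2 * ∫ x, (h x - 1) ^ 2 ∂(unif K)) * √(∑ i, m i * ‖z i - y i‖ ^ 2) ≤
      s * √(528 * R ^ 2 * ∫ x, g x ^ 2 ∂(unif K)) *
        √(2 * (∫ p, ‖p.1 - p.2‖ ^ 2 ∂γ) + 8 * δ ^ 2) := by
    have e1 : ∫ x, (h x - 1) ^ 2 ∂(unif K) = s ^ 2 * ∫ x, g x ^ 2 ∂(unif K) := by
      rw [← integral_const_mul]
      refine integral_congr_ae (ae_of_all _ fun x => ?_)
      rw [hhdef]; ring
    have e2 : √(528 * R ^ 2 * ∫ x, (h x - 1) ^ 2 ∂(unif K)) =
        s * √(528 * R ^ 2 * ∫ x, g x ^ 2 ∂(unif K)) := by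
      rw [e1, show 528 * R ^ 2 * (s ^ 2 * ∫ x, g x ^ 2 ∂(unif K)) =
        s ^ 2 * (528 * R ^ 2 * ∫ x, g x ^ 2 ∂(unif K)) by ring,
        Real.sqrt_mul (by positivity), Real.sqrt_sq hs.le]
    rw [e2]
    refine mul_le_mul_of_nonneg_left (Real.sqrt_le_sqrt hcost) ?_
    positivity
  -- (4)
  have h4 : (∫ x, inner ℝ x (T x) ∂(unif K)) - 2 * R * δ ≤ Val K (fun _ => 1) y w0 y := by
    rw [Val_eq hK hKi hone hy hw0]
    simp only [one_mul]
    refine hglue (unif K) T hT rfl ?_ w0 (Phi y w0)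
      (integrable_of_continuous hK hKi (continuous_Phi _ _)) (ae_of_all _ fun x i => le_Phi y w0 x i)
    filter_upwards [ae_mem_unif hK] with x hx using hKR x hx
  -- (3)
  have h3 : Val K h y wh0 y ≤ s * (∫ x, g x * u x ∂(unif K)) +
      (∫ x, inner ℝ x (T x) ∂(unif K)) + R * δ := by
    have a1 := Val_le_potential hK hKi hh hy hwh0 hcu
    have a2 := abs_le.1 (hdy (conj K u) (conj_lip hK hKn hKR hcu))
    rw [integral_conj_map hK hKi hKR hcu hT hTL hTu] at a2
    rw [hhφ u hcu] at a1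
    linarith [a2.2]
  -- the potential of the perturbed problem
  obtain ⟨φ, hφ⟩ : ∃ φ : E d → ℝ, φ = Phi z wh1 := ⟨_, rfl⟩
  have hcφ : Continuous φ := by rw [hφ]; exact continuous_Phi _ _
  have hφL : ∀ a b, |φ a - φ b| ≤ (L + 1) * ‖a - b‖ := by
    rw [hφ]; exact Phi_lip hzL wh1
  have hVh1 : Val K h z wh1 z = (∫ x, φ x ∂(unif K)) + s * (∫ x, g x * φ x ∂(unif K)) +
      ∑ i, m i * wh1 i := by
    rw [Val_eq hK hKi hh hz hwh1, ← hφ, hhφ φ hcφ]
  -- (1)
  have h1 : s * (∫ x, g x * φ x ∂(unif K)) ≤ Val K h z wh1 z - Val K (fun _ => 1) z w1 z := by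
    have a1 := Val_le hK hKi hone hz hw1 z wh1
    simp only [one_mul] at a1
    rw [← hφ] at a1
    rw [hVh1]
    linarith
  -- (2) stability
  have hbound : ∀ x ∈ K, ∀ x' ∈ K, |(v x - φ x) - (v x' - φ x')| ≤ (2 * L + 1) * (2 * R) := by
    intro x hx x' hx'
    have a1 := hv x x'
    have a2 := hφL x x'
    have a3 : ‖x - x'‖ ≤ 2 * R := by
      refine (norm_sub_le _ _).trans ?_
      linarith [hKR x hx, hKR x' hx']
    have a4 : (v x - φ x) - (v x' - φ x') = (v x - v x') - (φ x - φ x') := by ring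
    rw [a4]
    calc |(v x - v x') - (φ x - φ x')| ≤ |v x - v x'| + |φ x - φ x'| := abs_sub _ _
      _ ≤ L * ‖x - x'‖ + (L + 1) * ‖x - x'‖ := add_le_add a1 a2
      _ = (2 * L + 1) * ‖x - x'‖ := by ring
      _ ≤ (2 * L + 1) * (2 * R) := by gcongr
  have hgvφ : ∫ x, g x * (v x - φ x) ∂(unif K) ≤ (2 * L + 1) * (2 * R) := by
    obtain ⟨x0, hx0⟩ := hKn
    have e1 : ∫ x, g x * (v x - φ x) ∂(unif K) =
        ∫ x, g x * ((v x - φ x) - (v x0 - φ x0)) ∂(unif K) := by
      have e : (fun x => g x * ((v x - φ x) - (v x0 - φ x0))) =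
          fun x => g x * (v x - φ x) - (v x0 - φ x0) * g x := by funext x; ring
      have i1 : Integrable (fun x => g x * (v x - φ x)) (unif K) := hgc _ (hcv.sub hcφ)
      rw [e, integral_sub i1 (hgi.const_mul _), integral_const_mul, hg0]
      simp
    rw [e1]
    have e2 : ∫ x, g x * ((v x - φ x) - (v x0 - φ x0)) ∂(unif K) ≤
        ∫ x, (2 * L + 1) * (2 * R) ∂(unif K) := by
      refine integral_mono_ae (hgc _ ((hcv.sub hcφ).sub continuous_const)) (integrable_const _) ?_
      filter_upwards [ae_mem_unif hK] with x hx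
      refine (le_abs_self _).trans ?_
      rw [abs_mul]
      calc |g x| * |(v x - φ x) - (v x0 - φ x0)| ≤ 1 * ((2 * L + 1) * (2 * R)) :=
            mul_le_mul (hg1 x) (hbound x hx x0 hx0) (abs_nonneg _) zero_le_one
        _ = _ := one_mul _
    simpa using e2
  obtain ⟨D, hD⟩ : ∃ D : E d → ℝ,
      D = fun x => max 0 (conj K φ (S x) + φ x - inner ℝ x (S x)) := ⟨_, rfl⟩
  have hcc : Continuous (conj K φ) := continuous_conj hK hKn hKR hcφ
  have hDm : Measurable D := by
    rw [hD]
    have := hcc.measurable.comp hS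
    have h2 : Measurable (fun x => conj K φ (S x)) := this
    fun_prop
  have hD0 : ∀ x, 0 ≤ D x := fun x => by rw [hD]; exact le_max_left _ _
  have hDK : ∀ x ∈ K, D x = conj K φ (S x) + φ x - inner ℝ x (S x) := by
    intro x hx
    rw [hD]
    refine max_eq_right ?_
    have := conj_ge hK hcφ hx (S x)
    linarith
  have iin : Integrable (fun x => inner ℝ x (S x)) (unif K) := by
    refine Integrable.of_bound (by fun_prop) (R * L) ?_
    filter_upwards [ae_mem_unif hK, hSL] with x hx h2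
    rw [Real.norm_eq_abs]
    refine (abs_real_inner_le_norm _ _).trans ?_
    exact mul_le_mul (hKR x hx) h2 (norm_nonneg _) hR.le
  have icon : Integrable (fun x => conj K φ (S x)) (unif K) := by
    obtain ⟨M, hM⟩ := (isCompact_closedBall (0 : E d) L).exists_bound_of_continuousOn
      hcc.continuousOn
    refine Integrable.of_bound (hcc.measurable.comp hS).aestronglyMeasurable M ?_
    filter_upwards [hSL] with x hx
    exact hM (S x) (by simpa using hx)
  have iφ := integrable_of_continuous hK hKi hcφ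
  have hDae : D =ᵐ[unif K] fun x => (conj K φ (S x) + φ x) - inner ℝ x (S x) := by
    filter_upwards [ae_mem_unif hK] with x hx using hDK x hx
  have iD : Integrable D (unif K) := ((icon.add iφ).sub iin).congr hDae.symm
  have hDint : ∫ x, D x ∂(unif K) ≤ 2 * R * δ + s * ((2 * L + 1) * (2 * R)) := by
    have e1 : ∫ x, D x ∂(unif K) = (∫ x, conj K φ (S x) ∂(unif K)) + (∫ x, φ x ∂(unif K)) -
        ∫ x, inner ℝ x (S x) ∂(unif K) := by
      rw [integral_congr_ae hDae]
      have i1 : Integrable (fun x => conj K φ (S x) + φ x) (unif K) := icon.add iφ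
      rw [integral_sub i1 iin, integral_add icon iφ]
    have e2 : ∫ x, conj K φ (S x) ∂(unif K) ≤ (∑ i, m i * wh1 i) + R * δ := by
      have a1 := abs_le.1 (hdz (conj K φ) (conj_lip hK hKn hKR hcφ))
      rw [integral_map hS.aemeasurable hcc.aestronglyMeasurable] at a1
      have a2 : ∑ i, m i * conj K φ (z i) ≤ ∑ i, m i * wh1 i := by
        refine Finset.sum_le_sum fun i _ => mul_le_mul_of_nonneg_left ?_ (hm i).le
        refine conj_le hKn fun x _ => ?_
        have := le_Phi z wh1 x i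
        rw [hφ]
        linarith
      linarith [a1.1]
    have e3 : Val K h z wh1 z ≤ s * (∫ x, g x * v x ∂(unif K)) +
        (∫ x, inner ℝ x (S x) ∂(unif K)) + R * δ := by
      have a1 := Val_le_potential hK hKi hh hz hwh1 hcv
      have a2 := abs_le.1 (hdz (conj K v) (conj_lip hK hKn hKR hcv))
      rw [integral_conj_map hK hKi hKR hcv hS hSL hSv] at a2
      rw [hhφ v hcv] at a1
      linarith [a2.2]
    have e4 : ∫ x, g x * (v x - φ x) ∂(unif K) =
        (∫ x, g x * v x ∂(unif K)) - ∫ x, g x * φ x ∂(unif K) := by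
      rw [← integral_sub (hgc v hcv) (hgc φ hcφ)]
      refine integral_congr_ae (ae_of_all _ fun x => ?_)
      ring
    have e5 := mul_le_mul_of_nonneg_left hgvφ hs.le
    rw [e4] at e5
    rw [hVh1] at e3
    rw [e1]
    linarith
  have hchain := chain_stability hK hKc hKi (L := L) (R := R) hL hR.le hKR hcv hcφ hS hDm hD0 iD
    hSL (by filter_upwards [hSv] with x hx z _ using hx z)
    (by
      filter_upwards [ae_mem_unif hK] with x hx z hz'
      rw [hDK x hx, inner_sub_right]
      have := conj_ge hK hcφ hz' (S x)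
      rw [real_inner_comm z (S x), real_inner_comm x (S x)]
      linarith) n hn
  -- (7)
  have h7 : (∫ x, g x * v x ∂(unif K)) - (∫ x, g x * φ x ∂(unif K)) ≤
      ∫ x, ∫ z, |(φ z - v z) - (φ x - v x)| ∂(unif K) ∂(unif K) := by
    obtain ⟨c, hc⟩ : ∃ c : ℝ, c = ∫ z, (φ z - v z) ∂(unif K) := ⟨_, rfl⟩
    have iF : Integrable (fun z => φ z - v z) (unif K) :=
      integrable_of_continuous hK hKi (hcφ.sub hcv)
    have e1 : (∫ x, g x * v x ∂(unif K)) - (∫ x, g x * φ x ∂(unif K)) =
        ∫ x, g x * (c - (φ x - v x)) ∂(unif K) := by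
      have e : (fun x => g x * (c - (φ x - v x))) =
          fun x => (g x * v x - g x * φ x) + c * g x := by funext x; ring
      have i1 : Integrable (fun x => g x * v x - g x * φ x) (unif K) :=
        (hgc v hcv).sub (hgc φ hcφ)
      rw [e, integral_add i1 (hgi.const_mul c), integral_const_mul, hg0, mul_zero, add_zero,
        integral_sub (hgc v hcv) (hgc φ hcφ)]
    rw [e1]
    have e2 : ∀ x, c - (φ x - v x) = ∫ z, ((φ z - v z) - (φ x - v x)) ∂(unif K) := by
      intro x
      rw [integral_sub iF (integrable_const _), ← hc]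
      simp
    have i2 : Integrable (fun x => ∫ z, |(φ z - v z) - (φ x - v x)| ∂(unif K)) (unif K) := by
      refine integrable_of_continuous hK hKi ?_
      refine continuous_of_lip (L := 2 * L + 1) fun x x' => ?_
      have i3 : ∀ x, Integrable (fun z => |(φ z - v z) - (φ x - v x)|) (unif K) := fun x =>
        integrable_of_continuous hK hKi (by fun_prop)
      rw [← integral_sub (i3 x) (i3 x')]
      refine (abs_integral_le_integral_abs).trans ?_
      have : ∫ z, (2 * L + 1) * ‖x - x'‖ ∂(unif K) = (2 * L + 1) * ‖x - x'‖ := by simp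
      rw [← this]
      refine integral_mono ((i3 x).sub (i3 x')).abs (integrable_const _) fun z => ?_
      have b1 := abs_abs_sub_abs_le_abs_sub ((φ z - v z) - (φ x - v x))
        ((φ z - v z) - (φ x' - v x'))
      refine b1.trans ?_
      have b2 : (φ z - v z) - (φ x - v x) - ((φ z - v z) - (φ x' - v x')) =
        (v x - v x') - (φ x - φ x') := by ring
      rw [b2]
      calc |(v x - v x') - (φ x - φ x')| ≤ |v x - v x'| + |φ x - φ x'| := abs_sub _ _
        _ ≤ L * ‖x - x'‖ + (L + 1) * ‖x - x'‖ := add_le_add (hv x x') (hφL x x')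
        _ = (2 * L + 1) * ‖x - x'‖ := by ring
    refine integral_mono (hgc _ (continuous_const.sub (hcφ.sub hcv))) i2 fun x => ?_
    rw [e2 x]
    refine (le_abs_self _).trans ?_
    rw [abs_mul]
    have b1 := abs_integral_le_integral_abs (μ := unif K)
      (f := fun z => (φ z - v z) - (φ x - v x))
    calc |g x| * |∫ z, ((φ z - v z) - (φ x - v x)) ∂(unif K)|
        ≤ 1 * ∫ z, |(φ z - v z) - (φ x - v x)| ∂(unif K) :=
          mul_le_mul (hg1 x) b1 (abs_nonneg _) zero_le_one
      _ = _ := one_mul _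
  have hn' : (0 : ℝ) < n := by exact_mod_cast hn
  have h8 : 2 * (4 * L * R / n + n * 2 ^ d * ∫ x, D x ∂(unif K)) ≤
      2 * (4 * (L + 1) * R / n + n * 2 ^ d * (2 * R * δ + s * ((2 * L + 1) * (2 * R)))) := by
    have c1 : 4 * L * R / n ≤ 4 * (L + 1) * R / n := by
      gcongr; linarith
    have c2 : (n : ℝ) * 2 ^ d * ∫ x, D x ∂(unif K) ≤
      n * 2 ^ d * (2 * R * δ + s * ((2 * L + 1) * (2 * R))) := by gcongr
    linarith
  have h9 := mul_le_mul_of_nonneg_left (h7.trans (hchain.trans h8)) hs.le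
  linarith

end Vale.Agent.P074
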