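import Vale.Agent.Lib.P074.Defs

open MeasureTheory Set
open scoped ENNReal NNReal

namespace Vale.Agent.P074

variable {d : ℕ}

/-- volume of a coordinate box -/
theorem volume_box (a b : Fin d → ℝ) :
    volume {x : E d | ∀ i, x i ∈ Icc (a i) (b i)} = ∏ i, ENNReal.ofReal (b i - a i) := by
  have h := (PiLp.volume_preserving_ofLp (Fin d)).measure_preimage
    (s := Set.pi univ fun i => Icc (a i) (b i))
    (MeasurableSet.univ_pi fun i => measurableSet_Icc).nullMeasurableSet
  rw [volume_pi_pi] at h
  simp only [Real.volume_Icc] at h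
  rw [← h]
  congr 1
  ext x
  simp only [Set.mem_ofPred_eq, Set.mem_preimage, Set.mem_pi, Set.mem_univ, true_implies]

/-- the unit cube centred at the origin -/
def cube (d : ℕ) : Set (E d) := {x | ∀ i, x i ∈ Icc (-(1 / 2) : ℝ) (1 / 2)}

theorem volume_cube : volume (cube d) = 1 := by
  have := volume_box (d := d) (fun _ => -(1 / 2)) (fun _ => 1 / 2)
  unfold cube
  rw [this]
  norm_num

theorem unif_cube : unif (cube d) = volume.restrict (cube d) := by
  simp [unif, volume_cube]

theorem abs_coord_le (x : E d) (i : Fin d) : |x i| ≤ ‖x‖ := by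
  simpa using PiLp.norm_apply_le x i

theorem isClosed_cube : IsClosed (cube d) := by
  have : cube d = ⋂ i, (fun x : E d => x i) ⁻¹' Icc (-(1 / 2) : ℝ) (1 / 2) := by
    ext x; simp [cube]
  rw [this]
  refine isClosed_iInter fun i => ?_
  exact isClosed_Icc.preimage (by fun_prop)

theorem norm_le_of_mem_cube {x : E d} (hx : x ∈ cube d) : ‖x‖ ≤ d := by
  rw [EuclideanSpace.norm_eq]
  have h1 : ∑ i, ‖x i‖ ^ 2 ≤ (d : ℝ) ^ 2 := by
    calc ∑ i, ‖x i‖ ^ 2 ≤ ∑ _i : Fin d, (1 : ℝ) := by
          refine Finset.sum_le_sum fun i _ => ?_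
          have := hx i
          rw [Real.norm_eq_abs, sq_abs]
          nlinarith [this.1, this.2]
      _ = d := by simp
      _ ≤ (d : ℝ) ^ 2 := by
          rcases Nat.eq_zero_or_pos d with h | h
          · simp [h]
          · have : (1 : ℝ) ≤ d := by exact_mod_cast h
            nlinarith
  calc √(∑ i, ‖x i‖ ^ 2) ≤ √((d : ℝ) ^ 2) := Real.sqrt_le_sqrt h1
    _ = d := Real.sqrt_sq (by positivity)

theorem isCompact_cube : IsCompact (cube d) := by
  refine Metric.isCompact_of_isClosed_isBounded isClosed_cube ?_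
  refine (Metric.isBounded_closedBall (x := (0 : E d)) (r := d)).subset ?_
  intro x hx
  simpa using norm_le_of_mem_cube hx

theorem convex_cube : Convex ℝ (cube d) := by
  intro x hx y hy a b ha hb hab i
  have := convex_Icc (-(1 / 2) : ℝ) (1 / 2) (hx i) (hy i) ha hb hab
  simpa using this

theorem interior_cube_nonempty : (interior (cube d)).Nonempty := by
  refine ⟨0, mem_interior.2 ⟨Metric.ball 0 (1 / 2), ?_, Metric.isOpen_ball, by simp⟩⟩
  intro x hx i
  have h1 : ‖x‖ < 1 / 2 := by simpa using hx
  have h2 := (abs_coord_le x i).trans h1.le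
  exact abs_le.1 h2

/-- Optimality from a dual certificate. -/
theorem isOTMap_of_dual {ρ : Measure (E d)} [IsProbabilityMeasure ρ] {T : E d → E d}
    (hT : Measurable T) {φ ψ : E d → ℝ} (hφ : Measurable φ) (hψ : Measurable ψ)
    {A : Set (E d)} (hA : MeasurableSet A) {R : ℝ} (hρ : ∀ᵐ x ∂ρ, ‖x‖ ≤ R)
    (hφb : ∀ᵐ x ∂ρ, |φ x| ≤ R) (hAb : ∀ y ∈ A, ‖y‖ ≤ R) (hψb : ∀ y ∈ A, |ψ y| ≤ R)
    (hTA : ∀ᵐ x ∂ρ, T x ∈ A)
    (hdual : ∀ᵐ x ∂ρ, ∀ y ∈ A, inner ℝ x y ≤ φ x + ψ y)
    (heq : ∀ᵐ x ∂ρ, inner ℝ x (T x) = φ x + ψ (T x)) :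
    IsOTMap ρ (ρ.map T) T := by
  refine ⟨hT, rfl, ?_⟩
  intro S hS hST
  have hSA : ∀ᵐ x ∂ρ, S x ∈ A := by
    have h1 : ∀ᵐ y ∂(ρ.map T), y ∈ A := (ae_map_iff hT.aemeasurable hA).2 hTA
    rw [← hST] at h1
    exact (ae_map_iff hS.aemeasurable hA).1 h1
  set F : E d → ℝ := fun x => ‖x‖ ^ 2 - 2 * φ x with hF
  set G : E d → ℝ := A.indicator (fun y => ‖y‖ ^ 2 - 2 * ψ y) with hG
  have hFm : Measurable F := by fun_prop
  have hGm : Measurable G := Measurable.indicator (by fun_prop) hA
  have hR : 0 ≤ R := by
    obtain ⟨x, hx⟩ := hρ.exists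
    exact (norm_nonneg x).trans hx
  have hFb : ∀ᵐ x ∂ρ, ‖F x‖ ≤ R ^ 2 + 2 * R := by
    filter_upwards [hρ, hφb] with x h1 h2
    rw [Real.norm_eq_abs, abs_le]
    have h3 := abs_le.1 h2
    have h4 := norm_nonneg x
    constructor <;> simp only [hF] <;> nlinarith
  have hGb : ∀ y, ‖G y‖ ≤ R ^ 2 + 2 * R := by
    intro y
    by_cases hy : y ∈ A
    · simp only [hG, indicator_of_mem hy]
      have h1 := hAb y hy
      have h3 := abs_le.1 (hψb y hy)
      have h4 := norm_nonneg y
      rw [Real.norm_eq_abs, abs_le]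
      constructor <;> nlinarith
    · simp only [hG, indicator_of_notMem hy, norm_zero]
      positivity
  have hFi : Integrable F ρ := Integrable.of_bound hFm.aestronglyMeasurable _ hFb
  have hGT : Integrable (fun x => G (T x)) ρ :=
    Integrable.of_bound (hGm.comp hT).aestronglyMeasurable _ (ae_of_all _ fun x => hGb _)
  have hGS : Integrable (fun x => G (S x)) ρ :=
    Integrable.of_bound (hGm.comp hS).aestronglyMeasurable _ (ae_of_all _ fun x => hGb _)
  have hint : ∫ x, G (T x) ∂ρ = ∫ x, G (S x) ∂ρ := by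
    rw [← integral_map hT.aemeasurable (f := G) hGm.aestronglyMeasurable,
      ← integral_map hS.aemeasurable (f := G) hGm.aestronglyMeasurable, hST]
  have key : ∀ x y : E d, edist x y ^ 2 = ENNReal.ofReal (‖x - y‖ ^ 2) := by
    intro x y
    rw [edist_dist, dist_eq_norm, ENNReal.ofReal_pow (norm_nonneg _)]
  have expand : ∀ x y : E d, ‖x - y‖ ^ 2 = ‖x‖ ^ 2 - 2 * inner ℝ x y + ‖y‖ ^ 2 :=
    fun x y => norm_sub_sq_real x y
  have hSi : Integrable (fun x => ‖x - S x‖ ^ 2) ρ := by
    refine Integrable.of_bound (by fun_prop) ((R + R) ^ 2) ?_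
    filter_upwards [hρ, hSA] with x h1 h2
    rw [Real.norm_eq_abs, abs_of_nonneg (by positivity)]
    refine pow_le_pow_left₀ (norm_nonneg _) ?_ 2
    exact (norm_sub_le _ _).trans (add_le_add h1 (hAb _ h2))
  calc ∫⁻ x, edist x (T x) ^ 2 ∂ρ = ∫⁻ x, ENNReal.ofReal (F x + G (T x)) ∂ρ := by
        refine lintegral_congr_ae ?_
        filter_upwards [hTA, heq] with x h1 h2
        rw [key, expand, h2]
        simp only [hF, hG, indicator_of_mem h1]
        congr 1; ring
    _ = ENNReal.ofReal (∫ x, (F x + G (T x)) ∂ρ) := by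
        refine (ofReal_integral_eq_lintegral_ofReal (f := fun x => F x + G (T x))
          (hFi.add hGT) ?_).symm
        filter_upwards [hTA, heq] with x h1 h2
        have : F x + G (T x) = ‖x - T x‖ ^ 2 := by
          rw [expand, h2]
          simp only [hF, hG, indicator_of_mem h1]
          ring
        rw [this]
        simp
    _ = ENNReal.ofReal (∫ x, (F x + G (S x)) ∂ρ) := by
        rw [integral_add hFi hGT, integral_add hFi hGS, hint]
    _ ≤ ENNReal.ofReal (∫ x, ‖x - S x‖ ^ 2 ∂ρ) := by
        refine ENNReal.ofReal_le_ofReal ?_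
        refine integral_mono_ae (hFi.add hGS) hSi ?_
        filter_upwards [hSA, hdual] with x h1 h2
        rw [expand]
        have := h2 _ h1
        simp only [hF, hG, indicator_of_mem h1]
        linarith
    _ = ∫⁻ x, edist x (S x) ^ 2 ∂ρ := by
        rw [ofReal_integral_eq_lintegral_ofReal hSi (ae_of_all _ fun x => by positivity)]
        exact lintegral_congr fun x => (key _ _).symm

section family

variable (i j : Fin d)

/-- the three-valued map with middle cell `|x_i| ≤ w + t x_j` -/
noncomputable def Tm (w t : ℝ) (x : E d) : E d :=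
  if |x i| ≤ w + t * x j then t • EuclideanSpace.single j (1 : ℝ)
  else if 0 < x i then EuclideanSpace.single i (1 : ℝ) else -EuclideanSpace.single i (1 : ℝ)

theorem Tm_mid {w t : ℝ} {x : E d} (h : |x i| ≤ w + t * x j) :
    Tm i j w t x = t • EuclideanSpace.single j (1 : ℝ) := if_pos h

theorem Tm_pos {w t : ℝ} {x : E d} (h : ¬ |x i| ≤ w + t * x j) (h2 : 0 < x i) :
    Tm i j w t x = EuclideanSpace.single i (1 : ℝ) := by
  unfold Tm
  rw [if_neg h, if_pos h2]

theorem Tm_neg {w t : ℝ} {x : E d} (h : ¬ |x i| ≤ w + t * x j) (h2 : ¬ 0 < x i) :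
    Tm i j w t x = -EuclideanSpace.single i (1 : ℝ) := by
  unfold Tm
  rw [if_neg h, if_neg h2]

theorem measurable_Tm (w t : ℝ) : Measurable (Tm i j w t) := by
  unfold Tm
  refine Measurable.ite ?_ measurable_const (Measurable.ite ?_ measurable_const measurable_const)
  · exact measurableSet_le (by fun_prop) (by fun_prop)
  · exact measurableSet_lt (by fun_prop) (by fun_prop)

instance : IsProbabilityMeasure (volume.restrict (cube d)) :=
  ⟨by simp [volume_cube]⟩

theorem ae_mem_cube : ∀ᵐ x ∂(volume.restrict (cube d)), x ∈ cube d :=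
  ae_restrict_mem isClosed_cube.measurableSet

theorem isOTMap_Tm (hij : i ≠ j) {w t : ℝ} (hw : 0 ≤ w) (hw1 : w ≤ 1) (ht : |t| ≤ 2 * w)
    (ht1 : |t| ≤ 1) :
    IsOTMap (unif (cube d)) ((unif (cube d)).map (Tm i j w t)) (Tm i j w t) := by
  rw [unif_cube]
  set ei : E d := EuclideanSpace.single i (1 : ℝ) with hei
  set ej : E d := EuclideanSpace.single j (1 : ℝ) with hej
  have hxi : ∀ x : E d, inner ℝ x ei = x i := fun x => by
    simp [hei, EuclideanSpace.inner_single_right]
  have hxj : ∀ x : E d, inner ℝ x ej = x j := fun x => by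
    simp [hej, EuclideanSpace.inner_single_right]
  have hni : ‖ei‖ = 1 := by simp [hei]
  have hnj : ‖ej‖ = 1 := by simp [hej]
  have hne : ∀ s : ℝ, s • ej ≠ ei := by
    intro s h
    have h1 := congrArg (fun v : E d => v i) h
    simp [hei, hej, hij] at h1
  have hne' : ∀ s : ℝ, s • ej ≠ -ei := by
    intro s h
    have h1 := congrArg (fun v : E d => v i) h
    simp [hei, hej, hij] at h1
  classical
  refine isOTMap_of_dual (measurable_Tm i j w t)
    (φ := fun x => max (|x i| - w) (t * x j))
    (ψ := fun y => if y = t • ej then 0 else w)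
    (A := {t • ej, ei, -ei}) (R := d + 2) ?_ ?_ ?_ ?_ ?_ ?_ ?_ ?_ ?_ ?_
  · fun_prop
  · exact Measurable.ite (measurableSet_singleton _) measurable_const measurable_const
  · exact (Set.toFinite _).measurableSet
  · filter_upwards [ae_mem_cube] with x hx
    linarith [norm_le_of_mem_cube hx]
  · filter_upwards [ae_mem_cube] with x hx
    have h1 := hx i
    have h2 := hx j
    have h3 : |x i| ≤ 1 / 2 := abs_le.2 h1
    have h4 : |x j| ≤ 1 / 2 := abs_le.2 h2
    have h5 : |t * x j| ≤ 1 := by
      rw [abs_mul]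
      nlinarith [abs_nonneg t, abs_nonneg (x j)]
    have h6 := abs_le.1 h5
    have h7 := abs_nonneg (x i)
    have hd : (0 : ℝ) ≤ d := by positivity
    rw [abs_le]
    constructor
    · exact le_trans (by linarith) (le_max_right _ _)
    · exact max_le (by linarith) (by linarith)
  · intro y hy
    have hd : (0 : ℝ) ≤ d := by positivity
    rcases hy with rfl | rfl | rfl
    · rw [norm_smul, hnj, Real.norm_eq_abs]; linarith
    · rw [hni]; linarith
    · rw [norm_neg, hni]; linarith
  · intro y hy
    have hd : (0 : ℝ) ≤ d := by positivity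
    by_cases h : y = t • ej
    · rw [if_pos h]; simp; linarith
    · rw [if_neg h, abs_of_nonneg hw]; linarith
  · refine ae_of_all _ fun x => ?_
    unfold Tm
    split_ifs <;> simp [hei, hej]
  · filter_upwards [ae_mem_cube] with x hx
    intro y hy
    rcases hy with rfl | rfl | rfl
    · simp only [inner_smul_right, hxj, if_true, add_zero]
      exact le_max_right _ _
    · rw [hxi, if_neg (fun h => hne t h.symm)]
      have := le_abs_self (x i)
      have h2 := le_max_left (|x i| - w) (t * x j)
      linarith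
    · rw [inner_neg_right, hxi, if_neg (fun h => hne' t h.symm)]
      have := neg_abs_le (x i)
      have h2 := le_max_left (|x i| - w) (t * x j)
      linarith
  · filter_upwards [ae_mem_cube] with x hx
    have h2 : |x j| ≤ 1 / 2 := abs_le.2 (hx j)
    have h3 : |t * x j| ≤ w := by
      rw [abs_mul]
      nlinarith [abs_nonneg t, abs_nonneg (x j)]
    have h4 := abs_le.1 h3
    by_cases h5 : |x i| ≤ w + t * x j
    · rw [Tm_mid i j h5, ← hej, if_pos rfl, inner_smul_right, hxj, add_zero,
        max_eq_right (by linarith)]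
    · by_cases h6 : 0 < x i
      · rw [Tm_pos i j h5 h6, ← hei, if_neg (fun h => hne t h.symm), hxi,
          max_eq_left (by linarith), abs_of_pos h6]
        ring
      · rw [Tm_neg i j h5 h6, ← hei, if_neg (fun h => hne' t h.symm), inner_neg_right, hxi,
          max_eq_left (by linarith), abs_of_nonpos (not_lt.1 h6)]
        ring

/-- the reflection in the `j`-th coordinate -/
noncomputable def refl : E d ≃ₗᵢ[ℝ] E d :=
  LinearIsometryEquiv.piLpCongrRight 2
    (fun k => if k = j then LinearIsometryEquiv.neg ℝ else LinearIsometryEquiv.refl ℝ ℝ)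

theorem refl_apply (x : E d) (k : Fin d) : refl j x k = if k = j then -x k else x k := by
  unfold refl
  by_cases h : k = j
  · simp [LinearIsometryEquiv.piLpCongrRight_apply, h]
  · simp [LinearIsometryEquiv.piLpCongrRight_apply, h]

theorem refl_refl (x : E d) : refl j (refl j x) = x := by
  ext k
  rw [refl_apply, refl_apply]
  split_ifs <;> simp

theorem refl_mem_cube (x : E d) : refl j x ∈ cube d ↔ x ∈ cube d := by
  have h : ∀ x : E d, x ∈ cube d → refl j x ∈ cube d := by
    intro x hx k
    rw [refl_apply]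
    have := hx k
    split_ifs
    · exact ⟨by linarith [this.2], by linarith [this.1]⟩
    · exact this
  exact ⟨fun hx => by simpa [refl_refl] using h _ hx, h x⟩

theorem map_refl_cube : (volume.restrict (cube d)).map (refl j) = volume.restrict (cube d) := by
  have h := (LinearIsometryEquiv.measurePreserving (refl (d := d) j)).restrict_preimage
    (isClosed_cube (d := d)).measurableSet
  have h2 : (refl j) ⁻¹' cube d = cube d := by
    ext x; exact refl_mem_cube j x
  rw [h2] at h
  exact h.map_eq

theorem Tm_refl (hij : i ≠ j) (w t : ℝ) (x : E d) :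
    Tm i j w t x = refl j (Tm i j w (-t) (refl j x)) := by
  have h1 : (refl j x) i = x i := by rw [refl_apply, if_neg hij]
  have h2 : (refl j x) j = -x j := by rw [refl_apply, if_pos rfl]
  unfold Tm
  rw [h1, h2, neg_mul_neg]
  split_ifs with h3 h4
  · ext k
    rw [refl_apply]
    by_cases hk : k = j
    · subst hk; simp
    · simp [hk]
  · ext k
    rw [refl_apply]
    by_cases hk : k = j
    · subst hk; simp [hij.symm]
    · simp [hk]
  · ext k
    rw [refl_apply]
    by_cases hk : k = j
    · subst hk; simp [hij.symm]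
    · simp [hk]

theorem W2_Tm_le (hij : i ≠ j) {t : ℝ} (ht : 0 < t) :
    W2 ((unif (cube d)).map (Tm i j (t / 2) (-t))) ((unif (cube d)).map (Tm i j (t / 2) t)) ≤
      ENNReal.ofReal (8 * t ^ 3) ^ (1 / 2 : ℝ) := by
  rw [unif_cube]
  unfold W2
  refine ENNReal.rpow_le_rpow ?_ (by norm_num)
  have hT := measurable_Tm i j (t / 2) (-t)
  have hT' := measurable_Tm i j (t / 2) t
  have hR : Measurable (refl (d := d) j) := (refl j).continuous.measurable
  set ρ := (volume : Measure (E d)).restrict (cube d) with hρ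
  set π : Measure (E d × E d) :=
    ρ.map (fun x => (Tm i j (t / 2) (-t) x, refl j (Tm i j (t / 2) (-t) x))) with hπ
  have hm : Measurable (fun x : E d => (Tm i j (t / 2) (-t) x, refl j (Tm i j (t / 2) (-t) x))) :=
    hT.prodMk (hR.comp hT)
  have hc : IsCoupling π (ρ.map (Tm i j (t / 2) (-t))) (ρ.map (Tm i j (t / 2) t)) := by
    constructor
    · rw [hπ, Measure.map_map measurable_fst hm]
      rfl
    · rw [hπ, Measure.map_map measurable_snd hm]
      have h1 : (Prod.snd ∘ fun x : E d =>
          (Tm i j (t / 2) (-t) x, refl j (Tm i j (t / 2) (-t) x))) =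
          (Tm i j (t / 2) t) ∘ (refl j) := by
        funext x
        simp only [Function.comp]
        rw [Tm_refl i j hij (t / 2) t (refl j x), refl_refl]
      rw [h1, ← Measure.map_map hT' hR, hρ, map_refl_cube]
  refine (iInf₂_le π hc).trans ?_
  rw [hπ, lintegral_map (by fun_prop) hm]
  set B : Set (E d) := {x | ∀ k, x k ∈ Icc (if k = i then -t else -(1 / 2)) (if k = i then t else 1 / 2)}
    with hB
  have hBc : IsClosed B := by
    have : B = ⋂ k, (fun x : E d => x k) ⁻¹'
        Icc (if k = i then -t else -(1 / 2)) (if k = i then t else 1 / 2) := by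
      ext x; simp [B]
    rw [this]
    exact isClosed_iInter fun k => isClosed_Icc.preimage (by fun_prop)
  have hBv : volume B = ENNReal.ofReal (2 * t) := by
    rw [hB, volume_box, Finset.prod_eq_single i]
    · simp only [if_true]
      congr 1; ring
    · intro k _ hk
      simp [hk]
      norm_num
    · simp
  calc ∫⁻ x, edist (Tm i j (t / 2) (-t) x) (refl j (Tm i j (t / 2) (-t) x)) ^ 2 ∂ρ
      ≤ ∫⁻ x, B.indicator (fun _ => ENNReal.ofReal (4 * t ^ 2)) x ∂ρ := by
        refine lintegral_mono_ae ?_
        filter_upwards [ae_mem_cube] with x hx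
        have h0 : |x j| ≤ 1 / 2 := abs_le.2 (hx j)
        have h0' := abs_le.1 h0
        by_cases h5 : |x i| ≤ t / 2 + (-t) * x j
        · have hxB : x ∈ B := by
            intro k
            by_cases hk : k = i
            · subst hk
              simp only [if_true]
              exact abs_le.1 (h5.trans (by nlinarith))
            · simp only [hk, if_false]
              exact hx k
          rw [indicator_of_mem hxB, Tm_mid i j h5, edist_dist, dist_eq_norm,
            ← ENNReal.ofReal_pow (norm_nonneg _)]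
          refine ENNReal.ofReal_le_ofReal ?_
          have h6 : (-t) • EuclideanSpace.single j (1 : ℝ) -
              refl j ((-t) • EuclideanSpace.single j (1 : ℝ)) =
              (-(2 * t)) • EuclideanSpace.single j (1 : ℝ) := by
            ext k
            rw [PiLp.sub_apply, refl_apply]
            by_cases hk : k = j
            · subst hk; simp; ring
            · simp [hk]
          rw [h6, norm_smul, PiLp.norm_single, Real.norm_eq_abs, abs_neg,
            abs_of_pos (by linarith)]
          simp; nlinarith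
        · have h7 : edist (Tm i j (t / 2) (-t) x) (refl j (Tm i j (t / 2) (-t) x)) = 0 := by
            rw [edist_eq_zero]
            by_cases h6 : 0 < x i
            · rw [Tm_pos i j h5 h6]
              ext k
              rw [refl_apply]
              by_cases hk : k = j
              · subst hk; simp [hij.symm]
              · simp [hk]
            · rw [Tm_neg i j h5 h6]
              ext k
              rw [refl_apply]
              by_cases hk : k = j
              · subst hk; simp [hij.symm]
              · simp [hk]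
          rw [h7]
          simp
    _ = ENNReal.ofReal (4 * t ^ 2) * ρ B := by
        rw [lintegral_indicator_const hBc.measurableSet]
    _ ≤ ENNReal.ofReal (4 * t ^ 2) * ENNReal.ofReal (2 * t) := by
        gcongr
        rw [← hBv]
        exact Measure.restrict_apply_le _ _
    _ = ENNReal.ofReal (8 * t ^ 3) := by
        rw [← ENNReal.ofReal_mul (by positivity)]
        congr 1; ring

theorem le_eLpNorm_Tm (hij : i ≠ j) {t : ℝ} (ht : 0 < t) (ht1 : t ≤ 1 / 2) :
    ENNReal.ofReal (t / 16) ^ (1 / 2 : ℝ) ≤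
      eLpNorm (fun x => Tm i j (t / 2) (-t) x - Tm i j (t / 2) t x) 2 (unif (cube d)) := by
  rw [unif_cube]
  set B : Set (E d) := {x | ∀ k, x k ∈
    Icc (if k = i then t / 2 - t / 8 else if k = j then 1 / 4 else -(1 / 2))
      (if k = i then t / 2 + t / 8 else 1 / 2)} with hB
  have hBc : IsClosed B := by
    have : B = ⋂ k, (fun x : E d => x k) ⁻¹'
        Icc (if k = i then t / 2 - t / 8 else if k = j then 1 / 4 else -(1 / 2))
      (if k = i then t / 2 + t / 8 else 1 / 2) := by
      ext x; simp [B]
    rw [this]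
    exact isClosed_iInter fun k => isClosed_Icc.preimage (by fun_prop)
  have hBv : volume B = ENNReal.ofReal (t / 16) := by
    rw [hB, volume_box, Finset.prod_eq_mul i j hij]
    · simp only [if_true, hij.symm, if_false]
      rw [← ENNReal.ofReal_mul (by linarith)]
      congr 1; ring
    · intro k _ hk
      simp [hk.1, hk.2]
      norm_num
    · simp
    · simp
  have hBK : B ⊆ cube d := by
    intro x hx k
    have h := hx k
    by_cases hk : k = i
    · subst hk
      simp only [if_true] at h
      exact ⟨by linarith [h.1], by linarith [h.2]⟩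
    · by_cases hk' : k = j
      · subst hk'
        simp only [hk, if_false, if_true] at h
        exact ⟨by linarith [h.1], by linarith [h.2]⟩
      · simp only [hk, hk', if_false] at h
        exact h
  have h1 : volume.restrict (cube d) B = ENNReal.ofReal (t / 16) := by
    rw [Measure.restrict_eq_self _ hBK, hBv]
  have h2 := eLpNorm_indicator_const (μ := volume.restrict (cube d)) (s := B) (c := (1 : ℝ))
    (p := 2) hBc.measurableSet (by norm_num) (by norm_num)
  rw [h1] at h2
  simp only [enorm_one, one_mul] at h2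
  have h3 : (2 : ℝ≥0∞).toReal = 2 := by simp
  rw [h3] at h2
  rw [← h2]
  refine eLpNorm_mono fun x => ?_
  by_cases hx : x ∈ B
  · rw [indicator_of_mem hx, norm_one]
    have hi := hx i
    have hj := hx j
    simp only [if_true, hij.symm, if_false] at hi hj
    have hpos : 0 < x i := by linarith [hi.1]
    have e1 : Tm i j (t / 2) (-t) x = EuclideanSpace.single i (1 : ℝ) := by
      refine Tm_pos i j ?_ hpos
      rw [abs_of_pos hpos]
      nlinarith [hi.1, hj.1]
    have e2 : Tm i j (t / 2) t x = t • EuclideanSpace.single j (1 : ℝ) := by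
      refine Tm_mid i j ?_
      rw [abs_of_pos hpos]
      nlinarith [hi.2, hj.1]
    rw [e1, e2]
    have := abs_coord_le (EuclideanSpace.single i (1 : ℝ) -
      t • EuclideanSpace.single j (1 : ℝ)) i
    simpa [hij] using this
  · rw [indicator_of_notMem hx, norm_zero]
    positivity

end family

theorem not_admissible_of_gt (hd : 2 ≤ d) {α : ℝ} (hα : 1 / 3 < α) : ¬ Admissible d α := by
  rintro ⟨_, _, h⟩
  obtain ⟨C, hC⟩ := h (cube d) isCompact_cube convex_cube interior_cube_nonempty
    (Metric.closedBall 0 1) ⟨0, by simp⟩ (isCompact_closedBall _ _)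
  set i : Fin d := ⟨0, by omega⟩ with hi
  set j : Fin d := ⟨1, by omega⟩ with hj
  have hij : i ≠ j := by simp [hi, hj]
  have hprob : ∀ t : ℝ, |t| ≤ 1 → ∀ w : ℝ,
      ProbOn (Metric.closedBall 0 1) ((unif (cube d)).map (Tm i j w t)) := by
    intro t ht w
    have hm := measurable_Tm i j w t
    have : IsProbabilityMeasure (unif (cube d)) := by
      rw [unif_cube]; infer_instance
    refine ⟨Measure.isProbabilityMeasure_map hm.aemeasurable, ?_⟩
    rw [Measure.map_apply hm (measurableSet_closedBall.compl)]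
    have : (Tm i j w t) ⁻¹' (Metric.closedBall 0 1)ᶜ = ∅ := by
      ext x
      simp only [mem_preimage, mem_compl_iff, Metric.mem_closedBall, dist_zero_right,
        mem_empty_iff_false, iff_false, not_not]
      unfold Tm
      split_ifs
      · rw [norm_smul, PiLp.norm_single]; simpa using ht
      · simp
      · simp
    rw [this]
    simp
  have hmain : ∀ t : ℝ, 0 < t → t ≤ 1 / 2 →
      (t / 16) ^ (1 / 2 : ℝ) ≤ C * ((8 * t ^ 3) ^ (1 / 2 : ℝ)) ^ α := by
    intro t ht ht1
    have e1 : |-t| ≤ 1 := by rw [abs_neg, abs_of_pos ht]; linarith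
    have e2 : |t| ≤ 1 := by rw [abs_of_pos ht]; linarith
    have h1 := hC _ _ (hprob (-t) e1 (t / 2)) (hprob t e2 (t / 2)) _ _
      (isOTMap_Tm i j hij (w := t / 2) (t := -t) (by linarith) (by linarith)
        (by rw [abs_neg, abs_of_pos ht]; linarith) e1)
      (isOTMap_Tm i j hij (w := t / 2) (t := t) (by linarith) (by linarith)
        (by rw [abs_of_pos ht]; linarith) e2)
    have h2 := (le_eLpNorm_Tm i j hij ht ht1).trans h1
    have h3 : (C : ℝ≥0∞) * W2 ((unif (cube d)).map (Tm i j (t / 2) (-t)))
        ((unif (cube d)).map (Tm i j (t / 2) t)) ^ α ≤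
        C * (ENNReal.ofReal (8 * t ^ 3) ^ (1 / 2 : ℝ)) ^ α := by
      gcongr
      exact W2_Tm_le i j hij ht
    have h4 := h2.trans h3
    have p1 : 0 < 8 * t ^ 3 := by positivity
    rw [ENNReal.ofReal_rpow_of_pos (by positivity), ENNReal.ofReal_rpow_of_pos p1,
      ENNReal.ofReal_rpow_of_pos (by positivity), ← ENNReal.ofReal_coe_nnreal,
      ← ENNReal.ofReal_mul (by positivity)] at h4
    exact (ENNReal.ofReal_le_ofReal_iff (by positivity)).1 h4
  -- let t → 0
  set β : ℝ := (3 * α - 1) / 2 with hβ
  have hβ0 : 0 < β := by rw [hβ]; linarith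
  have hbound : ∀ s : ℝ, 2 ≤ s → s ^ β ≤ 4 * C * 8 ^ (α / 2) := by
    intro s hs
    have hs0 : 0 < s := by linarith
    have h := hmain s⁻¹ (by positivity) (by rw [inv_le_comm₀ hs0 (by norm_num)]; norm_num; exact hs)
    have h16 : (16 : ℝ) ^ (1 / 2 : ℝ) = 4 := by
      rw [← Real.sqrt_eq_rpow, show (16 : ℝ) = 4 ^ 2 by norm_num, Real.sqrt_sq (by norm_num)]
    rw [Real.div_rpow (by positivity) (by norm_num), h16, ← Real.rpow_mul (by positivity),
      Real.mul_rpow (by norm_num) (by positivity), ← Real.rpow_natCast, ← Real.rpow_mul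
      (by positivity), Real.inv_rpow hs0.le, Real.inv_rpow hs0.le] at h
    have h5 : s ^ β = s ^ ((3 : ℕ) * (1 / 2 * α) : ℝ) / s ^ (1 / 2 : ℝ) := by
      rw [← Real.rpow_sub hs0]
      congr 1
      rw [hβ]; push_cast; ring
    have p1 : 0 < s ^ (1 / 2 : ℝ) := by positivity
    have p2 : 0 < s ^ ((3 : ℕ) * (1 / 2 * α) : ℝ) := by positivity
    rw [h5, div_le_iff₀ p1]
    have h6 : (α / 2) = 1 / 2 * α := by ring
    rw [h6]
    have h7 := mul_le_mul_of_nonneg_left h
      (mul_pos (mul_pos (by norm_num : (0 : ℝ) < 4) p1) p2).le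
    calc s ^ ((3 : ℕ) * (1 / 2 * α) : ℝ)
        = 4 * s ^ (1 / 2 : ℝ) * s ^ ((3 : ℕ) * (1 / 2 * α) : ℝ) * ((s ^ (1 / 2 : ℝ))⁻¹ / 4) := by
          field_simp
      _ ≤ _ := h7
      _ = 4 * C * 8 ^ (1 / 2 * α) * s ^ (1 / 2 : ℝ) := by
          field_simp
  have htend := tendsto_rpow_atTop hβ0
  have hev := (htend.eventually_gt_atTop (4 * C * 8 ^ (α / 2))).and
    (Filter.eventually_ge_atTop (2 : ℝ))
  obtain ⟨s, hs1, hs2⟩ := hev.exists
  exact absurd (hbound s hs2) (not_le.2 hs1)

end Vale.Agent.P074
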